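import Vale.Agent.P219.Sharp.Defs

/-!
# P219, the sharp constant: the tree of weights and the entropy gain of a block
-/

noncomputable section

open MeasureTheory Set Filter Topology

namespace Vale.Agent.P219.CH.Sharp

variable {n : ℕ} {X Y : Type*} {v : Fin n → X → ℝ} {F F' : (X → ℝ) → ℝ} {W : X → ℝ}

lemma stepAvg_le {w : X → ℝ} (h₁ : F (fun y => W y * (1 + w y)) ≤ F' (fun y => W y * (1 + w y)))
    (h₂ : F (fun y => W y * (1 - w y)) ≤ F' (fun y => W y * (1 - w y))) :
    stepAvg w F W ≤ stepAvg w F' W := by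
  unfold stepAvg; linarith

lemma blockAvg_mono : ∀ (ks : List (Fin n)) {W : X → ℝ},
    (∀ W' ∈ children v ks W, F W' ≤ F' W') → blockAvg v ks F W ≤ blockAvg v ks F' W
  | [], W, h => h W rfl
  | _ :: ks, W, h => stepAvg_le (blockAvg_mono ks fun W' hW => h W' (Or.inl hW))
      (blockAvg_mono ks fun W' hW => h W' (Or.inr hW))

lemma blockAvg_add : ∀ (ks : List (Fin n)) (W : X → ℝ),
    blockAvg v ks (fun W => F W + F' W) W = blockAvg v ks F W + blockAvg v ks F' W
  | [], _ => rfl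
  | k :: ks, W => by simp only [blockAvg, stepAvg, blockAvg_add ks]; ring

lemma blockAvg_const_mul (a : ℝ) : ∀ (ks : List (Fin n)) (W : X → ℝ),
    blockAvg v ks (fun W => a * F W) W = a * blockAvg v ks F W
  | [], _ => rfl
  | k :: ks, W => by simp only [blockAvg, stepAvg, blockAvg_const_mul a ks]; ring

lemma blockAvg_eval (y : X) : ∀ (ks : List (Fin n)) (W : X → ℝ),
    blockAvg v ks (fun W => W y) W = W y
  | [], _ => rfl
  | k :: ks, W => by simp only [blockAvg, stepAvg, blockAvg_eval y ks]; ring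

variable {ctr : (X → ℝ) → Y} {vv : Y → Fin n → X → ℝ} {N : Set Y}

lemma chanAvg_succ : ∀ (j : ℕ) (F : (X → ℝ) → ℝ) (W : X → ℝ),
    chanAvg ctr vv (j + 1) F W =
      chanAvg ctr vv j (fun W' => blockAvg (vv (ctr W')) (List.finRange n) F W') W
  | 0, _, _ => rfl
  | j + 1, F, W => by
      rw [chanAvg, funext (chanAvg_succ j F)]
      rfl

lemma children_subset_nodes {j : ℕ} (hW : W ∈ nodes N vv j) {c : Y} (hc : c ∈ N) :
    children (vv c) (List.finRange n) W ⊆ nodes N vv (j + 1) := fun W' h' => by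
  simp only [nodes, mem_iUnion]
  exact ⟨W, hW, c, hc, h'⟩

lemma chanAvg_mono (hN : ∀ W, ctr W ∈ N) : ∀ (j : ℕ) {F F' : (X → ℝ) → ℝ},
    (∀ W ∈ nodes N vv j, F W ≤ F' W) →
    chanAvg ctr vv j F (fun _ => 1) ≤ chanAvg ctr vv j F' (fun _ => 1)
  | 0, _, _, h => h _ rfl
  | j + 1, F, F', h => by
      rw [chanAvg_succ, chanAvg_succ]
      exact chanAvg_mono hN j fun W hW =>
        blockAvg_mono _ fun W' hW' => h W' (children_subset_nodes hW (hN W) hW')

lemma chanAvg_congr (hN : ∀ W, ctr W ∈ N) {j : ℕ} (h : ∀ W ∈ nodes N vv j, F W = F' W) :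
    chanAvg ctr vv j F (fun _ => 1) = chanAvg ctr vv j F' (fun _ => 1) :=
  le_antisymm (chanAvg_mono hN j fun W hW => (h W hW).le)
    (chanAvg_mono hN j fun W hW => (h W hW).ge)

lemma chanAvg_add : ∀ (j : ℕ) (F F' : (X → ℝ) → ℝ) (W : X → ℝ),
    chanAvg ctr vv j (fun W => F W + F' W) W = chanAvg ctr vv j F W + chanAvg ctr vv j F' W
  | 0, _, _, _ => rfl
  | j + 1, F, F', W => by
      simp only [chanAvg]
      rw [funext (chanAvg_add j F F'), blockAvg_add]

lemma chanAvg_const_mul (a : ℝ) : ∀ (j : ℕ) (F : (X → ℝ) → ℝ) (W : X → ℝ),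
    chanAvg ctr vv j (fun W => a * F W) W = a * chanAvg ctr vv j F W
  | 0, _, _ => rfl
  | j + 1, F, W => by
      simp only [chanAvg]
      rw [funext (chanAvg_const_mul a j F), blockAvg_const_mul]

lemma chanAvg_eval (y : X) : ∀ (j : ℕ) (W : X → ℝ), chanAvg ctr vv j (fun W => W y) W = W y
  | 0, _ => rfl
  | j + 1, W => by
      simp only [chanAvg]
      rw [funext (chanAvg_eval y j), blockAvg_eval]

lemma children_finite : ∀ (ks : List (Fin n)) (W : X → ℝ), (children v ks W).Finite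
  | [], W => finite_singleton W
  | _ :: ks, _ => (children_finite ks _).union (children_finite ks _)

lemma nodes_finite (hN : N.Finite) : ∀ j, (nodes N vv j).Finite
  | 0 => finite_singleton _
  | j + 1 => (nodes_finite hN j).biUnion fun W _ => hN.biUnion fun c _ => children_finite _ W

/-- A property kept by every sign step holds at all nodes. -/
lemma nodes_induction {p : (X → ℝ) → Prop} (h1 : p fun _ => 1)
    (hstep : ∀ c ∈ N, ∀ k W, p W → p (fun y => W y * (1 + vv c k y)) ∧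
      p (fun y => W y * (1 - vv c k y))) : ∀ j, ∀ W ∈ nodes N vv j, p W
  | 0, W, hW => by rw [show W = fun _ => 1 from hW]; exact h1
  | j + 1, W, hW => by
      simp only [nodes, mem_iUnion] at hW
      obtain ⟨W₀, hW₀, c, hc, hW⟩ := hW
      have key : ∀ ks (W₁ : X → ℝ), p W₁ → W ∈ children (vv c) ks W₁ → p W := by
        intro ks
        induction ks with
        | nil => intro W₁ h hW; rwa [show W = W₁ from hW]
        | cons k ks ih =>
            intro W₁ h hW
            rcases hW with hW | hW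
            · exact ih _ (hstep c hc k W₁ h).1 hW
            · exact ih _ (hstep c hc k W₁ h).2 hW
      exact key _ _ (nodes_induction h1 hstep j W₀ hW₀) hW

/-! ## Integrals over the tree -/

variable [TopologicalSpace X] {K : Set X}

/-- Positive and continuous on `K`. -/
def PosOn (K : Set X) (W : X → ℝ) : Prop := ContinuousOn W K ∧ ∀ y ∈ K, 0 < W y

lemma PosOn.mul_step (hW : PosOn K W) {w : X → ℝ} (hw : ContinuousOn w K)
    (hb : ∀ y ∈ K, |w y| < 1) :
    PosOn K (fun y => W y * (1 + w y)) ∧ PosOn K (fun y => W y * (1 - w y)) :=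
  ⟨⟨hW.1.mul (continuousOn_const.add hw),
      fun y hy => mul_pos (hW.2 y hy) (by linarith [(abs_lt.1 (hb y hy)).1])⟩,
    ⟨hW.1.mul (continuousOn_const.sub hw),
      fun y hy => mul_pos (hW.2 y hy) (by linarith [(abs_lt.1 (hb y hy)).2])⟩⟩

lemma nodes_posOn (hc : ∀ c ∈ N, ∀ k, ContinuousOn (vv c k) K)
    (hb : ∀ c ∈ N, ∀ k, ∀ y ∈ K, |vv c k y| < 1) (j : ℕ) :
    ∀ W ∈ nodes N vv j, PosOn K W :=
  nodes_induction ⟨continuousOn_const, fun _ _ => one_pos⟩
    (fun c hcN k _ hW => hW.mul_step (hc c hcN k) (hb c hcN k)) j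

variable [MeasurableSpace X] [OpensMeasurableSpace X] [T2Space X] {μ : Measure X}
  [IsFiniteMeasure μ]

/-- A function continuous on the compact carrier is integrable. -/
lemma integrable_carrier (hK : IsCompact K) (hμ : ∀ᵐ y ∂μ, y ∈ K) {f : X → ℝ}
    (hf : ContinuousOn f K) : Integrable f μ := by
  have h1 : IntegrableOn f K μ := hf.integrableOn_compact hK
  rwa [IntegrableOn, Measure.restrict_eq_self_of_ae_mem hμ] at h1

lemma integral_blockAvg (hK : IsCompact K) (hμ : ∀ᵐ y ∂μ, y ∈ K) {g : (X → ℝ) → X → ℝ} :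
    ∀ (ks : List (Fin n)) (W : X → ℝ), (∀ W' ∈ children v ks W, ContinuousOn (g W') K) →
      blockAvg v ks (fun W => ∫ y, g W y ∂μ) W = ∫ y, blockAvg v ks (fun W => g W y) W ∂μ ∧
        ContinuousOn (fun y => blockAvg v ks (fun W => g W y) W) K
  | [], W, h => ⟨rfl, h W rfl⟩
  | k :: ks, W, h => by
      obtain ⟨e₁, c₁⟩ := integral_blockAvg hK hμ ks (fun y => W y * (1 + v k y))
        fun W' hW => h W' (Or.inl hW)
      obtain ⟨e₂, c₂⟩ := integral_blockAvg hK hμ ks (fun y => W y * (1 - v k y))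
        fun W' hW => h W' (Or.inr hW)
      refine ⟨?_, (c₁.add c₂).div_const 2⟩
      simp only [blockAvg, stepAvg, e₁, e₂]
      rw [← integral_add (integrable_carrier hK hμ c₁) (integrable_carrier hK hμ c₂),
        integral_div]

lemma integral_chanAvg (hK : IsCompact K) (hμ : ∀ᵐ y ∂μ, y ∈ K) (hN : ∀ W, ctr W ∈ N) :
    ∀ (j : ℕ) {g : (X → ℝ) → X → ℝ}, (∀ W ∈ nodes N vv j, ContinuousOn (g W) K) →
      chanAvg ctr vv j (fun W => ∫ y, g W y ∂μ) (fun _ => 1) =
          ∫ y, chanAvg ctr vv j (fun W => g W y) (fun _ => 1) ∂μ ∧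
        ContinuousOn (fun y => chanAvg ctr vv j (fun W => g W y) (fun _ => 1)) K
  | 0, g, h => ⟨rfl, h _ rfl⟩
  | j + 1, g, h => by
      have hb := fun W (hW : W ∈ nodes N vv j) => integral_blockAvg (g := g) (v := vv (ctr W))
        hK hμ (List.finRange n) W fun W' hW' => h W' (children_subset_nodes hW (hN W) hW')
      obtain ⟨e, c⟩ := integral_chanAvg hK hμ hN j
        (g := fun W y => blockAvg (vv (ctr W)) (List.finRange n) (fun W => g W y) W)
        fun W hW => (hb W hW).2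
      simp only [chanAvg_succ]
      exact ⟨(chanAvg_congr hN fun W hW => (hb W hW).1).trans e, c⟩

/-- The total mass is kept. -/
lemma chanAvg_integral_mul (hK : IsCompact K) (hμ : ∀ᵐ y ∂μ, y ∈ K) (hN : ∀ W, ctr W ∈ N) {j : ℕ}
    (hpos : ∀ W ∈ nodes N vv j, PosOn K W) {f : X → ℝ} (hf : ContinuousOn f K) :
    chanAvg ctr vv j (fun W => ∫ y, W y * f y ∂μ) (fun _ => 1) = ∫ y, f y ∂μ := by
  rw [(integral_chanAvg hK hμ hN j (g := fun W y => W y * f y) fun W hW => (hpos W hW).1.mul hf).1]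
  refine integral_congr_ae (Eventually.of_forall fun y => ?_)
  simp only
  rw [show (fun W : X → ℝ => W y * f y) = fun W => f y * W y from funext fun W => mul_comm _ _,
    chanAvg_const_mul, chanAvg_eval, mul_one]

/-! ## The entropy drop -/

lemma log_one_add_ge {x b : ℝ} (hx : |x| ≤ b) (hb : b < 1) :
    x - x ^ 2 / (2 * (1 - b)) ≤ Real.log (1 + x) := by
  obtain ⟨h1, h2⟩ := abs_le.1 hx
  rcases le_or_gt 0 x with h0 | h0
  · have h3 := Real.le_log_one_add_of_nonneg h0
    have h4 : x - x ^ 2 / 2 ≤ 2 * x / (x + 2) := by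
      rw [le_div_iff₀ (by linarith)]; nlinarith [mul_nonneg h0 (mul_nonneg h0 h0)]
    have h5 : x ^ 2 / 2 ≤ x ^ 2 / (2 * (1 - b)) :=
      div_le_div_of_nonneg_left (sq_nonneg x) (by linarith) (by linarith)
    linarith
  · set f : ℝ → ℝ := fun t => Real.log (1 + t) - t + t ^ 2 / (2 * (1 - b))
    have hd : ∀ t ∈ Icc x 0, HasDerivAt f (1 / (1 + t) - 1 + t / (1 - b)) t := fun t ht => by
      have e1 : HasDerivAt (fun t : ℝ => Real.log (1 + t)) (1 / (1 + t)) t := by
        simpa using ((hasDerivAt_id t).const_add 1).log (by simp; linarith [ht.1])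
      refine ((e1.sub (hasDerivAt_id t)).add ((hasDerivAt_pow 2 t).div_const _)).congr_deriv ?_
      field_simp
      ring
    have hanti : AntitoneOn f (Icc x 0) := antitoneOn_of_deriv_nonpos (convex_Icc _ _)
      (fun t ht => (hd t ht).continuousAt.continuousWithinAt)
      (fun t ht => (hd t (interior_subset ht)).differentiableAt.differentiableWithinAt) fun t ht => by
        rw [interior_Icc] at ht
        rw [(hd t (Ioo_subset_Icc_self ht)).deriv]
        have e : 1 / (1 + t) - 1 + t / (1 - b) = t * (b + t) / ((1 + t) * (1 - b)) := by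
          have n1 : (1 + t) ≠ 0 := by linarith [ht.1]
          have n2 : (1 - b) ≠ 0 := by linarith
          field_simp
          ring
        rw [e]
        exact div_nonpos_of_nonpos_of_nonneg (mul_nonpos_of_nonpos_of_nonneg ht.2.le
          (by linarith [ht.1])) (mul_nonneg (by linarith [ht.1]) (by linarith))
    have := hanti (left_mem_Icc.2 h0.le) (right_mem_Icc.2 h0.le) h0.le
    simp only [f] at this
    norm_num at this
    linarith

/-- Two-point entropy. -/
def twoEnt (x : ℝ) : ℝ := ((1 + x) * Real.log (1 + x) + (1 - x) * Real.log (1 - x)) / 2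

lemma twoEnt_ge {x b : ℝ} (hx : |x| ≤ b) (hb : b < 1 / 2) : (1 - 2 * b) * x ^ 2 / 2 ≤ twoEnt x := by
  obtain ⟨hl, hu⟩ := abs_le.1 hx
  have h1 := mul_le_mul_of_nonneg_left (log_one_add_ge hx (by linarith)) (by linarith : 0 ≤ 1 + x)
  have h2 := mul_le_mul_of_nonneg_left (log_one_add_ge (abs_neg x ▸ hx) (by linarith))
    (by linarith : 0 ≤ 1 - x)
  rw [← sub_eq_add_neg] at h2
  have e : ((1 + x) * (x - x ^ 2 / (2 * (1 - b))) + (1 - x) * (-x - (-x) ^ 2 / (2 * (1 - b)))) / 2
      = x ^ 2 * ((1 - 2 * b) / (2 * (1 - b))) := by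
    field_simp [show (1 - b) ≠ 0 by linarith]
    ring
  have h3 : (1 - 2 * b) / 2 ≤ (1 - 2 * b) / (2 * (1 - b)) :=
    div_le_div_of_nonneg_left (by linarith) (by linarith) (by linarith [abs_nonneg x])
  have h4 := mul_le_mul_of_nonneg_left h3 (sq_nonneg x)
  unfold twoEnt
  linarith

lemma twoEnt_le {x : ℝ} (hx : |x| < 1) : twoEnt x ≤ x ^ 2 := by
  obtain ⟨hl, hu⟩ := abs_lt.1 hx
  have h1 := mul_le_mul_of_nonneg_left
    (Real.log_le_sub_one_of_pos (by linarith : 0 < 1 + x)) (by linarith : 0 ≤ 1 + x)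
  have h2 := mul_le_mul_of_nonneg_left
    (Real.log_le_sub_one_of_pos (by linarith : 0 < 1 - x)) (by linarith : 0 ≤ 1 - x)
  unfold twoEnt
  nlinarith

variable [NeZero μ]

lemma integral_pos_of_posOn (hK : IsCompact K) (hμ : ∀ᵐ y ∂μ, y ∈ K) (hW : PosOn K W) :
    0 < ∫ y, W y ∂μ := by
  rw [integral_pos_iff_support_of_nonneg_ae (hμ.mono fun y hy => (hW.2 y hy).le)
    (integrable_carrier hK hμ hW.1)]
  have : μ (Function.support W) = μ univ := by
    refine measure_congr (eventuallyEq_univ.2 (hμ.mono fun y hy => ?_))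
    exact (hW.2 y hy).ne'
  rw [this]
  simp [pos_iff_ne_zero, NeZero.ne μ]

/-- The entropy drop of one sign step. -/
lemma ent_step (hK : IsCompact K) (hμ : ∀ᵐ y ∂μ, y ∈ K) (hW : PosOn K W) {w : X → ℝ}
    (hw : ContinuousOn w K) {b : ℝ} (hb : b < 1 / 2) (hwb : ∀ y ∈ K, |w y| ≤ b) :
    stepAvg w (ent μ) W + (1 - 2 * b) / 2 * ∫ y, W y * w y ^ 2 ∂μ ≤
      ent μ W + (∫ y, W y * w y ∂μ) ^ 2 / ∫ y, W y ∂μ := by
  obtain ⟨hp, hm⟩ := hW.mul_step hw fun y hy => (hwb y hy).trans_lt (by linarith)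
  have hI : ∀ {f : X → ℝ}, ContinuousOn f K → Integrable f μ := fun hf => integrable_carrier hK hμ hf
  have hI2 : ∀ {f g : X → ℝ}, ContinuousOn f K → ContinuousOn g K →
      Integrable (fun y => f y * g y) μ := fun hf hg => hI (hf.mul hg)
  have hZ := integral_pos_of_posOn hK hμ hW
  have hZp := integral_pos_of_posOn hK hμ hp
  have hZm := integral_pos_of_posOn hK hμ hm
  set Z := ∫ y, W y ∂μ
  set a := ∫ y, W y * w y ∂μ
  have ep : ∫ y, W y * (1 + w y) ∂μ = Z + a := by
    rw [← integral_add (hI hW.1) (hI2 hW.1 hw)]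
    exact integral_congr_ae (Eventually.of_forall fun y => by simp only [Pi.mul_apply]; ring)
  have em : ∫ y, W y * (1 - w y) ∂μ = Z - a := by
    rw [← integral_sub (hI hW.1) (hI2 hW.1 hw)]
    exact integral_congr_ae (Eventually.of_forall fun y => by simp only [Pi.mul_apply]; ring)
  have hlog : ∀ {V : X → ℝ}, PosOn K V → ContinuousOn (fun y => V y * Real.log (V y)) K :=
    fun hV => hV.1.mul (hV.1.log fun y hy => (hV.2 y hy).ne')
  have eent : ∀ {V : X → ℝ}, PosOn K V → ent μ V =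
      (∫ y, V y ∂μ) * Real.log (∫ y, V y ∂μ) - ∫ y, V y * Real.log (V y) ∂μ := fun {V} hV => by
    rw [ent, ← integral_mul_const, ← integral_sub ((hI hV.1).mul_const _) (hI (hlog hV))]
    exact integral_congr_ae (Eventually.of_forall fun y => by ring)
  rw [stepAvg, eent hp, eent hm, eent hW, ep, em]
  rw [ep] at hZp
  rw [em] at hZm
  have hr : |a / Z| < 1 := by
    rw [abs_div, abs_of_pos hZ, div_lt_one hZ, abs_lt]
    constructor <;> linarith
  have hA : ((Z + a) * Real.log (Z + a) + (Z - a) * Real.log (Z - a)) / 2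
      = Z * Real.log Z + Z * twoEnt (a / Z) := by
    obtain ⟨r1, r2⟩ := abs_lt.1 hr
    rw [show Z + a = Z * (1 + a / Z) by field_simp, show Z - a = Z * (1 - a / Z) by field_simp,
      Real.log_mul hZ.ne' (by linarith), Real.log_mul hZ.ne' (by linarith), twoEnt]
    ring
  have hA' : Z * twoEnt (a / Z) ≤ a ^ 2 / Z := by
    refine (mul_le_mul_of_nonneg_left (twoEnt_le hr) hZ.le).trans (le_of_eq ?_)
    field_simp
  have hB : ∫ y, W y * Real.log (W y) ∂μ + (1 - 2 * b) / 2 * ∫ y, W y * w y ^ 2 ∂μ ≤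
      ((∫ y, W y * (1 + w y) * Real.log (W y * (1 + w y)) ∂μ) +
        ∫ y, W y * (1 - w y) * Real.log (W y * (1 - w y)) ∂μ) / 2 := by
    have iq : Integrable (fun y => (1 - 2 * b) / 2 * (W y * w y ^ 2)) μ :=
      (hI2 hW.1 (hw.pow 2)).const_mul _
    rw [← integral_add (hI (hlog hp)) (hI (hlog hm)), ← integral_div, ← integral_const_mul,
      ← integral_add (hI (hlog hW)) iq]
    refine integral_mono_ae ((hI (hlog hW)).add ((hI2 hW.1 (hw.pow 2)).const_mul _))
      (((hI (hlog hp)).add (hI (hlog hm))).div_const _) (hμ.mono fun y hy => ?_)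
    obtain ⟨b1, b2⟩ := abs_le.1 (hwb y hy)
    have h1 := mul_le_mul_of_nonneg_left (twoEnt_ge (hwb y hy) hb) (hW.2 y hy).le
    simp only [Pi.add_apply, Pi.mul_apply, Pi.pow_apply]
    rw [Real.log_mul (hW.2 y hy).ne' (by linarith), Real.log_mul (hW.2 y hy).ne' (by linarith)]
    simp only [twoEnt] at h1
    linarith
  linarith

/-- The entropy drop of a block with nearly centred steps. -/
lemma ent_block (hK : IsCompact K) (hμ : ∀ᵐ y ∂μ, y ∈ K) (hv : ∀ k, ContinuousOn (v k) K)
    {b a : ℝ} (hb0 : 0 ≤ b) (hb : b < 1 / 2) (hvb : ∀ k, ∀ y ∈ K, |v k y| ≤ b) (hW : PosOn K W)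
    (ha : ∀ k, |∫ y, W y * v k y ∂μ| ≤ a * ∫ y, W y ∂μ)
    (hρ : (1 + b) ^ n - 1 ≤ 1 / 2) :
    ∀ (ks : List (Fin n)), ks.length ≤ n →
      blockAvg v ks (ent μ) W + (1 - 2 * b) / 2 * ∫ y, W y * (ks.map fun k => v k y ^ 2).sum ∂μ ≤
        ent μ W + ks.length * (2 * (a + ((1 + b) ^ n - 1) * b) ^ 2 * ∫ y, W y ∂μ) := by
  set ρ := (1 + b) ^ n - 1
  set Z := ∫ y, W y ∂μ
  have hI : ∀ {f : X → ℝ}, ContinuousOn f K → Integrable f μ := fun hf => integrable_carrier hK hμ hf
  have hI2 : ∀ {f g : X → ℝ}, ContinuousOn f K → ContinuousOn g K →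
      Integrable (fun y => f y * g y) μ := fun hf hg => hI (hf.mul hg)
  have hZ : 0 < Z := integral_pos_of_posOn hK hμ hW
  have hsum : ∀ ks : List (Fin n), ContinuousOn (fun y => (ks.map fun k => v k y ^ 2).sum) K := by
    intro ks
    induction ks with
    | nil => simp only [List.map_nil, List.sum_nil]; exact continuousOn_const
    | cons k ks ih => simp only [List.map_cons, List.sum_cons]; exact ((hv k).pow 2).add ih
  suffices key : ∀ (ks : List (Fin n)) (i : ℕ) (V : X → ℝ), i + ks.length ≤ n → PosOn K V →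
      (∀ y ∈ K, (1 - b) ^ i * W y ≤ V y ∧ V y ≤ (1 + b) ^ i * W y) →
      blockAvg v ks (ent μ) V + (1 - 2 * b) / 2 * ∫ y, V y * (ks.map fun k => v k y ^ 2).sum ∂μ ≤
        ent μ V + ks.length * (2 * (a + ρ * b) ^ 2 * Z) by
    intro ks hks
    exact key ks 0 W (by simpa using hks) hW fun y _ => by simp
  intro ks
  induction ks with
  | nil => intro i V _ _ _; simp [blockAvg]
  | cons k ks ih =>
    intro i V hi hV hVW
    rw [List.length_cons] at hi
    obtain ⟨hp, hm⟩ := hV.mul_step (hv k) fun y hy => (hvb k y hy).trans_lt (by linarith)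
    have hbd : ∀ y ∈ K, 1 - b ≤ 1 + v k y ∧ 1 + v k y ≤ 1 + b ∧ 1 - b ≤ 1 - v k y ∧
        1 - v k y ≤ 1 + b := fun y hy => by
      obtain ⟨b1, b2⟩ := abs_le.1 (hvb k y hy)
      refine ⟨?_, ?_, ?_, ?_⟩ <;> linarith
    have hnext : ∀ (f : X → ℝ), (∀ y ∈ K, 1 - b ≤ f y ∧ f y ≤ 1 + b) → ∀ y ∈ K,
        (1 - b) ^ (i + 1) * W y ≤ V y * f y ∧ V y * f y ≤ (1 + b) ^ (i + 1) * W y := fun f hf y hy => by
      have hw := (hW.2 y hy).le
      have hVp := (hV.2 y hy).le
      constructor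
      · calc (1 - b) ^ (i + 1) * W y = (1 - b) ^ i * W y * (1 - b) := by ring
          _ ≤ V y * f y := mul_le_mul (hVW y hy).1 (hf y hy).1 (by linarith) hVp
      · calc V y * f y ≤ (1 + b) ^ i * W y * (1 + b) :=
              mul_le_mul (hVW y hy).2 (hf y hy).2 (by linarith [(hf y hy).1]) (by positivity)
          _ = _ := by ring
    have ihp := ih (i + 1) _ (by omega) hp
      (hnext _ fun y hy => ⟨(hbd y hy).1, (hbd y hy).2.1⟩)
    have ihm := ih (i + 1) _ (by omega) hm
      (hnext _ fun y hy => ⟨(hbd y hy).2.2.1, (hbd y hy).2.2.2⟩)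
    have hstep := ent_step hK hμ hV (hv k) hb (hvb k)
    have hρ0 : 0 ≤ ρ := by
      have := one_le_pow₀ (n := n) (by linarith : (1:ℝ) ≤ 1 + b); simp only [ρ]; linarith
    have hclose : ∀ y ∈ K, |V y - W y| ≤ ρ * W y := fun y hy => by
      have hw := (hW.2 y hy).le
      have hu : (1 + b) ^ i ≤ (1 + b) ^ n := pow_le_pow_right₀ (by linarith) (by omega)
      have hlo : 2 ≤ (1 + b) ^ i + (1 - b) ^ i := by
        have h1 := one_add_mul_le_pow (by linarith : (-2 : ℝ) ≤ b) i
        have h2 := one_add_mul_le_pow (by linarith : (-2 : ℝ) ≤ -b) i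
        rw [← sub_eq_add_neg] at h2
        linarith
      rw [abs_le]
      simp only [ρ]
      constructor <;> nlinarith [(hVW y hy).1, (hVW y hy).2]
    have hmean : (∫ y, V y * v k y ∂μ) ^ 2 / ∫ y, V y ∂μ ≤ 2 * (a + ρ * b) ^ 2 * Z := by
      have h1 : |∫ y, V y * v k y ∂μ - ∫ y, W y * v k y ∂μ| ≤ ρ * b * Z := by
        rw [← integral_sub (hI2 hV.1 (hv k)) (hI2 hW.1 (hv k)), ← integral_const_mul]
        refine abs_integral_le_integral_abs.trans (integral_mono_ae
          ((hI2 hV.1 (hv k)).sub (hI2 hW.1 (hv k))).abs ((hI hW.1).const_mul _)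
          (hμ.mono fun y hy => ?_))
        simp only [← sub_mul, abs_mul]
        calc |V y - W y| * |v k y| ≤ ρ * W y * b :=
              mul_le_mul (hclose y hy) (hvb k y hy) (abs_nonneg _) (mul_nonneg hρ0 (hW.2 y hy).le)
          _ = _ := by ring
      have h2 : |∫ y, V y * v k y ∂μ| ≤ (a + ρ * b) * Z := by
        have h3 := ha k
        have h4 := abs_sub_abs_le_abs_sub (∫ y, V y * v k y ∂μ) (∫ y, W y * v k y ∂μ)
        linarith
      have h3 : (1 - ρ) * Z ≤ ∫ y, V y ∂μ := by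
        rw [← integral_const_mul]
        refine integral_mono_ae ((hI hW.1).const_mul _) (hI hV.1) (hμ.mono fun y hy => ?_)
        linarith [(abs_le.1 (hclose y hy)).1]
      rw [div_le_iff₀ (integral_pos_of_posOn hK hμ hV), ← sq_abs]
      refine (pow_le_pow_left₀ (abs_nonneg _) h2 2).trans ?_
      have h5 := mul_le_mul_of_nonneg_left h3
        (mul_nonneg (mul_nonneg zero_le_two (sq_nonneg (a + ρ * b))) hZ.le)
      have h6 := mul_le_mul_of_nonneg_left hρ (mul_nonneg (sq_nonneg (a + ρ * b)) (sq_nonneg Z))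
      have h7 : (0:ℝ) ≤ (a + ρ * b) ^ 2 * Z ^ 2 := by positivity
      nlinarith
    have esum : ∫ y, V y * ((k :: ks).map fun k => v k y ^ 2).sum ∂μ =
        (∫ y, V y * v k y ^ 2 ∂μ) + ((∫ y, V y * (1 + v k y) * (ks.map fun k => v k y ^ 2).sum ∂μ) +
          ∫ y, V y * (1 - v k y) * (ks.map fun k => v k y ^ 2).sum ∂μ) / 2 := by
      have iq : Integrable (fun y => V y * v k y ^ 2) μ := hI2 hV.1 ((hv k).pow 2)
      have ih2 : Integrable (fun y => (V y * (1 + v k y) * (ks.map fun k => v k y ^ 2).sum +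
          V y * (1 - v k y) * (ks.map fun k => v k y ^ 2).sum) / 2) μ :=
        ((hI2 hp.1 (hsum ks)).add (hI2 hm.1 (hsum ks))).div_const _
      rw [← integral_add (hI2 hp.1 (hsum ks)) (hI2 hm.1 (hsum ks)), ← integral_div,
        ← integral_add iq ih2]
      refine integral_congr_ae (Eventually.of_forall fun y => ?_)
      simp only [List.map_cons, List.sum_cons, Pi.add_apply, Pi.mul_apply, Pi.pow_apply]
      ring
    rw [esum]
    unfold stepAvg at hstep
    simp only [blockAvg, stepAvg, List.length_cons, Nat.cast_add, Nat.cast_one]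
    linarith

end Vale.Agent.P219.CH.Sharp
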