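import Vale.Agent.P219.Sharp.Geom
import Vale.Agent.P219.Sharp.Tree

/-!
# P219, the sharp constant: a finite net of centres and near isometry at nearby centres
-/

noncomputable section

open MeasureTheory ProbabilityTheory Set Filter Topology Matrix

namespace Vale.Agent.P219.CH.Sharp

variable {n : ℕ} {G : (Fin n → ℝ) → Matrix (Fin n) (Fin n) ℝ}
  {D : (Fin n → ℝ) → (Fin n → ℝ) → ℝ}

lemma abs_frame_mulVec_le (h : IsCH G D) (c X : Fin n → ℝ) (k : Fin n) :
    |(frame G c *ᵥ X) k| ≤ conorm G c X := by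
  rw [conorm, ← frame_dot h]
  refine Real.abs_le_sqrt ?_
  rw [sq, dotProduct]
  exact Finset.single_le_sum (f := fun i => (frame G c *ᵥ X) i * (frame G c *ᵥ X) i)
    (fun i _ => mul_self_nonneg _) (Finset.mem_univ k)

/-- Finitely many points centre every weight up to `κ`. -/
theorem exists_net (h : IsCH G D) (o : Fin n → ℝ) {R κ : ℝ} (hR : 0 < R) (hκ : 0 < κ) :
    ∃ N : Set (Fin n → ℝ), N.Finite ∧ o ∈ N ∧ (∀ c ∈ N, D o c ≤ R) ∧
      ∀ (μ : Measure (Fin n → ℝ)) [IsFiniteMeasure μ] (W : (Fin n → ℝ) → ℝ),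
        (∀ᵐ y ∂μ, D o y ≤ R) → PosOn {y | D o y ≤ R} W → 0 < ∫ y, W y ∂μ →
        ∃ c ∈ N, ∀ k, |∫ y, W y * ucoord G D c y k ∂μ| ≤ κ * ∫ y, W y ∂μ := by
  set K := {y | D o y ≤ R}
  have hK : IsCompact K := h.proper o R
  obtain ⟨C, hC, hCb⟩ := exists_comparison hK (f := fun p : (Fin n → ℝ) × (Fin n → ℝ) => conorm G p.1 p.2)
    (g := fun p => ‖p.2‖) h.continuous_conorm (continuous_norm.comp continuous_snd)
    (fun y v a ha => by simp [h.conorm_smul, abs_of_nonneg ha])
    (fun y v a ha => by simp [norm_smul, abs_of_nonneg ha]) (fun y _ v hv => norm_pos_iff.2 hv)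
  have huc := (hK.prod hK).uniformContinuousOn_of_continuous
    (contDiff_logCovector h).continuous.continuousOn
  obtain ⟨ρ, hρ, hρb⟩ := Metric.uniformContinuousOn_iff.1 huc (κ / C) (by positivity)
  obtain ⟨t, htK, htf, htc⟩ := hK.finite_cover_balls hρ
  have ho : D o o ≤ R := by rw [h.dist_self]; exact hR.le
  refine ⟨insert o t, htf.insert o, mem_insert _ _, ?_, fun μ _ W hμ hW hZ => ?_⟩
  · rintro c (rfl | hc)
    · exact ho
    · exact htK hc
  obtain ⟨cs, hcs, hzero⟩ := exists_centre h o hR hμ hW.1 hW.2 hZ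
  obtain ⟨c, hc, hball⟩ := mem_iUnion₂.1 (htc hcs)
  refine ⟨c, mem_insert_of_mem o hc, fun k => ?_⟩
  have hcK : c ∈ K := htK hc
  have hI : ∀ {g : (Fin n → ℝ) → ℝ}, Continuous g → Integrable (fun y => W y * g y) μ :=
    fun hg => integrable_carrier hK hμ (hW.1.mul hg.continuousOn)
  have hIW : Integrable W μ := integrable_carrier hK hμ hW.1
  have hcont : ∀ p i, Continuous fun y => cd (D y) p i := fun p i =>
    (continuous_apply i).comp ((contDiff_logCovector h).continuous.comp
      (continuous_const.prodMk continuous_id))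
  set X : Fin n → ℝ := fun i => ∫ y, W y * cd (D y) c i ∂μ
  have e : ∫ y, W y * ucoord G D c y k ∂μ = (frame G c *ᵥ X) k := by
    simp only [ucoord, mulVec, dotProduct, X, Finset.mul_sum]
    rw [integral_finsetSum _ fun i _ => ((hI (hcont c i)).const_mul (frame G c k i)).congr
      (Eventually.of_forall fun y => by ring)]
    refine Finset.sum_congr rfl fun i _ => ?_
    rw [← integral_const_mul]
    exact integral_congr_ae (Eventually.of_forall fun y => by ring)
  rw [e]
  refine (abs_frame_mulVec_le h c X k).trans ((hCb c hcK X).trans ?_)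
  have hX : ‖X‖ ≤ κ / C * ∫ y, W y ∂μ := by
    refine (pi_norm_le_iff_of_nonneg (by positivity)).2 fun i => ?_
    rw [Real.norm_eq_abs, show X i = ∫ y, W y * (cd (D y) c i - cd (D y) cs i) ∂μ by
      simp only [X, mul_sub]
      rw [integral_sub (hI (hcont c i)) (hI (hcont cs i)), hzero i, sub_zero], ← integral_const_mul]
    refine abs_integral_le_integral_abs.trans (integral_mono_ae
      (hI ((hcont c i).sub (hcont cs i))).abs (hIW.const_mul _) ?_)
    filter_upwards [hμ] with y hy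
    have hd : dist (cs, y) (c, y) < ρ := by
      rw [Prod.dist_eq]
      simp only [dist_self]
      rw [max_eq_left dist_nonneg]
      exact hball
    have h1 := (hρb (cs, y) ⟨hcs, hy⟩ (c, y) ⟨hcK, hy⟩ hd).le
    rw [dist_eq_norm] at h1
    have h2 := (norm_le_pi_norm (cd (D y) cs - cd (D y) c) i).trans h1
    rw [Real.norm_eq_abs, Pi.sub_apply, abs_sub_comm] at h2
    rw [abs_mul, abs_of_pos (hW.2 y hy), mul_comm]
    exact mul_le_mul_of_nonneg_right h2 (hW.2 y hy).le
  calc C * ‖X‖ ≤ C * (κ / C * ∫ y, W y ∂μ) := mul_le_mul_of_nonneg_left hX hC.le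
    _ = _ := by field_simp

/-- The derivative in the moving point of the logarithm covector at `c`. -/
def logDeriv (D : (Fin n → ℝ) → (Fin n → ℝ) → ℝ) (c y : Fin n → ℝ) :
    (Fin n → ℝ) →L[ℝ] (Fin n → ℝ) :=
  fderiv ℝ (fun z => cd (D z) c) y

lemma contDiff_logCov (h : IsCH G D) (c : Fin n → ℝ) : ContDiff ℝ 1 fun z => cd (D z) c :=
  (contDiff_logCovector h).comp (contDiff_const.prodMk contDiff_id)

lemma continuous_logDeriv (h : IsCH G D) :
    Continuous fun p : (Fin n → ℝ) × (Fin n → ℝ) => logDeriv D p.1 p.2 :=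
  (ContDiff.fderiv (n := 0) (m := 1)
    (f := fun (p : (Fin n → ℝ) × (Fin n → ℝ)) (z : Fin n → ℝ) => cd (D z) p.1)
    ((contDiff_logCovector h).comp ((contDiff_fst.comp contDiff_fst).prodMk contDiff_snd))
    contDiff_snd (by simp)).continuous

/-- At a point at distance zero the derivative is at least an isometry. -/
lemma qf_le_logDeriv (h : IsCH G D) {c y : Fin n → ℝ} (h0 : D y c = 0) (v : Fin n → ℝ) :
    qf G y v ≤ pairing G c (logDeriv D c y v) (logDeriv D c y v) := by
  refine le_of_forall_lt fun a ha => lt_of_lt_of_le (lt_add_of_pos_right a (half_pos (sub_pos.2 ha))) ?_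
  set b := a + (qf G y v - a) / 2
  have hb : b < qf G y v := by simp only [b]; linarith
  -- the distance grows at least quadratically
  set φ : ℝ → ℝ := fun t => D y (y + t • v)
  set φ' : ℝ → ℝ := fun t => fderiv ℝ (D y) (y + t • v) v
  have hd : ∀ t, HasDerivAt φ (φ' t) t := fun t =>
    ((h.contDiff_D y).differentiable two_ne_zero _).hasFDerivAt.comp_hasDerivAt t
      (by simpa using ((hasDerivAt_id t).smul_const v).const_add y)
  have hcd0 : cd (D y) y = 0 := by
    by_contra hne
    have := h.pairing_self_pos y hne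
    rw [h.eikonal, h.dist_self] at this
    linarith
  have hd2 : HasDerivAt φ' (fderiv ℝ (fderiv ℝ (D y)) y v v) 0 :=
    (ContinuousLinearMap.apply ℝ ℝ v).hasFDerivAt.comp_hasDerivAt 0
      (((((h.contDiff_D y).fderiv_right (m := 1) le_rfl).differentiable one_ne_zero y).hasFDerivAt
        ).comp_hasDerivAt_of_eq 0 (hasDerivAt_line y v) (by simp))
  have hq : qf G y v ≤ fderiv ℝ (fderiv ℝ (D y)) y v v := by
    have := h.hessian y y v
    have hg : grad G (D y) y = 0 := by simp [grad, hcd0]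
    have hz : dG G y (0 : Fin n → ℝ) = 0 := by ext i j; simp [dG]
    simpa [hess, hg, hz, qf] using this
  have hev : ∀ᶠ t in 𝓝[>] (0 : ℝ), b * t ≤ φ' t := by
    have h1 := ((hasDerivAt_iff_tendsto_slope.1 hd2).mono_left
      (nhdsWithin_mono _ fun t (ht : 0 < t) => ne_of_gt ht)).eventually
      (eventually_ge_nhds (hb.trans_le hq))
    filter_upwards [h1, self_mem_nhdsWithin] with t ht ht0
    have e : φ' 0 = 0 := by simp [φ', ← cd_dotProduct, hcd0]
    rw [slope_def_field, e, sub_zero, sub_zero, le_div_iff₀ ht0] at ht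
    exact ht
  obtain ⟨τ, hτ, hτb⟩ := (nhdsGT_basis (0 : ℝ)).eventually_iff.1 hev
  have hlow : ∀ t ∈ Ioo 0 τ, b * t ^ 2 / 2 ≤ φ t := fun t ht => by
    have hmono : MonotoneOn (fun s => φ s - b * s ^ 2 / 2) (Icc 0 t) := by
      have hd3 : ∀ s, HasDerivAt (fun s => φ s - b * s ^ 2 / 2) (φ' s - b * s) s := fun s =>
        ((hd s).sub (((hasDerivAt_pow 2 s).const_mul b).div_const 2)).congr_deriv (by ring)
      refine monotoneOn_of_deriv_nonneg (convex_Icc _ _)
        (fun s _ => (hd3 s).continuousAt.continuousWithinAt)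
        (fun s _ => (hd3 s).differentiableAt.differentiableWithinAt) fun s hs => ?_
      rw [interior_Icc] at hs
      rw [(hd3 s).deriv, sub_nonneg]
      exact hτb ⟨hs.1, hs.2.trans ht.2⟩
    have := hmono (left_mem_Icc.2 ht.1.le) (right_mem_Icc.2 ht.1.le) ht.1.le
    simp only [φ, zero_smul, add_zero, h.dist_self] at this
    linarith
  -- the same distance seen from `c`
  set F : ℝ → Fin n → ℝ := fun t => cd (D (y + t • v)) c
  have hF : HasDerivAt F (logDeriv D c y v) 0 :=
    (((contDiff_logCov h c).differentiable one_ne_zero y).hasFDerivAt).comp_hasDerivAt_of_eq 0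
      (hasDerivAt_line y v) (by simp)
  have hF0 : F 0 = 0 := by
    by_contra hne
    have := h.pairing_self_pos c hne
    simp only [F, zero_smul, add_zero] at this
    rw [h.eikonal, h0] at this
    linarith
  have hpair : ∀ t, pairing G c (F t) (F t) = 2 * φ t := fun t => by
    simp only [F, φ]
    rw [h.eikonal]
    have h1 := dist_triangle h (y + t • v) y c
    have h2 := dist_triangle h (y + t • v) c y
    have h3 : D c y = 0 := by rw [dist_symm h, h0]
    simp only [h0, h3, mul_zero, Real.sqrt_zero, add_zero] at h1 h2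
    have := le_antisymm h1 h2
    rw [Real.sqrt_inj (by linarith [h.dist_nonneg (y + t • v) c])
      (by linarith [h.dist_nonneg (y + t • v) y])] at this
    rw [dist_symm h y]; linarith
  have hlim : Tendsto (fun t => pairing G c (slope F 0 t) (slope F 0 t)) (𝓝[>] 0)
      (𝓝 (pairing G c (logDeriv D c y v) (logDeriv D c y v))) := by
    have hc : Continuous fun p : Fin n → ℝ => pairing G c p p :=
      h.continuous_pairing.comp (continuous_const.prodMk (continuous_id.prodMk continuous_id))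
    exact (hc.tendsto _).comp ((hasDerivAt_iff_tendsto_slope.1 hF).mono_left
      (nhdsWithin_mono _ fun t (ht : 0 < t) => ne_of_gt ht))
  refine ge_of_tendsto hlim ?_
  filter_upwards [Ioo_mem_nhdsGT hτ] with t ht
  have e : slope F 0 t = t⁻¹ • F t := by simp [slope_def_module, hF0]
  rw [e, pairing_smul_left, h.pairing_comm, pairing_smul_left, hpair]
  have := hlow t ht
  have ht0 : 0 < t := ht.1
  calc b = t⁻¹ * (t⁻¹ * (2 * (b * t ^ 2 / 2))) := by field_simp
    _ ≤ _ := by gcongr

/-- At centres near `y` the coordinates nearly preserve short distances around `y`. -/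
theorem exists_near_isometry (h : IsCH G D) {K : Set (Fin n → ℝ)} (hK : IsCompact K) {ω : ℝ}
    (hω : 0 < ω) :
    ∃ r ρ : ℝ, 0 < r ∧ 0 < ρ ∧ ∀ y ∈ K, ∀ c ∈ K, D y c ≤ r → ∀ z z' : Fin n → ℝ,
      ‖z - y‖ ≤ ρ → ‖z' - y‖ ≤ ρ →
        (1 - ω) * qf G y (z - z') ≤
          (ucoord G D c z - ucoord G D c z') ⬝ᵥ (ucoord G D c z - ucoord G D c z') := by
  set Sph := Metric.sphere (0 : Fin n → ℝ) 1
  have hL := continuous_logDeriv h
  have hLv : Continuous fun p : (Fin n → ℝ) × (Fin n → ℝ) × (Fin n → ℝ) =>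
      logDeriv D p.2.1 p.1 p.2.2 :=
    (hL.comp ((continuous_fst.comp continuous_snd).prodMk continuous_fst)).clm_apply
      (continuous_snd.comp continuous_snd)
  have hP : Continuous fun p : (Fin n → ℝ) × (Fin n → ℝ) => pairing G p.1 p.2 p.2 :=
    h.continuous_pairing.comp (continuous_fst.prodMk (continuous_snd.prodMk continuous_snd))
  have hq : Continuous fun p : (Fin n → ℝ) × (Fin n → ℝ) × (Fin n → ℝ) => qf G p.1 p.2.2 :=
    (continuous_qf h).comp (continuous_fst.prodMk (continuous_snd.comp continuous_snd))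
  -- centres
  obtain ⟨r, hr, hrb⟩ : ∃ r : ℝ, 0 < r ∧ ∀ y ∈ K, ∀ c ∈ K, ∀ v ∈ Sph, D y c ≤ r →
      (1 - ω / 2) * qf G y v < pairing G c (logDeriv D c y v) (logDeriv D c y v) := by
    set S : Set ((Fin n → ℝ) × (Fin n → ℝ) × (Fin n → ℝ)) := (K ×ˢ K ×ˢ Sph) ∩
      {p | pairing G p.2.1 (logDeriv D p.2.1 p.1 p.2.2) (logDeriv D p.2.1 p.1 p.2.2) ≤
        (1 - ω / 2) * qf G p.1 p.2.2}
    have hS : IsCompact S := (hK.prod (hK.prod (isCompact_sphere _ _))).inter_right
      (isClosed_le (hP.comp ((continuous_fst.comp continuous_snd).prodMk hLv))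
        (continuous_const.mul hq))
    obtain ⟨r, hr, hrb⟩ := hS.exists_forall_le'
      (h.continuous_D.comp (continuous_fst.prodMk (continuous_fst.comp continuous_snd))).continuousOn
      (a := (0 : ℝ)) (fun p hp => by
        rcases (h.dist_nonneg p.1 p.2.1).eq_or_lt with h0 | h0
        · exfalso
          have hv : p.2.2 ≠ 0 := fun hz => by
            have := hp.1.2.2
            simp [Sph, hz] at this
          have h1 := qf_le_logDeriv h h0.symm p.2.2
          have h2 := qf_pos h p.1 hv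
          have h3 : pairing G p.2.1 (logDeriv D p.2.1 p.1 p.2.2) (logDeriv D p.2.1 p.1 p.2.2) ≤
            (1 - ω / 2) * qf G p.1 p.2.2 := hp.2
          nlinarith
        · exact h0)
    refine ⟨r / 2, half_pos hr, fun y hy c hc v hv hD => lt_of_not_ge fun hle => ?_⟩
    have h1 : r ≤ D y c := hrb (y, c, v) ⟨⟨hy, hc, hv⟩, hle⟩
    linarith
  -- room for an error vector
  obtain ⟨η, hη, hηb⟩ : ∃ η : ℝ, 0 < η ∧ ∀ y ∈ K, ∀ c ∈ K, ∀ v ∈ Sph, D y c ≤ r → ∀ e : Fin n → ℝ,
      ‖e‖ ≤ η → (1 - ω) * qf G y v ≤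
        pairing G c (logDeriv D c y v + e) (logDeriv D c y v + e) := by
    set S : Set (((Fin n → ℝ) × (Fin n → ℝ) × (Fin n → ℝ)) × (Fin n → ℝ)) :=
      (((K ×ˢ K ×ˢ Sph) ∩ {p | D p.1 p.2.1 ≤ r}) ×ˢ Metric.closedBall 0 1) ∩
      {p | pairing G p.1.2.1 (logDeriv D p.1.2.1 p.1.1 p.1.2.2 + p.2)
          (logDeriv D p.1.2.1 p.1.1 p.1.2.2 + p.2) ≤ (1 - ω) * qf G p.1.1 p.1.2.2}
    have hS : IsCompact S := (((hK.prod (hK.prod (isCompact_sphere _ _))).inter_right
      (isClosed_le (h.continuous_D.comp (continuous_fst.prodMk (continuous_fst.comp continuous_snd)))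
        continuous_const)).prod (isCompact_closedBall _ _)).inter_right
      (isClosed_le (hP.comp (((continuous_fst.comp continuous_snd).comp continuous_fst).prodMk
        ((hLv.comp continuous_fst).add continuous_snd))) (continuous_const.mul (hq.comp continuous_fst)))
    obtain ⟨η, hη, hηb⟩ := hS.exists_forall_le' continuous_snd.norm.continuousOn (a := (0 : ℝ))
      (fun p hp => norm_pos_iff.2 fun hz => by
        obtain ⟨⟨⟨⟨hy, hc, hv⟩, hD⟩, -⟩, hle⟩ := hp
        simp only [mem_setOf_eq, hz, add_zero] at hle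
        have h1 := hrb _ hy _ hc _ hv hD
        have h2 := qf_nonneg h p.1.1 p.1.2.2
        nlinarith)
    refine ⟨min (η / 2) 1, by positivity, fun y hy c hc v hv hD e he => le_of_lt <| lt_of_not_ge fun hle => ?_⟩
    have h1 : η ≤ ‖e‖ := hηb ((y, c, v), e)
      ⟨⟨⟨⟨hy, hc, hv⟩, hD⟩, mem_closedBall_zero_iff.2 (he.trans (min_le_right _ _))⟩, hle⟩
    linarith [he.trans (min_le_left _ _)]
  obtain ⟨B, hB⟩ := hK.isBounded.subset_closedBall (0 : Fin n → ℝ)
  obtain ⟨ρ, hρ, hρb⟩ := Metric.uniformContinuousOn_iff.1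
    ((hK.prod (isCompact_closedBall (0 : Fin n → ℝ) (B + 1))).uniformContinuousOn_of_continuous
      hL.continuousOn) η hη
  refine ⟨r, min (ρ / 2) 1, hr, by positivity, fun y hy c hc hD z z' hz hz' => ?_⟩
  rcases eq_or_ne z z' with rfl | hne
  · simp [qf]
  have hd : 0 < ‖z - z'‖ := norm_pos_iff.2 (sub_ne_zero.2 hne)
  set v := ‖z - z'‖⁻¹ • (z - z') with hv_def
  have hv : v ∈ Sph := by simp [Sph, v, norm_smul, hd.ne']
  set Δ := cd (D z) c - cd (D z') c
  have hyB : ‖y‖ ≤ B := by simpa using hB hy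
  have hin : ∀ w ∈ Metric.closedBall y (min (ρ / 2) 1), ‖logDeriv D c w - logDeriv D c y‖ ≤ η := by
    intro w hw
    rw [Metric.mem_closedBall, dist_eq_norm] at hw
    have hw1 := hw.trans (min_le_right _ _)
    have hwB : ‖w‖ ≤ B + 1 := by linarith [norm_le_norm_add_norm_sub' w y]
    have h1 := hρb (c, w) ⟨hc, mem_closedBall_zero_iff.2 hwB⟩ (c, y)
      ⟨hc, mem_closedBall_zero_iff.2 (by linarith)⟩ (by
        rw [Prod.dist_eq]
        simp only [dist_self]
        rw [max_eq_right dist_nonneg, dist_eq_norm]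
        linarith [hw.trans (min_le_left _ _)])
    rw [dist_eq_norm] at h1
    exact h1.le
  have hmem : ∀ w, ‖w - y‖ ≤ min (ρ / 2) 1 → w ∈ Metric.closedBall y (min (ρ / 2) 1) := fun w hw => by
    rwa [Metric.mem_closedBall, dist_eq_norm]
  have hmv := (convex_closedBall y (min (ρ / 2) 1)).norm_image_sub_le_of_norm_fderiv_le'
    (f := fun z => cd (D z) c) (φ := logDeriv D c y) (C := η)
    (fun w _ => (contDiff_logCov h c).differentiable one_ne_zero w) hin (hmem _ hz') (hmem _ hz)
  set e := ‖z - z'‖⁻¹ • (Δ - logDeriv D c y (z - z'))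
  have he : ‖e‖ ≤ η := by
    rw [norm_smul, norm_inv, norm_norm, inv_mul_le_iff₀ hd, mul_comm]
    exact hmv
  have key := hηb y hy c hc v hv hD e he
  have e1 : logDeriv D c y v + e = ‖z - z'‖⁻¹ • Δ := by
    rw [hv_def, map_smul]; simp only [e, Δ, smul_sub, map_sub]; abel
  rw [e1, pairing_smul_left, h.pairing_comm, pairing_smul_left] at key
  rw [show qf G y v = (‖z - z'‖⁻¹) ^ 2 * qf G y (z - z') from qf_smul _ _ _] at key
  have e2 : (ucoord G D c z - ucoord G D c z') ⬝ᵥ (ucoord G D c z - ucoord G D c z') =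
      pairing G c Δ Δ := by
    rw [ucoord, ucoord, ← mulVec_sub, frame_dot h]
  rw [e2]
  have hi : 0 < ‖z - z'‖⁻¹ := inv_pos.2 hd
  nlinarith [mul_pos hi hi]

end Vale.Agent.P219.CH.Sharp
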