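import Mathlib

/-!
# P219, the sharp constant: the Euclidean constant in large dimension
-/

noncomputable section

open MeasureTheory Set Filter
open scoped ENNReal Real

namespace Vale.Agent.P219.CH.Sharp

/-- The elementary lower bound of Stirling type. -/
theorem rpow_mul_exp_le_Gamma {x : ℝ} (hx : 0 < x) :
    x ^ x * Real.exp (-x) ≤ Real.Gamma (x + 1) := by
  rw [Real.Gamma_eq_integral (by linarith)]
  have hi := Real.GammaIntegral_convergent (show 0 < x + 1 by linarith)
  calc x ^ x * Real.exp (-x) = ∫ t in Ioi x, x ^ x * Real.exp (-t) := by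
        rw [integral_const_mul, integral_exp_neg_Ioi]
    _ ≤ ∫ t in Ioi x, Real.exp (-t) * t ^ (x + 1 - 1) := by
        refine setIntegral_mono_on ?_ (hi.mono_set (Ioi_subset_Ioi hx.le)) measurableSet_Ioi
          fun t ht => ?_
        · exact (exp_neg_integrableOn_Ioi x one_pos |>.congr_fun (fun t _ => by simp)
            measurableSet_Ioi).const_mul _
        · rw [add_sub_cancel_right, mul_comm]
          exact mul_le_mul_of_nonneg_left (Real.rpow_le_rpow hx.le (le_of_lt ht) hx.le)
            (Real.exp_pos _).le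
    _ ≤ _ := setIntegral_mono_set hi
        (ae_restrict_of_forall_mem measurableSet_Ioi fun t (ht : (0 : ℝ) < t) =>
          mul_nonneg (Real.exp_pos _).le (Real.rpow_nonneg (le_of_lt ht) _))
        (Ioi_subset_Ioi hx.le).eventuallyLE

/-- The Euclidean isoperimetric constant. -/
def eucConst (n : ℕ) : ℝ :=
  (n : ℝ) * (volume (Metric.ball (0 : EuclideanSpace ℝ (Fin n)) 1)).toReal ^ (1 / n : ℝ)

theorem eucConst_pos {n : ℕ} (hn : 1 ≤ n) : 0 < eucConst n := by
  have : Nonempty (Fin n) := ⟨⟨0, by omega⟩⟩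
  have h0 : 0 < (volume (Metric.ball (0 : EuclideanSpace ℝ (Fin n)) 1)).toReal :=
    ENNReal.toReal_pos (Metric.measure_ball_pos volume _ one_pos).ne' measure_ball_lt_top.ne
  have : (0 : ℝ) < n := by exact_mod_cast hn
  exact mul_pos this (Real.rpow_pos_of_pos h0 _)

theorem mul_log_eucConst_le {n : ℕ} (hn : 1 ≤ n) :
    (n : ℝ) * Real.log (eucConst n) ≤ (n : ℝ) / 2 * Real.log (2 * π * n) + n / 2 := by
  have : Nonempty (Fin n) := ⟨⟨0, by omega⟩⟩
  have hn0 : (0 : ℝ) < n := by exact_mod_cast hn
  have hΓ0 : 0 < Real.Gamma ((n : ℝ) / 2 + 1) := Real.Gamma_pos_of_pos (by positivity)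
  have hΓ := Real.log_le_log (by positivity)
    (rpow_mul_exp_le_Gamma (show 0 < (n : ℝ) / 2 by positivity))
  rw [Real.log_mul (by positivity) (Real.exp_pos _).ne', Real.log_rpow (by positivity),
    Real.log_exp, Real.log_div hn0.ne' two_ne_zero] at hΓ
  have hω : (volume (Metric.ball (0 : EuclideanSpace ℝ (Fin n)) 1)).toReal
      = √π ^ n / Real.Gamma ((n : ℝ) / 2 + 1) := by
    rw [EuclideanSpace.volume_ball, Fintype.card_fin, ENNReal.ofReal_one, one_pow, one_mul,
      ENNReal.toReal_ofReal (by positivity)]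
  rw [eucConst, hω, Real.log_mul hn0.ne' (by positivity), Real.log_rpow (by positivity),
    Real.log_div (by positivity) hΓ0.ne', Real.log_pow, Real.log_sqrt Real.pi_pos.le,
    Real.log_mul (by positivity) hn0.ne', Real.log_mul two_ne_zero Real.pi_pos.ne']
  have e : ∀ A : ℝ, (n : ℝ) * (Real.log n + 1 / n * A) = n * Real.log n + A := fun A => by
    field_simp
  rw [e]
  linarith

/-- The lower bound from the channel beats every constant below the Euclidean one. -/
theorem constant_contradiction {n : ℕ} {ε C l α : ℝ} (hn2 : 2 ≤ n) (hε : 0 < ε) (hε1 : ε < 1)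
    (hn : 144 / ε ^ 2 ≤ (n : ℝ)) (hn' : 8 * (C + 5) / ε ≤ (n : ℝ))
    (hl : l = (1 - ε) * eucConst n) (hα : α = ((n : ℝ) - 1) / n)
    (h : ((n : ℝ) - 1) / 2 * Real.log (2 * π * ((n : ℝ) - 1)) + n / 2 - ε / 2 * n - C - 5
      ≤ (n : ℝ) * Real.log l + ((n : ℝ) - 1) * Real.log α) : False := by
  have hn0 : (2 : ℝ) ≤ n := by exact_mod_cast hn2
  have hm0 : (0 : ℝ) < (n : ℝ) - 1 := by linarith
  have hc := mul_log_eucConst_le (n := n) (by omega)
  have h1 := mul_le_mul_of_nonneg_left (Real.log_le_sub_one_of_pos (by linarith : 0 < 1 - ε))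
    (by linarith : (0 : ℝ) ≤ n)
  rw [hl, Real.log_mul (by linarith) (eucConst_pos (by omega)).ne', hα,
    Real.log_div hm0.ne' (by linarith), Real.log_mul (by positivity) hm0.ne'] at h
  rw [Real.log_mul (by positivity) (by linarith)] at hc
  have hlog : Real.log ((n : ℝ) - 1) ≤ Real.log n := Real.log_le_log hm0 (by linarith)
  have hmono := mul_nonneg hm0.le (sub_nonneg.2 hlog)
  have hrn : Real.log (2 * π * n) ≤ 6 * √(n : ℝ) := by
    rw [show 2 * π * n = √(2 * π * n) * √(2 * π * n) from
      (Real.mul_self_sqrt (by positivity)).symm, Real.log_mul (by positivity) (by positivity)]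
    have h2 := Real.log_le_sub_one_of_pos (show 0 < √(2 * π * n) by positivity)
    have h3 : √(2 * π * n) ≤ 3 * √(n : ℝ) := by
      rw [Real.sqrt_le_left (by positivity), mul_pow, Real.sq_sqrt (by positivity)]
      exact mul_le_mul_of_nonneg_right (by linarith [Real.pi_lt_four]) (by positivity)
    linarith
  rw [Real.log_mul (by positivity) (by linarith)] at hrn
  have hs : 12 ≤ ε * √(n : ℝ) := by
    rw [div_le_iff₀ (by positivity)] at hn
    refine (pow_le_pow_iff_left₀ (by norm_num) (by positivity) two_ne_zero).1 ?_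
    rw [mul_pow, Real.sq_sqrt (by positivity)]
    linarith
  have h4 : 3 * √(n : ℝ) ≤ ε * n / 4 := by
    have h5 := mul_le_mul_of_nonneg_right hs (Real.sqrt_nonneg (n : ℝ))
    rw [mul_assoc, Real.mul_self_sqrt (by positivity)] at h5
    linarith
  rw [div_le_iff₀ hε] at hn'
  nlinarith

end Vale.Agent.P219.CH.Sharp
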