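import Vale.Agent.P219.Sharp.LowerSize

/-!
# P219, lower pin: integrating the pointwise lower bounds

See `notes/P219/helper9-exact.md`, steps 4 to 6. Most boundary points have most Gaussian shifts at
middle levels; there the rotation inequality gives the entropy of a hyperplane. The others are
bounded with one good shift, or in the mean when there is none.
-/

noncomputable section

open MeasureTheory ProbabilityTheory Set Filter Topology Matrix
open scoped ENNReal NNReal Real RealInnerProductSpace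

namespace Vale.Agent.P219.CH.Sharp

variable {n : ℕ} {G : (Fin n → ℝ) → Matrix (Fin n) (Fin n) ℝ}
  {D : (Fin n → ℝ) → (Fin n → ℝ) → ℝ}

/-- Some moderate shift has at most twice the mean cost. -/
lemma exists_good_shift (hn : 1 ≤ n) {g : EuclideanSpace ℝ (Fin n) → ℝ}
    (h0 : ∀ b, 0 ≤ g b) (hi : Integrable g (stdGaussian (EuclideanSpace ℝ (Fin n)))) :
    ∃ b, ‖b‖ ^ 2 ≤ 8 * n ∧
      g b ≤ 2 * (∫ b, g b ∂stdGaussian (EuclideanSpace ℝ (Fin n))) + 1 := by
  set γ := stdGaussian (EuclideanSpace ℝ (Fin n))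
  set Φ := ∫ b, g b ∂γ
  by_contra hh
  push Not at hh
  have hΦ : 0 ≤ Φ := integral_nonneg h0
  set O := {b : EuclideanSpace ℝ (Fin n) | √(8 * n) < ‖b‖}
  have hO : MeasurableSet O := measurableSet_lt measurable_const measurable_norm
  have h1 : γ.real O ≤ 1 / 2 := by
    refine (Gauss.gauss_tail _ (Real.sqrt_nonneg _)).trans ?_
    rw [Real.sq_sqrt (by positivity)]
    calc Real.exp ((n : ℝ) / 2 - 8 * n / 4) ≤ Real.exp (-1) := by
          refine Real.exp_le_exp.2 ?_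
          have : (1 : ℝ) ≤ n := by exact_mod_cast hn
          linarith
      _ ≤ _ := by
          rw [Real.exp_neg, one_div]
          exact inv_anti₀ two_pos (by linarith [Real.add_one_le_exp (1 : ℝ)])
  have h2 : γ.real Oᶜ ≤ γ.real {b | 2 * Φ + 1 ≤ g b} := by
    refine measureReal_mono fun b hb => (hh b ?_).le
    have hb' : ‖b‖ ≤ √(8 * n) := not_lt.1 hb
    calc ‖b‖ ^ 2 ≤ √(8 * n) ^ 2 := by gcongr
      _ = _ := Real.sq_sqrt (by positivity)
  have h3 := mul_meas_ge_le_integral_of_nonneg (μ := γ) (Eventually.of_forall h0) hi (2 * Φ + 1)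
  rw [probReal_compl_eq_one_sub hO] at h2
  nlinarith

/-- The crude bound at a point with no information. -/
lemma log_crude_ge {s Λ k : ℝ} (n : ℕ) (hs : 0 < s) (hΛ : 0 < Λ) (hk : 0 < k) :
    (n : ℝ) * Real.log s - Real.log Λ - s ^ n / Λ * k⁻¹ ≤ Real.log k := by
  have h1 := Real.log_le_sub_one_of_pos (show 0 < s ^ n / Λ * k⁻¹ by positivity)
  rw [Real.log_mul (by positivity) (by positivity), Real.log_inv,
    Real.log_div (by positivity) hΛ.ne', Real.log_pow] at h1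
  linarith

lemma log_mul_exp_le {M L X I : ℝ} (hM : 0 < M) (h : M * Real.exp (-L) ≤ Real.exp X * I) :
    Real.log M - L - X ≤ Real.log I := by
  have hI : 0 < I := pos_of_mul_pos_right ((mul_pos hM (Real.exp_pos _)).trans_le h)
    (Real.exp_pos _).le
  have h2 := Real.log_le_log (by positivity) h
  rw [Real.log_mul hM.ne' (Real.exp_pos _).ne', Real.log_mul (Real.exp_pos _).ne' hI.ne',
    Real.log_exp, Real.log_exp] at h2
  linarith

section Point

variable {K : Set (Fin n → ℝ)} {u : (Fin n → ℝ) → ℝ} {s ρ δ L M : ℝ} {y : Fin n → ℝ}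
  {b : EuclideanSpace ℝ (Fin n)}

/-- The frozen ball at the shifted point in the coordinates of the base point. -/
lemma qf_ball_le (h : IsCH G D) (hδ : δ ≤ 1) {z : Fin n → ℝ}
    (hz : z ∈ qball G s ρ (toFrame (frame G y) s y b))
    (hq : qf G y (z - toFrame (frame G y) s y b) ≤
      (1 + δ) * qf G (toFrame (frame G y) s y b) (z - toFrame (frame G y) s y b)) :
    qf G y (z - y) ≤ (2 * ‖b‖ ^ 2 + 4 * ρ ^ 2) * s ^ 2 := by
  set z₀ := toFrame (frame G y) s y b
  have h1 := qf_add_le h y (z - z₀) (z₀ - y)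
  rw [sub_add_sub_cancel, qf_toFrame_sub h] at h1
  have h2 : qf G z₀ (z - z₀) ≤ ρ ^ 2 * s ^ 2 := hz
  have h3 := mul_le_mul_of_nonneg_right (show 1 + δ ≤ 2 by linarith) (qf_nonneg h z₀ (z - z₀))
  linarith

/-- Mass near a shifted point bounds the crude mass. -/
lemma crude_of_mass (h : IsCH G D) (hK : IsCompact K) (hu : Comp K u) (hs : 0 < s) (hδ : δ ≤ 1)
    (hM : 0 < M)
    (hmass : M * Real.exp (-L) ≤ ∫ z in qball G s ρ (toFrame (frame G y) s y b),
      Real.exp (-(qf G (toFrame (frame G y) s y b) (z - toFrame (frame G y) s y b)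
        / (2 * s ^ 2))) ∂pm G u)
    (hgeo : ∀ z ∈ qball G s ρ (toFrame (frame G y) s y b),
      qf G y (z - toFrame (frame G y) s y b) ≤
          (1 + δ) * qf G (toFrame (frame G y) s y b) (z - toFrame (frame G y) s y b) ∧
        D y z ≤ qf G y (z - y)) :
    Real.log M - L - (4 * ‖b‖ ^ 2 + 8 * ρ ^ 2) ≤ Real.log (crudeMass G D u s y) := by
  refine log_mul_exp_le hM (hmass.trans ?_)
  rw [← inv_mul_le_iff₀ (Real.exp_pos _), ← Real.exp_neg, ← integral_const_mul]
  refine setIntegral_le_crudeMass h hK hu s y (measurableSet_qball h _ _ _)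
    ((integrable_exp_qf h hK hu s _ _).const_mul _) fun z hz => ?_
  refine (mul_le_of_le_one_right (Real.exp_pos _).le (Real.exp_le_one_iff.2
    (neg_nonpos.2 (div_nonneg (qf_nonneg h _ _) (by positivity))))).trans
    (Real.exp_le_exp.2 (neg_le_neg ?_))
  rw [div_le_iff₀ (by positivity)]
  linarith [(hgeo z hz).2, qf_ball_le h hδ hz (hgeo z hz).1]

/-- Mass near a shifted point bounds the mass seen from the point itself. -/
lemma centre_of_mass (h : IsCH G D) (hK : IsCompact K) (hu : Comp K u) (hs : 0 < s) (hδ : δ ≤ 1)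
    (hM : 0 < M) {Rb : ℝ} (hRb : 2 * ‖b‖ ^ 2 + 4 * ρ ^ 2 ≤ Rb ^ 2)
    (hmass : M * Real.exp (-L) ≤ ∫ z in qball G s ρ (toFrame (frame G y) s y b),
      Real.exp (-(qf G (toFrame (frame G y) s y b) (z - toFrame (frame G y) s y b)
        / (2 * s ^ 2))) ∂pm G u)
    (hgeo : ∀ z ∈ qball G s ρ (toFrame (frame G y) s y b),
      qf G y (z - toFrame (frame G y) s y b) ≤
          (1 + δ) * qf G (toFrame (frame G y) s y b) (z - toFrame (frame G y) s y b) ∧
        D y z ≤ qf G y (z - y)) :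
    Real.log M - L - (‖b‖ ^ 2 + 2 * ρ ^ 2) ≤ Real.log (shiftMass G u s Rb y 0) := by
  refine log_mul_exp_le hM (hmass.trans ?_)
  rw [← inv_mul_le_iff₀ (Real.exp_pos _), ← Real.exp_neg, ← integral_const_mul]
  have hi := integrable_exp_qf h hK hu s y (toFrame (frame G y) s y 0)
  refine (setIntegral_mono_on ((integrable_exp_qf h hK hu s _ _).const_mul _).integrableOn
    hi.integrableOn (measurableSet_qball h _ _ _) fun z hz => ?_).trans
    (setIntegral_mono_set hi.integrableOn (Eventually.of_forall fun z => (Real.exp_pos _).le)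
      (LE.le.eventuallyLE fun z hz => (qf_ball_le h hδ hz (hgeo z hz).1).trans
        (mul_le_mul_of_nonneg_right hRb (sq_nonneg s))))
  refine (mul_le_of_le_one_right (Real.exp_pos _).le (Real.exp_le_one_iff.2
    (neg_nonpos.2 (div_nonneg (qf_nonneg h _ _) (by positivity))))).trans
    (Real.exp_le_exp.2 (neg_le_neg ?_))
  rw [toFrame_zero, div_le_iff₀ (by positivity)]
  linarith [qf_ball_le h hδ hz (hgeo z hz).1]

/-- Mass near a shifted point is seen from that shift up to a bounded factor. -/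
lemma shift_of_mass (h : IsCH G D) (hK : IsCompact K) (hu : Comp K u) (hs : 0 < s) (hδ0 : 0 ≤ δ)
    (hδ : δ ≤ 1) (hδρ : δ * ρ ^ 2 ≤ 1) (hM : 0 < M) {Rb : ℝ}
    (hRb : 2 * ‖b‖ ^ 2 + 4 * ρ ^ 2 ≤ Rb ^ 2)
    (hmass : M * Real.exp (-L) ≤ ∫ z in qball G s ρ (toFrame (frame G y) s y b),
      Real.exp (-(qf G (toFrame (frame G y) s y b) (z - toFrame (frame G y) s y b)
        / (2 * s ^ 2))) ∂pm G u)
    (hgeo : ∀ z ∈ qball G s ρ (toFrame (frame G y) s y b),
      qf G y (z - toFrame (frame G y) s y b) ≤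
          (1 + δ) * qf G (toFrame (frame G y) s y b) (z - toFrame (frame G y) s y b) ∧
        D y z ≤ qf G y (z - y)) :
    Real.log M - L - 1 / 2 ≤ Real.log (shiftMass G u s Rb y b) := by
  refine log_mul_exp_le hM (hmass.trans ?_)
  rw [← inv_mul_le_iff₀ (Real.exp_pos _), ← Real.exp_neg, ← integral_const_mul]
  set z₀ := toFrame (frame G y) s y b
  have hi := integrable_exp_qf h hK hu s y z₀
  refine (setIntegral_mono_on ((integrable_exp_qf h hK hu s _ _).const_mul _).integrableOn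
    hi.integrableOn (measurableSet_qball h _ _ _) fun z hz => ?_).trans
    (setIntegral_mono_set hi.integrableOn (Eventually.of_forall fun z => (Real.exp_pos _).le)
      (LE.le.eventuallyLE fun z hz => (qf_ball_le h hδ hz (hgeo z hz).1).trans
        (mul_le_mul_of_nonneg_right hRb (sq_nonneg s))))
  rw [← Real.exp_add]
  refine Real.exp_le_exp.2 ?_
  have h3 : qf G z₀ (z - z₀) ≤ ρ ^ 2 * s ^ 2 := hz
  have h4 := mul_le_mul_of_nonneg_left h3 hδ0
  have h5 := mul_le_mul_of_nonneg_right hδρ (sq_nonneg s)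
  have e : 1 / 2 = s ^ 2 / (2 * s ^ 2) := by field_simp
  rw [e, ← neg_add, ← add_div, neg_le_neg_iff, div_le_div_iff_of_pos_right (by positivity)]
  linarith [(hgeo z hz).1]

end Point

lemma measurePreserving_neg_gauss :
    MeasurePreserving (LinearIsometryEquiv.neg ℝ (E := EuclideanSpace ℝ (Fin n)))
      (stdGaussian (EuclideanSpace ℝ (Fin n))) (stdGaussian (EuclideanSpace ℝ (Fin n))) :=
  ⟨(LinearIsometryEquiv.neg ℝ).continuous.measurable, stdGaussian_map _⟩

/-- Symmetrisation: bad pairs of shifts cost little. -/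
lemma symmetrised_bound {S g : EuclideanSpace ℝ (Fin n) → ℝ}
    {A : Set (EuclideanSpace ℝ (Fin n))} (hA : MeasurableSet A)
    (hS : Integrable S (stdGaussian (EuclideanSpace ℝ (Fin n))))
    (hg : Integrable g (stdGaussian (EuclideanSpace ℝ (Fin n)))) (hg0 : ∀ b, 0 ≤ g b)
    {a N0 Y : ℝ}
    (hgood : ∀ b ∈ A, a - g b - 1 ≤ S b - ‖b‖ ^ 2 / 2 ∧ a - g (-b) - 1 ≤ S (-b) - ‖b‖ ^ 2 / 2)
    (hmid : ∀ b, 2 * N0 ≤ S b + S (-b)) (hN0 : a - Y ≤ N0) :
    a - 1 + n / 2 - (∫ b, g b ∂stdGaussian (EuclideanSpace ℝ (Fin n)))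
        - (3 * n * (stdGaussian (EuclideanSpace ℝ (Fin n))).real Aᶜ + 2)
        - (stdGaussian (EuclideanSpace ℝ (Fin n))).real Aᶜ * Y
      ≤ ∫ b, S b ∂stdGaussian (EuclideanSpace ℝ (Fin n)) := by
  set γ := stdGaussian (EuclideanSpace ℝ (Fin n))
  have hpt : ∀ b, 2 * (a - 1) + ‖b‖ ^ 2 - (g b + g (-b))
      - Aᶜ.indicator (fun b => ‖b‖ ^ 2 + 2 * Y) b ≤ S b + S (-b) := by
    intro b
    by_cases hb : b ∈ A
    · rw [indicator_of_notMem (not_not_intro hb)]
      obtain ⟨h1, h2⟩ := hgood b hb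
      linarith
    · rw [indicator_of_mem hb]
      linarith [hg0 b, hg0 (-b), hmid b]
  have hgn : Integrable (fun b => g (-b)) γ :=
    measurePreserving_neg_gauss.integrable_comp_of_integrable hg
  have hSn : Integrable (fun b => S (-b)) γ :=
    measurePreserving_neg_gauss.integrable_comp_of_integrable hS
  have i1 : Integrable (fun b : EuclideanSpace ℝ (Fin n) => 2 * (a - 1) + ‖b‖ ^ 2) γ :=
    (integrable_const _).add Gauss.integrable_norm_sq
  have i2 : Integrable (fun b => g b + g (-b)) γ := hg.add hgn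
  have i3' : Integrable (fun b : EuclideanSpace ℝ (Fin n) => ‖b‖ ^ 2 + 2 * Y) γ :=
    Gauss.integrable_norm_sq.add (integrable_const _)
  have i3 := i3'.indicator hA.compl
  have i12 : Integrable (fun b => 2 * (a - 1) + ‖b‖ ^ 2 - (g b + g (-b))) γ := i1.sub i2
  have hint := integral_mono (i12.sub i3) (hS.add hSn) hpt
  simp only [Pi.sub_apply, Pi.add_apply] at hint
  rw [integral_sub i12 i3, integral_sub i1 i2, integral_add (integrable_const _)
    Gauss.integrable_norm_sq, integral_add hg hgn, integral_comp_neg_gauss g,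
    integral_add hS hSn, integral_comp_neg_gauss S, integral_indicator hA.compl,
    integral_add Gauss.integrable_norm_sq.integrableOn (integrable_const _).integrableOn,
    setIntegral_const, integral_const, Gauss.integral_norm_sq] at hint
  simp only [probReal_univ, smul_eq_mul] at hint
  have hsq := Gauss.setIntegral_norm_sq_le (n := n) hA.compl
  rw [integral_div] at hsq
  linarith

/-- Most pairs of shifts are good. -/
lemma prob_bad_le {g : EuclideanSpace ℝ (Fin n) → ℝ} (hg0 : ∀ b, 0 ≤ g b)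
    (hg : Integrable g (stdGaussian (EuclideanSpace ℝ (Fin n)))) {Λ ρ : ℝ} (hΛ : 0 < Λ)
    (hρ : 0 ≤ ρ) (hρΛ : (n : ℝ) / 2 - ρ ^ 2 / 4 ≤ -Λ) :
    Λ * (stdGaussian (EuclideanSpace ℝ (Fin n))).real {b | g b ≤ Λ ∧ g (-b) ≤ Λ ∧ ‖b‖ ≤ ρ}ᶜ
      ≤ 2 * (∫ b, g b ∂stdGaussian (EuclideanSpace ℝ (Fin n))) + 1 := by
  set γ := stdGaussian (EuclideanSpace ℝ (Fin n))
  have hgn : Integrable (fun b => g (-b)) γ :=
    measurePreserving_neg_gauss.integrable_comp_of_integrable hg
  have hsubA : {b | g b ≤ Λ ∧ g (-b) ≤ Λ ∧ ‖b‖ ≤ ρ}ᶜ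
      ⊆ {b | Λ ≤ g b} ∪ ({b | Λ ≤ g (-b)} ∪ {b | ρ < ‖b‖}) := by
    intro b hb
    simp only [mem_compl_iff, mem_ofPred_eq, not_and_or, not_le] at hb
    rcases hb with h1 | h1 | h1
    · exact Or.inl h1.le
    · exact Or.inr (Or.inl h1.le)
    · exact Or.inr (Or.inr h1)
  have h1 := (measureReal_mono (μ := γ) hsubA).trans ((measureReal_union_le _ _).trans
    (add_le_add le_rfl (measureReal_union_le _ _)))
  have h2 := mul_meas_ge_le_integral_of_nonneg (μ := γ) (Eventually.of_forall hg0) hg Λ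
  have h3 := mul_meas_ge_le_integral_of_nonneg (μ := γ)
    (Eventually.of_forall fun b => hg0 (-b)) hgn Λ
  rw [integral_comp_neg_gauss g] at h3
  have h4 : γ.real {b | ρ < ‖b‖} ≤ 1 / Λ := by
    refine (Gauss.gauss_tail ρ hρ).trans ((Real.exp_le_exp.2 hρΛ).trans ?_)
    rw [Real.exp_neg, one_div]
    exact inv_anti₀ hΛ (by linarith [Real.add_one_le_exp Λ])
  rw [le_div_iff₀ hΛ] at h4
  have := mul_le_mul_of_nonneg_left h1 hΛ.le
  linarith

lemma continuous_ltau_avg (h : IsCH G D) {K : Set (Fin n → ℝ)} (hK : IsCompact K)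
    {u : (Fin n → ℝ) → ℝ} (hu : Comp K u) {s τ : ℝ} (hs : 0 < s) (hτ : 0 < τ) :
    Continuous fun z => ltau τ (avg G s u z) := by
  have hUc := continuous_avg h hK s hu.1.continuous fun z hz => comp_eq_zero hu hz
  have hU := avg_mem_Icc h hs hu.1.continuous hu.2.2
  refine (((hUc.mul (continuous_const.sub hUc)).add continuous_const).log fun z => ?_).neg
  simp only [Pi.add_apply, Pi.mul_apply, Pi.sub_apply]
  have := hU z
  nlinarith [this.1, this.2]

lemma sqrt_scale {s : ℝ} (hs : 0 < s) : -Real.log s * s ≤ 2 * √s := by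
  have h := Real.log_le_sub_one_of_pos (inv_pos.2 (Real.sqrt_pos.2 hs))
  rw [Real.log_inv, Real.log_sqrt hs.le] at h
  calc -Real.log s * s ≤ 2 * (√s)⁻¹ * s := mul_le_mul_of_nonneg_right (by linarith) hs.le
    _ = 2 * (√s)⁻¹ * (√s * √s) := by rw [Real.mul_self_sqrt hs.le]
    _ = 2 * √s := by field_simp

/-- With few huge costs, the ball around a good shift is small. -/
lemma radius_small {s σ L b : ℝ} {n : ℕ} (hs : 0 < s) (hs1 : s ≤ 1) (hL0 : 0 ≤ L)
    (hL : L ≤ -Real.log s / 4 + 1) (hb0 : 0 ≤ b) (hb : b ^ 2 ≤ 8 * n) (hn : 1 ≤ (n : ℝ))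
    (hsσ : s < (σ / (12 * n + 24)) ^ 2) (hσ : 0 < σ) :
    (b + 4 * √(L + n / 2 + 3)) * s ≤ σ := by
  have h1 : b ≤ 8 * n := by nlinarith
  have h2 : √(L + n / 2 + 3) ≤ L + n / 2 + 3 := by
    rw [Real.sqrt_le_left (by positivity)]; nlinarith
  have h4 : s ≤ √s := Real.le_sqrt_of_sq_le (by nlinarith)
  have h5 : √s ≤ σ / (12 * n + 24) := (Real.sqrt_le_left (by positivity)).2 hsσ.le
  rw [le_div_iff₀ (by positivity)] at h5
  calc (b + 4 * √(L + n / 2 + 3)) * s ≤ (12 * n + 16 + -Real.log s) * s :=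
        mul_le_mul_of_nonneg_right (by linarith) hs.le
    _ = (12 * n + 16) * s + -Real.log s * s := by ring
    _ ≤ (12 * n + 16) * √s + 2 * √s :=
        add_le_add (mul_le_mul_of_nonneg_left h4 (by positivity)) (sqrt_scale hs)
    _ ≤ σ := by linarith [Real.sqrt_nonneg s]

/-- The pointwise lower bounds and middle levels give the entropy of a flat hypersurface. -/
theorem lowerPin {ε : ℝ} (hε : 0 < ε) {q : ℕ} (hq : 1 ≤ q) (n : ℕ) : LowerPin ε 2000 q n := by
  intro hn G D h o R P₀ v₀ e _ _ _ he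
  set K := {y | D o y ≤ R}
  have hK : IsCompact K := h.proper o R
  have hn1 : (1 : ℝ) ≤ n := by exact_mod_cast (by omega : 1 ≤ n)
  obtain ⟨ε₁, hε₁, hε₁1, hεε⟩ : ∃ ε₁ : ℝ, 0 < ε₁ ∧ ε₁ ≤ 1 ∧ ε₁ ≤ ε :=
    ⟨min ε 1, lt_min hε one_pos, min_le_right _ _, min_le_left _ _⟩
  obtain ⟨Λ₀, hΛ₀, hΛ₀1⟩ : ∃ Λ₀ : ℝ, Λ₀ * ε₁ = 2000 ∧ 2000 ≤ Λ₀ :=
    ⟨2000 / ε₁, div_mul_cancel₀ _ hε₁.ne', by rw [le_div_iff₀ hε₁]; linarith⟩
  obtain ⟨Λ, hΛε, hΛΛ₀⟩ : ∃ Λ : ℝ, Λ * ε₁ = 400 * Λ₀ ∧ 400 * Λ₀ ≤ Λ :=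
    ⟨400 * Λ₀ / ε₁, div_mul_cancel₀ _ hε₁.ne', by rw [le_div_iff₀ hε₁]; nlinarith⟩
  have hΛp : 0 < Λ := by linarith
  obtain ⟨ρ, hρ0, hρsq⟩ : ∃ ρ : ℝ, 0 < ρ ∧ ρ ^ 2 = 16 * (Λ + n / 2 + 3) :=
    ⟨4 * √(Λ + n / 2 + 3), by positivity, by
      rw [mul_pow, Real.sq_sqrt (by positivity)]; norm_num⟩
  obtain ⟨δ, hδ, hδ1, hδρ⟩ : ∃ δ : ℝ, 0 < δ ∧ δ ≤ 1 ∧ δ * ρ ^ 2 ≤ 1 :=
    ⟨min 1 (1 / ρ ^ 2), lt_min one_pos (by positivity), min_le_left _ _, by
      rw [← le_div_iff₀ (by positivity)]; exact min_le_right _ _⟩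
  obtain ⟨σ, hσ, hball⟩ := shift_ball h o R (by omega) hδ hδ1 q hq
  obtain ⟨C₁, σ₂, hC₁, hσ₂, hinv⟩ := lintegral_inv_crudeMass_le h o R
  obtain ⟨Λ₁, hΛ₁, hΛ₁e⟩ : ∃ Λ₁ : ℝ, 0 < Λ₁ ∧ C₁ / Λ₁ ≤ e :=
    ⟨C₁ / e + 1, by positivity, by
      rw [div_le_iff₀ (by positivity), mul_add, mul_one, mul_div_cancel₀ _ he.ne']; linarith⟩
  set C₂ := ((n : ℝ) - 1) / 2 * Real.log (2 * π) + n / 2 + Real.log Λ₁ with hC₂
  refine ⟨3 * ρ, min (min (Real.exp (-6)) (Real.exp (-|C₂|)))
    (min (min (Real.exp (-(2 * Λ))) σ₂) (min ((σ / (12 * n + 24)) ^ 2) (σ / (2 * ρ)))),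
    by nlinarith,
    lt_min (lt_min (Real.exp_pos _) (Real.exp_pos _))
      (lt_min (lt_min (Real.exp_pos _) hσ₂) (lt_min (by positivity) (by positivity))),
    fun s hs hs₂ => ?_⟩
  simp only [lt_min_iff] at hs₂
  obtain ⟨⟨hs6, hsC⟩, ⟨hsΛ, hsσ₂⟩, hsσ, hsρ⟩ := hs₂
  obtain ⟨δ₁, hδ₁, hball⟩ := hball s hs hs6.le
  refine ⟨δ₁, hδ₁, fun u hu _ _ hgap hgood f hf hlow => ?_⟩
  have := isFiniteMeasure_pm h hK hu
  have hlog := fun {a : ℝ} (hh : s < Real.exp a) =>
    (Real.log_exp a) ▸ Real.log_le_log hs hh.le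
  have hlog6 : Real.log s ≤ -6 := hlog hs6
  have hlogC : Real.log s ≤ -|C₂| := hlog hsC
  have hlogΛ : Real.log s ≤ -(2 * Λ) := hlog hsΛ
  clear hlog
  have hq1 : (1 : ℝ) ≤ q := by exact_mod_cast hq
  have hs1 : s ≤ 1 := hs6.le.trans (Real.exp_le_one_iff.2 (by norm_num))
  have hτ : 0 < s ^ q := pow_pos hs q
  have hτ2 : s ^ q ≤ 1 / 2 := by
    calc s ^ q ≤ s ^ 1 := pow_le_pow_of_le_one hs.le hs1 hq
      _ = s := pow_one s
      _ ≤ Real.exp (-1) := hs6.le.trans (Real.exp_le_exp.2 (by norm_num))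
      _ ≤ _ := by
          rw [Real.exp_neg, one_div]
          exact inv_anti₀ two_pos (by linarith [Real.add_one_le_exp (1 : ℝ)])
  have hgc := continuous_ltau_avg h hK hu hs hτ
  have hU := avg_mem_Icc h hs hu.1.continuous hu.2.2
  have hgI : ∀ z, ltau (s ^ q) (avg G s u z) ∈ Icc 0 (-Real.log (s ^ q)) := fun z =>
    ⟨ltau_nonneg hτ hτ2 (hU z), ltau_le hτ (hU z)⟩
  set g := fun z => ltau (s ^ q) (avg G s u z)
  set Φ := avg G s g
  have hΦI : ∀ y, Φ y ∈ Icc 0 (-Real.log (s ^ q)) := avg_mem_Icc h hs hgc hgI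
  have hΦm : Measurable Φ := by
    have hc : Continuous (Function.uncurry fun y z : Fin n → ℝ => g z * ker G s y z) :=
      (hgc.comp continuous_snd).mul (continuous_ker h s)
    exact (hc.stronglyMeasurable.integral_prod_right (ν := volume)).measurable
  have hΦi : Integrable Φ (pm G u) :=
    Integrable.of_bound hΦm.aestronglyMeasurable (-Real.log (s ^ q))
      (Eventually.of_forall fun y => by rw [Real.norm_of_nonneg (hΦI y).1]; exact (hΦI y).2)
  set T := ((n : ℝ) - 1) * Real.log s + ((n : ℝ) - 1) / 2 * Real.log (2 * π) + n / 2 with hT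
  have hm0 : 0 < (√(2 * π) * s) ^ (n - 1) := by positivity
  have hT₀ : Real.log ((√(2 * π) * s) ^ (n - 1)) = T - n / 2 := by
    rw [Real.log_pow, Real.log_mul (by positivity) hs.ne', Real.log_sqrt (by positivity),
      Nat.cast_sub (by omega : 1 ≤ n), Nat.cast_one, hT]
    ring
  have hkm : AEMeasurable (fun y => (ENNReal.ofReal (crudeMass G D u s y))⁻¹) (pm G u) :=
    (measurable_crudeMass h hK hu s).ennreal_ofReal.inv.aemeasurable
  have hkle := hinv s hs hsσ₂ u hu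
  have hkne : ∫⁻ y, (ENNReal.ofReal (crudeMass G D u s y))⁻¹ ∂pm G u ≠ ⊤ :=
    (hkle.trans_lt ENNReal.ofReal_lt_top).ne
  have hklt := ae_lt_top' hkm hkne
  set kinv := fun y => ((ENNReal.ofReal (crudeMass G D u s y))⁻¹).toReal
  have hki : Integrable kinv (pm G u) := integrable_toReal_of_lintegral_ne_top hkm hkne
  have hkint : ∫ y, kinv y ∂pm G u ≤ C₁ / s ^ n := by
    simp only [kinv]
    rw [integral_toReal hkm hklt]
    exact ENNReal.toReal_le_of_le_ofReal (by positivity) hkle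
  have hkey : ∀ᵐ y ∂pm G u, (T - ε * n / 2 - 515) - (300 + ε * n / 20) * Φ y
      - s ^ n / Λ₁ * kinv y ≤ f y := by
    filter_upwards [ae_mem_pm h hK hu, ae_qball_pos h hK hu hs (by positivity : (0 : ℝ) < 3 * ρ),
      hklt] with y hyK hpos hyk
    obtain ⟨hcr, htl⟩ := hlow y hyK hpos
    have hk0 : 0 < crudeMass G D u s y := by
      have := ENNReal.inv_lt_top.1 hyk
      rwa [ENNReal.ofReal_pos] at this
    have hkv : kinv y = (crudeMass G D u s y)⁻¹ := by
      simp only [kinv]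
      rw [← ENNReal.ofReal_inv_of_pos hk0, ENNReal.toReal_ofReal (inv_pos.2 hk0).le]
    have hkpos : 0 ≤ s ^ n / Λ₁ * kinv y :=
      mul_nonneg (by positivity) ENNReal.toReal_nonneg
    rw [crudeLower_eq] at hcr
    have hΦ0 : 0 ≤ Φ y := (hΦI y).1
    have hεΦ : 0 ≤ ε * n / 20 * Φ y := by positivity
    have hεn : 0 ≤ ε * n := by positivity
    rcases lt_or_ge (-Real.log s / 8) (Φ y) with hhuge | hmid
    · have h1 := log_crude_ge n hs hΛ₁ hk0
      rw [← hkv] at h1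
      have hC : C₂ ≤ |C₂| := le_abs_self _
      clear * - h1 hC hlogC hhuge hΦ0 hεΦ hεn hkpos hcr hT hC₂
      linarith
    obtain ⟨hAt, hA, -, hdet⟩ := frame_spec h y
    set gs := fun b => g (toFrame (frame G y) s y b)
    have hgsc : Continuous gs := hgc.comp (by unfold toFrame; fun_prop)
    have hgs0 : ∀ b, 0 ≤ gs b := fun b => (hgI _).1
    have hgsi : Integrable gs (stdGaussian (EuclideanSpace ℝ (Fin n))) :=
      Integrable.of_bound hgsc.aestronglyMeasurable (-Real.log (s ^ q))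
        (Eventually.of_forall fun b => by rw [Real.norm_of_nonneg (hgs0 b)]; exact (hgI _).2)
    have hΦy : ∫ b, gs b ∂stdGaussian (EuclideanSpace ℝ (Fin n)) = Φ y :=
      integral_toFrame h hs hAt hA hdet g
    obtain ⟨b₀, hb₀, hg₀⟩ := exists_good_shift (by omega) hgs0 hgsi
    rw [hΦy] at hg₀
    have hLq : 2 * Φ y + 1 ≤ -((q : ℝ) / 2) * Real.log s := by
      clear * - hmid hlog6 hq1
      nlinarith
    obtain ⟨ρ₀, hρ₀0, hρ₀, hρ₀sq⟩ : ∃ ρ₀ : ℝ, 0 ≤ ρ₀ ∧ (‖b₀‖ + ρ₀) * s ≤ σ ∧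
        ρ₀ ^ 2 = 16 * (2 * Φ y + 1 + n / 2 + 3) :=
      ⟨4 * √(2 * Φ y + 1 + n / 2 + 3), by positivity,
        radius_small hs hs1 (by linarith) (by linarith) (norm_nonneg _) hb₀ hn1 hsσ hσ,
        by rw [mul_pow, Real.sq_sqrt (by positivity)]; norm_num⟩
    obtain ⟨hmass, hgeo⟩ := hball u hu hgap y hyK b₀ ρ₀ (2 * Φ y + 1) hρ₀0 hρ₀ hg₀ hLq
      (by rw [hρ₀sq]; linarith)
    rcases lt_or_ge Λ₀ (Φ y) with hbig | hsmall
    · have h2 := crude_of_mass h hK hu hs hδ1 hm0 hmass hgeo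
      rw [hT₀, hρ₀sq] at h2
      have h3 : 97 * n ≤ ε * n / 20 * Φ y := by
        clear * - hbig hΛ₀ hε₁ hεε hΦ0 hn1
        have h4 : 2000 ≤ ε * Φ y := by nlinarith
        nlinarith
      clear * - h2 h3 hb₀ hcr hεn hkpos hΦ0
      linarith
    · have hρ₀ρ : ρ₀ ^ 2 ≤ ρ ^ 2 := by rw [hρ₀sq, hρsq]; linarith
      have hb₀ρ : ‖b₀‖ ^ 2 ≤ ρ ^ 2 := by rw [hρsq]; linarith
      have hN0 := centre_of_mass h hK hu hs hδ1 hm0 (Rb := 3 * ρ)
        (by clear * - hρ₀ρ hb₀ρ; nlinarith) hmass hgeo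
      rw [hT₀, hρ₀sq] at hN0
      set A := {b : EuclideanSpace ℝ (Fin n) | gs b ≤ Λ ∧ gs (-b) ≤ Λ ∧ ‖b‖ ≤ ρ}
      have hAm : MeasurableSet A :=
        ((isClosed_le hgsc continuous_const).inter ((isClosed_le (hgsc.comp continuous_neg)
          continuous_const).inter (isClosed_le continuous_norm continuous_const))).measurableSet
      have hgood1 : ∀ b, gs b ≤ Λ → ‖b‖ ≤ ρ → T - n / 2 - gs b - 1 ≤
          Real.log (shiftMass G u s (3 * ρ) y b) := by
        intro b hb hbn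
        have hσb : (‖b‖ + ρ) * s ≤ σ := by
          rw [lt_div_iff₀ (by positivity)] at hsρ
          clear * - hsρ hbn hs
          nlinarith
        obtain ⟨hmb, hgb⟩ := hball u hu hgap y hyK b ρ (gs b) hρ0.le hσb le_rfl
          (by clear * - hb hlogΛ hq1 hΛp; nlinarith) (by rw [hρsq]; linarith)
        have := shift_of_mass h hK hu hs hδ.le hδ1 hδρ hm0 (Rb := 3 * ρ)
          (by
            have := pow_le_pow_left₀ (norm_nonneg b) hbn 2
            clear * - this hρ0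
            nlinarith) hmb hgb
        rw [hT₀] at this
        linarith
      have hmain := symmetrised_bound (S := fun b => ‖b‖ ^ 2 / 2
          + Real.log (shiftMass G u s (3 * ρ) y b)) hAm
        (integrable_termLower h hK hu hs (3 * ρ) y hpos) hgsi hgs0
        (a := T - n / 2) (N0 := Real.log (shiftMass G u s (3 * ρ) y 0))
        (Y := 66 * Φ y + 24 * n + 129)
        (fun b hb => ⟨by linarith [hgood1 b hb.1 hb.2.2], by
          have := hgood1 (-b) hb.2.1 (by rw [norm_neg]; exact hb.2.2)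
          rw [norm_neg]
          linarith⟩)
        (shift_midpoint h hK hu hs (3 * ρ) y hpos) (by linarith)
      have hp := prob_bad_le hgs0 hgsi hΛp hρ0.le (by rw [hρsq]; linarith)
      rw [hΦy] at hmain hp
      have htl' : ∫ b, (‖b‖ ^ 2 / 2 + Real.log (shiftMass G u s (3 * ρ) y b))
          ∂stdGaussian (EuclideanSpace ℝ (Fin n)) ≤ f y := htl
      set p := (stdGaussian (EuclideanSpace ℝ (Fin n))).real Aᶜ
      have hp0 : 0 ≤ p := measureReal_nonneg
      have hp1 : p ≤ 1 := measureReal_le_one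
      have hpε : 100 * p ≤ ε := by
        have h5 : Λ * p ≤ 2 * Φ y + 1 := hp
        clear * - h5 hsmall hΛε hΛp hεε hΛ₀1
        have h6 : Λ * (100 * p) ≤ Λ * ε₁ := by rw [hΛε]; linarith
        exact (le_of_mul_le_mul_left h6 hΛp).trans hεε
      clear * - hmain htl' hp0 hp1 hpε hn1 hΦ0 hεΦ hkpos hεn
      nlinarith [mul_le_mul_of_nonneg_left hpε (by linarith : (0 : ℝ) ≤ n),
        mul_le_mul_of_nonneg_right hp1 (by positivity : 0 ≤ 66 * Φ y + 129)]
  have hfi : Integrable f (pm G u) := integrable_pm_of_continuous h hK hu hf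
  have j1 : Integrable (fun y => (300 + ε * n / 20) * Φ y) (pm G u) := hΦi.const_mul _
  have j2 : Integrable (fun y => s ^ n / Λ₁ * kinv y) (pm G u) := hki.const_mul _
  have j0 : Integrable (fun _ : Fin n → ℝ => T - ε * n / 2 - 515) (pm G u) := integrable_const _
  have j01 : Integrable (fun y => T - ε * n / 2 - 515 - (300 + ε * n / 20) * Φ y) (pm G u) :=
    j0.sub j1
  have hmain := integral_mono_ae (j01.sub j2) hfi hkey
  simp only [Pi.sub_apply] at hmain
  rw [integral_sub j01 j2, integral_sub j0 j1, integral_const, smul_eq_mul,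
    integral_const_mul, integral_const_mul] at hmain
  rw [show (pm G u).real univ = per G u from pm_univ h hK hu] at hmain
  have hk2 : s ^ n / Λ₁ * (∫ y, kinv y ∂pm G u) ≤ e := by
    refine (mul_le_mul_of_nonneg_left hkint (by positivity)).trans (le_trans (le_of_eq ?_) hΛ₁e)
    field_simp
  have hP0 : 0 ≤ per G u := pm_univ h hK hu ▸ ENNReal.toReal_nonneg
  have h8 := mul_le_mul_of_nonneg_left hgood (by positivity : 0 ≤ 300 + ε * n / 20)
  clear * - hmain hk2 h8 hP0 hε hn1 hT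
  nlinarith [mul_nonneg hP0 (by positivity : 0 ≤ ε * n)]

end Vale.Agent.P219.CH.Sharp
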