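import Vale.Agent.P219.Sharp.GainPin
import Vale.Agent.P219.Sharp.Centre
import Vale.Agent.P219.Sharp.Lower
import Vale.Agent.P219.Sharp.Constants
import Vale.Agent.P219.CH.Min

/-!
# P219, the sharp constant: assembly

See `notes/P219/helper9-exact.md`: the entropy lost along the channel is at most `P log P`, it is
at least what almost minimality forces, and what is left at the end is at least the entropy of a
flat hypersurface.
-/

noncomputable section

open MeasureTheory ProbabilityTheory Set Filter Topology Matrix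
open scoped ENNReal NNReal Real

namespace Vale.Agent.P219.CH.Sharp

variable {n : ℕ} {G : (Fin n → ℝ) → Matrix (Fin n) (Fin n) ℝ}
  {D : (Fin n → ℝ) → (Fin n → ℝ) → ℝ}

/-- Competitors with volume bounded below have perimeter bounded below. -/
theorem exists_per_lower (h : IsCH G D) (o : Fin n → ℝ) (R : ℝ) (hn : 1 ≤ n) {v₀ : ℝ}
    (hv₀ : 0 < v₀) :
    ∃ p₀ : ℝ, 0 < p₀ ∧ ∀ u, Comp {y | D o y ≤ R} u → v₀ ≤ vol G u → p₀ ≤ per G u := by
  set K := {y | D o y ≤ R}
  have hK : IsCompact K := h.proper o R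
  obtain ⟨B, hB⟩ := hK.isBounded.subset_closedBall (0 : Fin n → ℝ)
  obtain ⟨dM, hdM⟩ := hK.exists_bound_of_continuousOn (continuous_dens h).continuousOn
  obtain ⟨CF, hCF, hCFb⟩ := exists_comparison hK
    (f := fun p : (Fin n → ℝ) × (Fin n → ℝ) => ∑ i, |p.2 i|)
    (g := fun p => conorm G p.1 p.2 * dens G p.1) (by fun_prop)
    ((continuous_conorm h).mul ((continuous_dens h).comp continuous_fst))
    (fun y v a ha => by simp [abs_mul, abs_of_nonneg ha, Finset.mul_sum])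
    (fun y v a ha => by simp [conorm_smul h, abs_of_nonneg ha, mul_assoc])
    (fun y _ v hv => mul_pos (Real.sqrt_pos.2 (pairing_pos h y hv)) (dens_pos h y))
  set v : Fin n → ℝ := fun _ => 2 * |B| + 1
  have : Nonempty (Fin n) := ⟨⟨0, by omega⟩⟩
  have hv : ‖v‖ = 2 * |B| + 1 := by
    simp only [v]
    rw [pi_norm_const, Real.norm_of_nonneg (by positivity)]
  refine ⟨2 * v₀ / ((|dM| + 1) * ((2 * |B| + 1) * CF)), by positivity, fun u hu hvol => ?_⟩
  have hucs := comp_hasCompactSupport hK hu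
  have hui : Integrable u := hu.1.continuous.integrable_of_hasCompactSupport hucs
  have h1 := integral_translate_le hu.1 hucs v
  have h2 : ∫ x, |u (x + v) - u x| = 2 * ∫ x, u x := by
    rw [integral_congr_ae (g := fun x => u (x + v) + u x) (Eventually.of_forall fun x => ?_),
      integral_add (hui.comp_add_right v) hui, integral_add_right_eq_self u]
    · ring
    · have h0 := hu.2.2 x
      have h1 := hu.2.2 (x + v)
      simp only
      by_cases hx : x ∈ K
      · by_cases hx' : x + v ∈ K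
        · exfalso
          have a1 := hB hx
          have a2 := hB hx'
          rw [mem_closedBall_zero_iff] at a1 a2
          have := norm_le_norm_add_norm_sub' (x + v) x
          rw [add_sub_cancel_left] at this
          have := norm_sub_le (x + v) x
          rw [add_sub_cancel_left] at this
          linarith [le_abs_self B]
        · rw [comp_eq_zero hu hx', zero_sub, abs_neg, zero_add, abs_of_nonneg h0.1]
      · rw [comp_eq_zero hu hx, sub_zero, add_zero, abs_of_nonneg h1.1]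
  have h3 : vol G u ≤ (|dM| + 1) * ∫ x, u x := by
    rw [vol, ← integral_const_mul]
    refine integral_mono ((hu.1.continuous.mul (continuous_dens h)).integrable_of_hasCompactSupport
      hucs.mul_right) (hui.const_mul _) fun x => ?_
    simp only
    by_cases hx : x ∈ K
    · have := hdM x hx
      rw [Real.norm_of_nonneg (dens_pos h x).le] at this
      rw [mul_comm (|dM| + 1)]
      exact mul_le_mul_of_nonneg_left (by linarith [le_abs_self dM]) (hu.2.2 x).1
    · simp [comp_eq_zero hu hx]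
  have h4 : ∫ x, ‖fderiv ℝ u x‖ ≤ CF * per G u := by
    rw [per, ← integral_const_mul]
    refine integral_mono_of_nonneg (Eventually.of_forall fun x => norm_nonneg _)
      ((integrable_per h hK hu).const_mul _) (Eventually.of_forall fun x => ?_)
    simp only
    by_cases hx : x ∈ K
    · refine le_trans ?_ (hCFb x hx (cd u x))
      refine ContinuousLinearMap.opNorm_le_bound _ (Finset.sum_nonneg fun i _ => abs_nonneg _)
        fun w => ?_
      rw [cd_dot, Real.norm_eq_abs, dotProduct, Finset.sum_mul]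
      refine (Finset.abs_sum_le_sum_abs _ _).trans (Finset.sum_le_sum fun i _ => ?_)
      rw [abs_mul]
      exact mul_le_mul_of_nonneg_left
        (by rw [← Real.norm_eq_abs]; exact norm_le_pi_norm w i) (abs_nonneg _)
    · rw [fderiv_of_notMem_tsupport ℝ fun hm => hx (hu.2.1 hm), norm_zero]
      exact mul_nonneg hCF.le (mul_nonneg (Real.sqrt_nonneg _) (dens_pos h x).le)
  rw [h2, hv] at h1
  have h5 := h1.trans (mul_le_mul_of_nonneg_left h4 (by positivity))
  rw [div_le_iff₀ (by positivity)]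
  have h6 := mul_le_mul_of_nonneg_left h5 (by positivity : 0 ≤ |dM| + 1)
  linarith

/-- The three inequalities combined. -/
lemma combine {m P L κ Ent W e g T X p₀ : ℝ} (hP : 0 < P) (hκ0 : 0 ≤ κ) (hκ1 : κ ≤ 1)
    (hg : 0 < g) (hgP : g ≤ P) (heP : g ≤ p₀) (hpP : p₀ ≤ P)
    (hgain1 : m / 2 * P * L + Ent ≤ P * W + p₀)
    (hgain2 : X + Ent ≤ P * W + p₀)
    (hlow : P * T - p₀ ≤ Ent + κ * X + e * P)
    (hκL : κ * (m / 2 * L) ≤ 1) :
    m / 2 * L + T ≤ W + e + 3 := by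
  have h1 : (1 - κ) * (m / 2 * P * L) ≤ (1 - κ) * (P * W + p₀ - Ent) :=
    mul_le_mul_of_nonneg_left (by linarith) (by linarith)
  have h2 : κ * X ≤ κ * (P * W + p₀ - Ent) := mul_le_mul_of_nonneg_left (by linarith) hκ0
  have h3 := mul_le_mul_of_nonneg_left hκL hP.le
  refine le_of_mul_le_mul_left ?_ hP
  nlinarith

/-- Perimeter against the Lagrange multiplier. -/
lemma log_per_add_le {P h l α θ V : ℝ} {n : ℕ} (hn : 2 ≤ n) (hP : 0 < P) (hl : 0 < l) (hV : 0 < V)
    (hθ : θ = Real.exp (1 / ((n : ℝ) - 1))) (hα : α = ((n : ℝ) - 1) / n)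
    (hPV : P ≤ l * V ^ α) (hh : h = l * α * θ * V ^ (α - 1)) :
    Real.log P + ((n : ℝ) - 1) * Real.log h
      ≤ (n : ℝ) * Real.log l + ((n : ℝ) - 1) * Real.log α + 1 := by
  have hn0 : (2 : ℝ) ≤ n := by exact_mod_cast hn
  have hm0 : (0 : ℝ) < (n : ℝ) - 1 := by linarith
  have hα0 : 0 < α := hα ▸ by positivity
  have hθ0 : 0 < θ := hθ ▸ Real.exp_pos _
  have h1 := Real.log_le_log hP hPV
  rw [Real.log_mul hl.ne' (by positivity), Real.log_rpow hV] at h1
  rw [hh, Real.log_mul (by positivity) (by positivity), Real.log_mul (by positivity) hθ0.ne',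
    Real.log_mul hl.ne' hα0.ne', Real.log_rpow hV, hθ, Real.log_exp]
  have e : α * Real.log V + ((n : ℝ) - 1) * ((α - 1) * Real.log V) = 0 := by
    rw [hα]; field_simp; ring
  have e2 : ((n : ℝ) - 1) * (1 / ((n : ℝ) - 1)) = 1 := by field_simp
  linarith

/-- The channel facts: the pointwise function has the entropy and the cost as its integral. -/
lemma channel_facts (h : IsCH G D) (o : Fin n → ℝ) (R : ℝ) {u : (Fin n → ℝ) → ℝ}
    (hu : Comp {y | D o y ≤ R} u) {N : Set (Fin n → ℝ)} {s : ℝ} (hs : 0 < s) {J : ℕ}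
    {ctr : ((Fin n → ℝ) → ℝ) → (Fin n → ℝ)} (hctr : ∀ W, ctr W ∈ N) {B : ℝ} (hB0 : 0 ≤ B)
    (hB : ∀ y, D o y ≤ R → ∀ c ∈ N, D y c ≤ B) (hJ : 2 * B / s ^ 2 + 1 ≤ J) (C : ℝ) :
    ContinuousOn (fun y => termAt G D u ctr s J y + C * centreCost G D ctr s J y + 1)
        {y | D o y ≤ R} ∧
      (∀ y, D o y ≤ R → 0 ≤ centreCost G D ctr s J y) ∧
      ∫ y, (termAt G D u ctr s J y + C * centreCost G D ctr s J y + 1) ∂pm G u
        = chanAvg ctr (vstep G D (1 / (s ^ 2 * J))) J (ent (pm G u)) (fun _ => 1)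
          + C * ∫ y, centreCost G D ctr s J y ∂pm G u + per G u := by
  set K := {y | D o y ≤ R}
  have hK : IsCompact K := h.proper o R
  set μ := pm G u
  have hμf := isFiniteMeasure_pm h hK hu
  have hμK : ∀ᵐ y ∂μ, y ∈ K := ae_mem_pm h hK hu
  set vv := vstep G D (1 / (s ^ 2 * J))
  have hsJ : 0 < s ^ 2 * (J : ℝ) := mul_pos (by positivity)
    (lt_of_lt_of_le (by positivity) hJ)
  have hvv : ∀ c ∈ N, ∀ k, ∀ y ∈ K, |vv c k y| < 1 := fun c hc k y hy => by
    refine (abs_vstep_le h (by positivity) (hB y hy c hc) k).trans_lt ?_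
    rw [← Real.sqrt_mul (by positivity), Real.sqrt_lt' one_pos, one_pow, one_div_mul_eq_div,
      div_lt_one hsJ]
    have h1 := mul_le_mul_of_nonneg_left hJ (sq_nonneg s)
    rw [mul_add, mul_div_cancel₀ _ (by positivity : s ^ 2 ≠ 0)] at h1
    nlinarith
  have hpos : ∀ j, ∀ W ∈ nodes N vv j, PosOn K W :=
    nodes_posOn (fun c _ k => (contDiff_vstep h _ c k).continuous.continuousOn) hvv
  have hgc : ∀ W ∈ nodes N vv J,
      ContinuousOn (fun y => W y * (Real.log (∫ z, W z ∂μ) - Real.log (W y))) K := fun W hW =>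
    (hpos J W hW).1.mul (continuousOn_const.sub
      ((hpos J W hW).1.log fun y hy => ((hpos J W hW).2 y hy).ne'))
  obtain ⟨hEnt, hEntc⟩ := integral_chanAvg hK hμK hctr J hgc
  have hcostc : ContinuousOn (centreCost G D ctr s J) K :=
    (continuousOn_finsetSum _ fun j _ => (integral_chanAvg hK hμK hctr j
      (g := fun W y => W y * D (ctr W) y) fun W hW =>
        (hpos j W hW).1.mul (continuous_D h _).continuousOn).2).const_mul _
  refine ⟨(hEntc.add (hcostc.const_mul C)).add continuousOn_const, fun y hy => ?_, ?_⟩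
  · refine mul_nonneg (by positivity) (Finset.sum_nonneg fun j _ => ?_)
    have h0 : chanAvg ctr vv j (fun W => (0 : ℝ) * W y) (fun _ => 1)
        ≤ chanAvg ctr vv j (fun W => W y * D (ctr W) y) (fun _ => 1) :=
      chanAvg_mono hctr j fun W hW => by
        rw [zero_mul]
        exact mul_nonneg ((hpos j W hW).2 y hy).le (D_nonneg h _ _)
    rwa [chanAvg_const_mul, zero_mul] at h0
  · have i1 : Integrable (termAt G D u ctr s J) μ := integrable_carrier hK hμK hEntc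
    have i2 : Integrable (fun y => C * centreCost G D ctr s J y) μ :=
      (integrable_carrier hK hμK hcostc).const_mul _
    have i12 : Integrable (fun y => termAt G D u ctr s J y + C * centreCost G D ctr s J y) μ :=
      i1.add i2
    rw [integral_add i12 (integrable_const _), integral_add i1 i2, integral_const_mul,
      integral_const, smul_eq_mul, mul_one]
    exact congrArg₂ (· + ·) (congrArg₂ (· + ·) hEnt.symm rfl) (pm_univ h hK hu)

/-- The logarithm in the gain, from both sides. -/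
lemma gain_log_bounds {m s hh hmn C L : ℝ} (hm : 0 < m) (hs : 0 < s) (hmn0 : 0 < hmn)
    (hle : hmn ≤ hh) (hC : 0 ≤ C) (hL : L = Real.log (1 + m / (s ^ 2 * hh ^ 2)))
    (hsh : 2 * C * (m * √m) / hmn * s ≤ 1) :
    Real.log m - 2 * Real.log s - 2 * Real.log hh ≤ L ∧ 2 * C * s ^ 2 * (m / 2 * L) ≤ 1 := by
  have hh0 : 0 < hh := hmn0.trans_le hle
  constructor
  · rw [hL]
    refine le_trans (le_of_eq ?_)
      (Real.log_le_log (by positivity) (le_add_of_nonneg_left zero_le_one))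
    rw [Real.log_div hm.ne' (by positivity), Real.log_mul (by positivity) (by positivity),
      Real.log_pow, Real.log_pow]
    push_cast
    ring
  · obtain ⟨x, hxdef⟩ : ∃ x : ℝ, x = √m / (s * hh) := ⟨_, rfl⟩
    have hx : 0 ≤ x := by rw [hxdef]; positivity
    have hLx : L ≤ 2 * x := by
      rw [hL, show m / (s ^ 2 * hh ^ 2) = x ^ 2 by
        rw [hxdef, div_pow, Real.sq_sqrt hm.le, mul_pow]]
      calc Real.log (1 + x ^ 2) ≤ Real.log ((1 + x) ^ 2) :=
            Real.log_le_log (by positivity) (by nlinarith)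
        _ = 2 * Real.log (1 + x) := by rw [Real.log_pow]; norm_num
        _ ≤ 2 * x := by linarith [Real.log_le_sub_one_of_pos (show 0 < 1 + x by linarith)]
    have hxle : x ≤ √m / (s * hmn) := hxdef ▸ div_le_div_of_nonneg_left (Real.sqrt_nonneg _)
      (by positivity) (mul_le_mul_of_nonneg_left hle hs.le)
    calc 2 * C * s ^ 2 * (m / 2 * L) ≤ 2 * C * s ^ 2 * (m / 2 * (2 * (√m / (s * hmn)))) :=
          mul_le_mul_of_nonneg_left (mul_le_mul_of_nonneg_left (by linarith) (by linarith))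
            (by positivity)
      _ = 2 * C * (m * √m) / hmn * s := by field_simp
      _ ≤ 1 := hsh

/-- Small scales exist. -/
lemma exists_scale {s₀ s₁ s₂ : ℝ} (h₀ : 0 < s₀) (h₁ : 0 < s₁) (h₂ : 0 < s₂) (a b : ℝ) :
    ∃ s : ℝ, 0 < s ∧ s < s₀ ∧ s < s₁ ∧ s < s₂ ∧ a * s ^ 2 ≤ 1 ∧ b * s ≤ 1 := by
  have h1 : ∀ᶠ s in 𝓝[>] (0 : ℝ), s < s₀ ∧ s < s₁ ∧ s < s₂ ∧ a * s ^ 2 ≤ 1 ∧ b * s ≤ 1 := by
    refine ((eventually_lt_nhds h₀).and ((eventually_lt_nhds h₁).and
      ((eventually_lt_nhds h₂).and ((?_ : ∀ᶠ s in 𝓝 (0 : ℝ), _).and ?_)))).filter_mono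
        nhdsWithin_le_nhds
    · exact ((continuous_const.mul (continuous_pow 2)).tendsto' 0 0 (by simp)).eventually
        (eventually_le_nhds one_pos)
    · exact ((continuous_const.mul continuous_id).tendsto' 0 0 (by simp)).eventually
        (eventually_le_nhds one_pos)
  obtain ⟨s, hs1, hs2⟩ := (h1.and self_mem_nhdsWithin).exists
  exact ⟨s, hs2, hs1⟩

/-- The sharp constant in large dimension, from the parts of the proof. -/
theorem asymptoticCH_of_pins (hG : ∀ n, GainPin n) (hT : ∀ n, TerminalPin n)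
    (hS : ∀ n, GoodShiftPin n) : AsymptoticCH := by
  intro ε hε
  refine ⟨max 2 (max ⌈144 / ε ^ 2⌉₊ ⌈8 * ((2000 : ℝ) + 5) / ε⌉₊), fun n hn₀ G D h Ω A hΩ hΩb hper => ?_⟩
  have hn : 2 ≤ n := le_trans (le_max_left _ _) hn₀
  have hn2 : (2 : ℝ) ≤ n := by exact_mod_cast hn
  have hn144 : 144 / ε ^ 2 ≤ (n : ℝ) := by
    refine (Nat.le_ceil _).trans ?_
    exact_mod_cast le_trans (le_trans (le_max_left _ _) (le_max_right _ _)) hn₀
  have hnC : 8 * ((2000 : ℝ) + 5) / ε ≤ (n : ℝ) := by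
    refine (Nat.le_ceil _).trans ?_
    exact_mod_cast le_trans (le_trans (le_max_right _ _) (le_max_right _ _)) hn₀
  have hA0 : 0 ≤ A := by
    obtain ⟨S, v, -, -, -, hA⟩ := hper
    exact le_trans (h.per_nonneg (v 0)) (hA 0)
  show (1 - ε) * eucConst n * volG G Ω ^ (((n : ℝ) - 1) / n) ≤ A
  have hc := eucConst_pos (show 1 ≤ n by omega)
  have hV0 : 0 ≤ volG G Ω ^ (((n : ℝ) - 1) / n) :=
    Real.rpow_nonneg (integral_nonneg fun y => (dens_pos h y).le) _
  rcases le_or_gt 1 ε with hε1 | hε1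
  · exact le_trans (mul_nonpos_of_nonpos_of_nonneg
      (mul_nonpos_of_nonpos_of_nonneg (by linarith) hc.le) hV0) hA0
  by_contra hlt
  rw [not_le] at hlt
  obtain ⟨l, hl⟩ : ∃ l : ℝ, l = (1 - ε) * eucConst n := ⟨_, rfl⟩
  rw [← hl] at hlt
  have hl0 : 0 < l := hl ▸ mul_pos (by linarith) hc
  obtain ⟨R, M, P₀, v₀, hR, hM, hP₀, hv₀, hmin⟩ :=
    minPin n hn G D h Ω A l hΩ hΩb hper hl0 hlt 0
  set K := {y | D 0 y ≤ R}
  have hK : IsCompact K := h.proper 0 R
  obtain ⟨p₀, hp₀, hperlow⟩ := exists_per_lower h 0 R (by omega) hv₀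
  obtain ⟨Rb, s₂, hRb, hs₂, hLow⟩ := lowerPin (half_pos hε) le_rfl n hn G D h 0 R P₀ v₀ p₀ hR hP₀
    hv₀ hp₀
  obtain ⟨s₀, hs₀, hGood⟩ := hS n hn G D h 0 R P₀ v₀ l M 1 p₀ hR hP₀ hv₀ hl0 hM le_rfl hp₀
  obtain ⟨s₁, C, hs₁, hC, hTerm⟩ := hT n hn G D h 0 R Rb 1 hR hRb one_pos
  -- scales
  obtain ⟨α, hα⟩ : ∃ α : ℝ, α = ((n : ℝ) - 1) / n := ⟨_, rfl⟩
  obtain ⟨θ, hθ⟩ : ∃ θ : ℝ, θ = Real.exp (1 / ((n : ℝ) - 1)) := ⟨_, rfl⟩
  have hm0 : (0 : ℝ) < (n : ℝ) - 1 := by linarith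
  have hθ1 : 1 < θ := hθ ▸ Real.one_lt_exp_iff.2 (by positivity)
  have hα0 : 0 < α := hα ▸ by positivity
  have hα1 : α ≤ 1 := by rw [hα, div_le_one (by linarith)]; linarith
  obtain ⟨u₁, hu₁, -, hvu₁, -⟩ := hmin 1 one_pos
  have hVK : 0 < volG G K := hv₀.trans_le (hvu₁.trans (h.vol_le hK hu₁))
  obtain ⟨hmn, hhmn⟩ : ∃ hmn : ℝ, hmn = l * α * θ * volG G K ^ (α - 1) := ⟨_, rfl⟩
  have hmn0 : 0 < hmn := by rw [hhmn]; positivity
  obtain ⟨s, hs, hss₀, hss₁, hss₂, hsC, hsh⟩ := exists_scale hs₀ hs₁ hs₂ (2 * C)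
    (2 * C * (((n : ℝ) - 1) * √((n : ℝ) - 1)) / hmn)
  obtain ⟨δ₁, hδ₁, hLow⟩ := hLow s hs hss₂
  obtain ⟨δ₂, hδ₂, hGood⟩ := hGood s hs hss₀
  obtain ⟨J₀, hTerm⟩ := hTerm s hs hss₁
  obtain ⟨κ, hκ, J₁, hGain⟩ := hG n hn G D h 0 R P₀ v₀ l M θ s p₀ hR hP₀ hv₀ hl0 hM hθ1 hs hp₀
  obtain ⟨B, hB0, hB⟩ : ∃ B : ℝ, 0 ≤ B ∧ ∀ y ∈ K, ∀ c ∈ K, D y c ≤ B := by
    obtain ⟨B, hB⟩ := (hK.prod hK).bddAbove_image h.continuous_D.continuousOn
    exact ⟨max B 0, le_max_right _ _,
      fun y hy c hc => (hB ⟨(y, c), ⟨hy, hc⟩, rfl⟩).trans (le_max_left _ _)⟩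
  obtain ⟨J, hJ₀, hJ₁, hJB⟩ : ∃ J : ℕ, J₀ ≤ J ∧ J₁ ≤ J ∧ 2 * B / s ^ 2 + 1 ≤ J :=
    ⟨max (max J₀ J₁) ⌈2 * B / s ^ 2 + 1⌉₊, le_trans (le_max_left _ _) (le_max_left _ _),
      le_trans (le_max_right _ _) (le_max_left _ _),
      (Nat.le_ceil _).trans (by exact_mod_cast le_max_right _ _)⟩
  obtain ⟨N, hNf, hoN, hNR, hNet⟩ := exists_net h 0 hR hκ
  obtain ⟨δ₃, hδ₃, hGain⟩ := hGain J hJ₁ N hNf hNR
  obtain ⟨u, hu, hPu, hVu, hgu, hPV, hopt⟩ := hmin (min δ₁ (min δ₂ δ₃)) (by positivity)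
  have hnear : ∀ δ, min δ₁ (min δ₂ δ₃) ≤ δ → NearMin G D 0 R P₀ v₀ l M δ u := fun δ hδ =>
    ⟨hu, hPu, hVu, hgu.trans hδ, fun u' hu' => (hopt u' hu').trans (by linarith)⟩
  have hpP : p₀ ≤ per G u := hperlow u hu hVu
  have hP0 : 0 < per G u := hp₀.trans_le hpP
  set μ := pm G u
  have hμf := isFiniteMeasure_pm h hK hu
  have hμK : ∀ᵐ y ∂μ, y ∈ K := ae_mem_pm h hK hu
  have : NeZero μ := ⟨fun h0 => by
    have h1 := pm_univ h hK hu
    rw [show pm G u = μ from rfl, h0] at h1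
    simp at h1
    linarith⟩
  -- the centres
  classical
  set ctr : ((Fin n → ℝ) → ℝ) → (Fin n → ℝ) := fun W =>
    if hh : ∃ c ∈ N, ∀ k, |∫ y, W y * ucoord G D c y k ∂μ| ≤ κ * ∫ y, W y ∂μ then hh.choose else 0
  have hctrN : ∀ W, ctr W ∈ N := fun W => by
    simp only [ctr]
    split_ifs with hh
    · exact hh.choose_spec.1
    · exact hoN
  have hgood := hGood u (hnear δ₂ (le_trans (min_le_right _ _) (min_le_left _ _)))
  obtain ⟨hgain1, hgain2⟩ := hGain u (hnear δ₃ (le_trans (min_le_right _ _) (min_le_right _ _))) hP0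
    ctr hctrN fun W hWc hWp k => by
      have hh := hNet μ W hμK ⟨hWc, hWp⟩ (integral_pos_of_posOn hK hμK ⟨hWc, hWp⟩)
      simp only [ctr, dif_pos hh]
      exact hh.choose_spec.2 k
  obtain ⟨hfc, hcost0, hint⟩ := channel_facts h 0 R hu hs hctrN hB0
    (fun y hy c hc => hB y hy c (hNR c hc)) hJB C
  have hlow := hLow u hu hPu hVu (hgu.trans (min_le_left _ _)) (hgood.trans (by linarith)) _ hfc
    fun y hy hq => by
      obtain ⟨ha, hb⟩ := hTerm J hJ₀ u ctr y hu (fun W => hNR _ (hctrN W)) hy hq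
      have := mul_nonneg hC (hcost0 y hy)
      constructor <;> linarith
  rw [hint] at hlow
  -- the multiplier
  obtain ⟨hh, hhdef⟩ : ∃ hh : ℝ, hh = l * α * θ * vol G u ^ (α - 1) := ⟨_, rfl⟩
  rw [← hα] at hgain1 hPV
  rw [← hhdef] at hgain1
  have hV : 0 < vol G u := hv₀.trans_le hVu
  have hh0 : 0 < hh := by rw [hhdef]; positivity
  have hhge : hmn ≤ hh := by
    rw [hhdef, hhmn]
    exact mul_le_mul_of_nonneg_left
      (Real.rpow_le_rpow_of_nonpos hV (h.vol_le hK hu) (by linarith)) (by positivity)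
  obtain ⟨L, hL⟩ : ∃ L : ℝ, L = Real.log (1 + ((n : ℝ) - 1) / (s ^ 2 * hh ^ 2)) := ⟨_, rfl⟩
  rw [← hL] at hgain1
  obtain ⟨hLlow, hκL⟩ := gain_log_bounds hm0 hs hmn0 hhge hC hL hsh
  set X := (∫ y, centreCost G D ctr s J y ∂μ) / (2 * s ^ 2)
  have hXe : C * ∫ y, centreCost G D ctr s J y ∂μ = 2 * C * s ^ 2 * X := by
    simp only [X]; field_simp
  rw [hXe] at hlow
  have hfin := combine (X := X) (e := 1) (g := p₀)
    (T := ((n : ℝ) - 1) * Real.log s + ((n : ℝ) - 1) / 2 * Real.log (2 * π)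
      + (n : ℝ) / 2 - ε / 2 * n - 2000) hP0 (by positivity) hsC hp₀ hpP le_rfl hpP
    hgain1 hgain2 (by rw [one_mul]; linarith) hκL
  have hbound := log_per_add_le hn hP0 hl0 hV hθ hα hPV hhdef
  have h2 := mul_le_mul_of_nonneg_left hLlow (by linarith : 0 ≤ ((n : ℝ) - 1) / 2)
  refine constant_contradiction (C := 2000) hn hε hε1 hn144 hnC hl hα ?_
  clear * - hfin hbound h2 hm0 hn2
  rw [Real.log_mul (by positivity) hm0.ne']
  nlinarith

end Vale.Agent.P219.CH.Sharp
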