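import Vale.Agent.P219.Sharp.Basic
import Vale.Agent.P219.CH.VarAlgebra

/-!
# P219, the sharp constant: the logarithm coordinates and nearly centred points
-/

noncomputable section

open MeasureTheory ProbabilityTheory Set Filter Topology Matrix

namespace Vale.Agent.P219.CH.Sharp

variable {n : ℕ} {G : (Fin n → ℝ) → Matrix (Fin n) (Fin n) ℝ}
  {D : (Fin n → ℝ) → (Fin n → ℝ) → ℝ}

lemma contDiff_logCovector (h : IsCH G D) :
    ContDiff ℝ 1 fun p : (Fin n → ℝ) × (Fin n → ℝ) => cd (D p.2) p.1 := by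
  refine contDiff_pi.2 fun i => ?_
  have h1 : ContDiff ℝ 1 fun p : (Fin n → ℝ) × (Fin n → ℝ) => fderiv ℝ (D p.2) p.1 := by
    refine ContDiff.fderiv (m := 2) (n := 1)
      (f := fun (p : (Fin n → ℝ) × (Fin n → ℝ)) (z : Fin n → ℝ) => D p.2 z) ?_ contDiff_fst le_rfl
    exact h.smooth_dist.comp ((contDiff_snd.comp contDiff_fst).prodMk contDiff_snd)
  exact h1.clm_apply contDiff_const

lemma contDiff_ucoord (h : IsCH G D) (c : Fin n → ℝ) (k : Fin n) :
    ContDiff ℝ 1 fun y => ucoord G D c y k := by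
  simp only [ucoord, mulVec, dotProduct]
  exact ContDiff.sum fun i _ => contDiff_const.mul
    ((contDiff_apply ℝ ℝ i).comp ((contDiff_logCovector h).comp (contDiff_const.prodMk contDiff_id)))

lemma contDiff_vstep (h : IsCH G D) (δ : ℝ) (c : Fin n → ℝ) (k : Fin n) :
    ContDiff ℝ 1 (vstep G D δ c k) :=
  contDiff_const.mul (contDiff_ucoord h c k)

lemma sq_ucoord_le (h : IsCH G D) (c y : Fin n → ℝ) (k : Fin n) :
    ucoord G D c y k ^ 2 ≤ 2 * D y c := by
  rw [← ucoord_dot h, dotProduct, sq]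
  exact Finset.single_le_sum (f := fun i => ucoord G D c y i * ucoord G D c y i)
    (fun i _ => mul_self_nonneg _) (Finset.mem_univ k)

lemma sum_vstep_sq (h : IsCH G D) {δ : ℝ} (hδ : 0 ≤ δ) (c y : Fin n → ℝ) :
    ((List.finRange n).map fun k => vstep G D δ c k y ^ 2).sum = δ * (2 * D y c) := by
  rw [← List.ofFn_eq_map, List.sum_ofFn, ← ucoord_dot h, dotProduct, Finset.mul_sum]
  refine Finset.sum_congr rfl fun k _ => ?_
  rw [vstep, mul_pow, Real.sq_sqrt hδ]; ring

lemma abs_vstep_le (h : IsCH G D) {δ B : ℝ} (hδ : 0 ≤ δ) {c y : Fin n → ℝ} (hB : D y c ≤ B)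
    (k : Fin n) : |vstep G D δ c k y| ≤ √δ * √(2 * B) := by
  rw [vstep, abs_mul, abs_of_nonneg (Real.sqrt_nonneg δ)]
  exact mul_le_mul_of_nonneg_left (Real.abs_le_sqrt ((sq_ucoord_le h c y k).trans (by linarith)))
    (Real.sqrt_nonneg δ)

/-! ## The differential of the coordinates -/

/-- The differential shortens vectors. -/
lemma sum_fderiv_ucoord_le (h : IsCH G D) (c y v : Fin n → ℝ) :
    ∑ k, (cd (fun z => ucoord G D c z k) y ⬝ᵥ v) ^ 2 ≤ qf G y v := by
  have key : ∀ δ : ℝ, 0 < δ → ∑ k, (cd (fun z => ucoord G D c z k) y ⬝ᵥ v) ^ 2 ≤ (1 + δ) * qf G y v := by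
    intro δ hδ
    obtain ⟨ρ, hρ, hD⟩ := D_upper h (isCompact_singleton (x := y)) hδ
    set φ : Fin n → ℝ → ℝ := fun k t => ucoord G D c (y + t • v) k
    have hd : ∀ k, HasDerivAt (φ k) (cd (fun z => ucoord G D c z k) y ⬝ᵥ v) 0 := fun k => by
      rw [cd_dotProduct]
      exact (((contDiff_ucoord h c k).differentiable one_ne_zero y).hasFDerivAt
        ).comp_hasDerivAt_of_eq 0 (hasDerivAt_line y v) (by simp)
    have ht : Tendsto (fun t => ∑ k, (slope (φ k) 0 t) ^ 2) (𝓝[≠] 0)
        (𝓝 (∑ k, (cd (fun z => ucoord G D c z k) y ⬝ᵥ v) ^ 2)) :=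
      tendsto_finsetSum _ fun k _ => (hasDerivAt_iff_tendsto_slope.1 (hd k)).pow 2
    refine le_of_tendsto ht ?_
    have hev : ∀ᶠ t in 𝓝[≠] (0 : ℝ), ‖t • v‖ ≤ ρ := by
      have : Tendsto (fun t : ℝ => ‖t • v‖) (𝓝[≠] 0) (𝓝 0) :=
        (Continuous.tendsto' (by fun_prop) _ _ (by simp)).mono_left nhdsWithin_le_nhds
      exact this.eventually (eventually_le_nhds hρ)
    filter_upwards [hev, self_mem_nhdsWithin] with t htρ ht0
    have h1 := ucoord_contraction h c (y + t • v) y
    rw [dist_symm h] at h1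
    have h2 := hD y rfl (t • v) htρ
    rw [qf_smul] at h2
    have e : ∑ k, (slope (φ k) 0 t) ^ 2 = ((ucoord G D c (y + t • v) - ucoord G D c y) ⬝ᵥ
        (ucoord G D c (y + t • v) - ucoord G D c y)) / t ^ 2 := by
      rw [dotProduct, Finset.sum_div]
      refine Finset.sum_congr rfl fun k _ => ?_
      simp only [slope_def_field, φ, zero_smul, add_zero, sub_zero, Pi.sub_apply]
      ring
    rw [e, div_le_iff₀ (sq_pos_of_ne_zero ht0)]
    calc _ ≤ 2 * D y (y + t • v) := h1
      _ ≤ 2 * ((1 + δ) * (t ^ 2 * qf G y v / 2)) := by linarith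
      _ = _ := by ring
  refine ge_of_tendsto (f := fun δ : ℝ => (1 + δ) * qf G y v) (x := 𝓝[>] 0) ?_
    (eventually_nhdsWithin_of_forall fun δ hδ => key δ hδ)
  exact (Continuous.tendsto' (by fun_prop) _ _ (by simp)).mono_left nhdsWithin_le_nhds

/-- The tangential length squared of a covector. -/
def tanSq (G : (Fin n → ℝ) → Matrix (Fin n) (Fin n) ℝ) (y ξ a : Fin n → ℝ) : ℝ :=
  pairing G y a a - pairing G y ξ a ^ 2 / pairing G y ξ ξ

lemma tanSq_nonneg (h : IsCH G D) (y : Fin n → ℝ) {ξ : Fin n → ℝ} (hξ : ξ ≠ 0) (a : Fin n → ℝ) :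
    0 ≤ tanSq G y ξ a := by
  have h1 := pow_le_pow_left₀ (abs_nonneg _) (h.abs_pairing_le y ξ a) 2
  rw [sq_abs, mul_pow, h.conorm_sq, h.conorm_sq] at h1
  rw [tanSq, sub_nonneg, div_le_iff₀ (h.pairing_self_pos y hξ)]
  linarith

/-- The tangential trace of the pulled back metric is at most `n - 1`. -/
lemma sum_tanSq_ucoord_le (h : IsCH G D) (c y : Fin n → ℝ) {ξ : Fin n → ℝ} (hξ : ξ ≠ 0) :
    ∑ k, tanSq G y ξ (cd (fun z => ucoord G D c z k) y) ≤ (n : ℝ) - 1 := by
  set a : Fin n → Fin n → ℝ := fun k => cd (fun z => ucoord G D c z k) y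
  set M : Matrix (Fin n) (Fin n) ℝ := (2 : ℝ) • G y - ∑ k, vecMulVec (a k) (a k)
  have hquad : ∀ v, v ⬝ᵥ (M *ᵥ v) = 2 * qf G y v - ∑ k, (a k ⬝ᵥ v) ^ 2 := fun v => by
    simp only [M, sub_mulVec, sum_mulVec, smul_mulVec, dotProduct_sub, dotProduct_sum,
      dotProduct_smul, vecMulVec_mulVec, op_smul_eq_smul, smul_eq_mul]
    rw [qf]
    congr 1
    exact Finset.sum_congr rfl fun k _ => by rw [dotProduct_comm v]; ring
  have key := h.trace_bound y M (fun v => by
    rw [hquad]; have := sum_fderiv_ucoord_le h c y v; rw [← qf]; linarith) hξ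
  rw [hquad] at key
  have hη : qf G y ((G y)⁻¹ *ᵥ ξ) = pairing G y ξ ξ := by
    rw [qf, h.mulVec_inv, dotProduct_comm]; rfl
  have htr : ((G y)⁻¹ * M).trace = 2 * n - ∑ k, pairing G y (a k) (a k) := by
    simp only [M, Matrix.mul_sub, Matrix.mul_smul, Matrix.mul_sum, trace_sub, trace_smul, trace_sum,
      Matrix.nonsing_inv_mul _ (h.det_pos y).ne'.isUnit, trace_one, Fintype.card_fin, smul_eq_mul,
      mul_vecMulVec, trace_vecMulVec]
    congr 1
    exact Finset.sum_congr rfl fun k _ => by rw [dotProduct_comm]; rfl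
  rw [htr, hη] at key
  have hp := h.pairing_self_pos y hξ
  have e : ∀ k, a k ⬝ᵥ ((G y)⁻¹ *ᵥ ξ) = pairing G y ξ (a k) := fun k => by
    rw [h.pairing_comm y ξ]; rfl
  simp only [e] at key
  simp only [tanSq, Finset.sum_sub_distrib, ← Finset.sum_div]
  refine le_of_mul_le_mul_right ?_ hp
  rw [sub_mul, div_mul_cancel₀ _ hp.ne']
  linarith

/-! ## Nearly centred points -/

/-- A positive weight on the ball has a centre in the ball. -/
lemma exists_centre (h : IsCH G D) (o : Fin n → ℝ) {R : ℝ} (hR : 0 < R)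
    {μ : Measure (Fin n → ℝ)} [IsFiniteMeasure μ] (hμ : ∀ᵐ y ∂μ, D o y ≤ R)
    {W : (Fin n → ℝ) → ℝ} (hWc : ContinuousOn W {y | D o y ≤ R}) (hW0 : ∀ y, D o y ≤ R → 0 < W y)
    (hZ : 0 < ∫ y, W y ∂μ) :
    ∃ c, D o c ≤ R ∧ ∀ i, ∫ y, W y * cd (D y) c i ∂μ = 0 := by
  set K := {y | D o y ≤ R}
  have hK : IsCompact K := h.proper o R
  have hI : ∀ {g : (Fin n → ℝ) → ℝ}, Continuous g → Integrable (fun y => W y * g y) μ := fun hg => by
    have h1 : IntegrableOn (fun y => W y * _) K μ := (hWc.mul hg.continuousOn).integrableOn_compact hK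
    rwa [IntegrableOn, Measure.restrict_eq_self_of_ae_mem (show ∀ᵐ y ∂μ, y ∈ K from hμ)] at h1
  have hWm : AEStronglyMeasurable W μ :=
    (hI (continuous_const (y := (1 : ℝ)))).aestronglyMeasurable.congr
      (Eventually.of_forall fun y => mul_one _)
  have hIW : Integrable W μ :=
    (hI (continuous_const (y := (1 : ℝ)))).congr (Eventually.of_forall fun y => mul_one _)
  set Φ : (Fin n → ℝ) → ℝ := fun p => ∫ y, W y * D y p ∂μ
  have hDp : ∀ p, Continuous fun y => D y p := fun p =>
    h.continuous_D.comp (continuous_id.prodMk continuous_const)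
  -- derivative
  have hder : ∀ p v, HasDerivAt (fun t : ℝ => Φ (p + t • v))
      (∫ y, W y * fderiv ℝ (D y) p v ∂μ) 0 := by
    intro p v
    have hc : Continuous fun q : (Fin n → ℝ) × ℝ => fderiv ℝ (D q.1) (p + q.2 • v) v := by
      simp only [cd_dot]
      exact (((contDiff_logCovector h).continuous.comp
        ((continuous_const.add (continuous_snd.smul continuous_const)).prodMk continuous_fst)
        )).dotProduct continuous_const
    obtain ⟨B, hB⟩ := (hK.prod (isCompact_Icc (a := (-1 : ℝ)) (b := 1))).exists_bound_of_continuousOn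
      hc.continuousOn
    have hbd : ∀ᵐ y ∂μ, ∀ t ∈ Metric.ball (0 : ℝ) 1,
        ‖W y * fderiv ℝ (D y) (p + t • v) v‖ ≤ |B| * W y := hμ.mono fun y hy t ht => by
      rw [norm_mul, Real.norm_of_nonneg (hW0 y hy).le, mul_comm]
      refine mul_le_mul_of_nonneg_right ((hB (y, t) ⟨hy, ?_⟩).trans (le_abs_self B)) (hW0 y hy).le
      rw [Metric.mem_ball, Real.dist_eq, sub_zero, abs_lt] at ht
      exact ⟨ht.1.le, ht.2.le⟩
    have := hasDerivAt_integral_of_dominated_loc_of_deriv_le (μ := μ)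
      (F := fun t y => W y * D y (p + t • v)) (x₀ := (0 : ℝ))
      (F' := fun t y => W y * fderiv ℝ (D y) (p + t • v) v) (bound := fun y => |B| * W y)
      (Metric.ball_mem_nhds 0 one_pos) (Eventually.of_forall fun t => (hI (hDp _)).aestronglyMeasurable)
      (hI (hDp _)) (hI (hc.comp (continuous_id.prodMk continuous_const))).aestronglyMeasurable hbd
      (hIW.const_mul _) (Eventually.of_forall fun y t _ => ?_)
    · simpa using this.2
    · have hl : HasDerivAt (fun t : ℝ => p + t • v) v t := by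
        simpa using ((hasDerivAt_id t).smul_const v).const_add p
      exact ((((h.contDiff_D y).differentiable two_ne_zero _).hasFDerivAt).comp_hasDerivAt t hl
        ).const_mul _
  -- minimiser in a larger ball
  set K' := {y | D o y ≤ R + 1}
  have hK' : IsCompact K' := h.proper o (R + 1)
  have hΦc : ContinuousOn Φ K' := by
    obtain ⟨B, hB⟩ := (hK.prod hK').exists_bound_of_continuousOn h.continuous_D.continuousOn
    refine continuousOn_of_dominated (bound := fun y => |B| * W y)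
      (fun p _ => (hI (hDp p)).aestronglyMeasurable) (fun p hp => hμ.mono fun y hy => ?_)
      (hIW.const_mul _) (Eventually.of_forall fun y =>
        (continuous_const.mul (continuous_D h y)).continuousOn)
    rw [norm_mul, Real.norm_of_nonneg (hW0 y hy).le, mul_comm]
    exact mul_le_mul_of_nonneg_right ((hB (y, p) ⟨hy, hp⟩).trans (le_abs_self B)) (hW0 y hy).le
  obtain ⟨c, hcK', hmin⟩ := hK'.exists_isMinOn
    ⟨o, show D o o ≤ R + 1 by rw [h.dist_self]; linarith⟩ hΦc
  have hcR : D o c ≤ R := by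
    by_contra hcon
    rw [not_le] at hcon
    set v := -(grad G (D o) c)
    have hdo : fderiv ℝ (D o) c v < 0 := by
      simp only [v, map_neg]
      rw [← pairing_cd, h.eikonal]; linarith
    have hcont : Continuous fun y => fderiv ℝ (D y) c v := by
      simp only [cd_dot]
      exact ((contDiff_logCovector h).continuous.comp
        (continuous_const.prodMk continuous_id)).dotProduct continuous_const
    have hpos : ∫ y, W y * fderiv ℝ (D y) c v ∂μ < 0 := by
      refine lt_of_le_of_lt (integral_mono_ae (hI hcont) ((hIW.const_mul (R - D o c))) ?_) ?_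
      · filter_upwards [hμ] with y hy
        have h1 := h.cosine o y c
        have h2 := dist_symm h y c
        have h3 := h.dist_nonneg y c
        simp only [v, map_neg, mul_neg]
        rw [← pairing_cd, h.pairing_comm]
        have := mul_le_mul_of_nonneg_left
          (show D o c - R ≤ pairing G c (cd (D o) c) (cd (D y) c) by linarith) (hW0 y hy).le
        linarith
      · rw [integral_const_mul]
        exact mul_neg_of_neg_of_pos (by linarith) hZ
    have hline : HasDerivAt (fun t : ℝ => D o (c + t • v)) (fderiv ℝ (D o) c v) 0 :=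
      ((h.contDiff_D o).differentiable two_ne_zero c).hasFDerivAt.comp_hasDerivAt_of_eq 0
        (hasDerivAt_line c v) (by simp)
    have hΦt := hder c v
    have e1 : ∀ᶠ t in 𝓝[>] (0 : ℝ), slope (fun t : ℝ => D o (c + t • v)) 0 t < 0 :=
      ((hasDerivAt_iff_tendsto_slope.1 hline).mono_left
        (nhdsWithin_mono _ fun t (ht : 0 < t) => ne_of_gt ht)).eventually (eventually_lt_nhds hdo)
    have e2 : ∀ᶠ t in 𝓝[>] (0 : ℝ), slope (fun t : ℝ => Φ (c + t • v)) 0 t < 0 :=
      ((hasDerivAt_iff_tendsto_slope.1 hΦt).mono_left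
        (nhdsWithin_mono _ fun t (ht : 0 < t) => ne_of_gt ht)).eventually (eventually_lt_nhds hpos)
    obtain ⟨t, ⟨t1, t2⟩, ht⟩ := ((e1.and e2).and self_mem_nhdsWithin).exists
    simp only [slope_def_field, sub_zero, zero_smul, add_zero] at t1 t2
    rw [div_lt_iff₀ ht, zero_mul, sub_neg] at t1 t2
    exact absurd (hmin (show c + t • v ∈ K' from t1.le.trans hcK')) (not_le.2 t2)
  refine ⟨c, hcR, fun i => ?_⟩
  have hlm : IsLocalMin (fun t : ℝ => Φ (c + t • Pi.single i 1)) 0 := by
    have hev : ∀ᶠ t : ℝ in 𝓝 0, D o (c + t • Pi.single i 1) < R + 1 :=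
      ((continuous_D h o).comp (by fun_prop : Continuous fun t : ℝ => c + t • (Pi.single i 1 : Fin n → ℝ))
        ).continuousAt.eventually_lt continuousAt_const (by simp; linarith)
    filter_upwards [hev] with t ht
    simpa using hmin (show c + t • Pi.single i 1 ∈ K' from ht.le)
  exact hlm.hasDerivAt_eq_zero (hder c (Pi.single i 1))

end Vale.Agent.P219.CH.Sharp
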