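import Vale.Agent.P219.Sharp.Terminal

/-!
# P219, the sharp constant: the terminal pin
-/

noncomputable section

open MeasureTheory ProbabilityTheory Set Filter Topology Matrix
open scoped RealInnerProductSpace

namespace Vale.Agent.P219.CH.Sharp

variable {n : ℕ}

section Chain

variable {X Y : Type*} [MeasurableSpace X] [TopologicalSpace X] [OpensMeasurableSpace X] [T2Space X]
  {ν : Measure X} [IsFiniteMeasure ν] [NeZero ν] {K : Set X} {N : Set Y}
  {ctr : (X → ℝ) → Y} {vv : Y → Fin n → X → ℝ} {y : X}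

lemma nodes_good (hv : ∀ c ∈ N, ∀ k, ContinuousOn (vv c k) K) {b : ℝ} (hb : b < 1)
    (hvb : ∀ c ∈ N, ∀ k, ∀ z ∈ K, |vv c k z| ≤ b) (hyb : ∀ c ∈ N, ∀ k, |vv c k y| ≤ b) (j : ℕ) :
    ∀ W ∈ nodes N vv j, PosOn K W ∧ 0 < W y := by
  refine nodes_induction ⟨⟨continuousOn_const, fun _ _ => one_pos⟩, one_pos⟩
    (fun c hc k W hW => ?_) j
  obtain ⟨h1, h2⟩ := hW.1.mul_step (hv c hc k) fun z hz => (hvb c hc k z hz).trans_lt hb
  obtain ⟨y1, y2⟩ := abs_le.1 (hyb c hc k)
  exact ⟨⟨h1, mul_pos hW.2 (by linarith)⟩, ⟨h2, mul_pos hW.2 (by linarith)⟩⟩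

/-- The Gaussian bound along the tree. -/
theorem chan_gauss (hK : IsCompact K) (hν : ∀ᵐ z ∂ν, z ∈ K) (hN : ∀ W, ctr W ∈ N)
    (hv : ∀ c ∈ N, ∀ k, ContinuousOn (vv c k) K) {b : ℝ} (hb0 : 0 ≤ b) (hb : b ≤ 1 / 16)
    (hvb : ∀ c ∈ N, ∀ k, ∀ z ∈ K, |vv c k z| ≤ b) (hyb : ∀ c ∈ N, ∀ k, |vv c k y| ≤ b)
    {α : X → EuclideanSpace ℝ (Fin n)} (hα : Continuous α) {ρ : ℝ} (hρ : 0 ≤ ρ)
    (hαb : ∀ z ∈ K, ‖α z‖ ≤ ρ) {δ ω ε₁ : ℝ} {L : Y → ℝ} (hδ : 0 < δ) (hω : 0 ≤ ω) (hω1 : ω ≤ 1)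
    (hL : ∀ c ∈ N, 0 ≤ L c)
    (hdrift : ∀ c ∈ N, ∀ z ∈ K,
      driftSum (vv c) y b (List.finRange n) z ≤ δ * ‖α z‖ ^ 2 / 2 + ε₁)
    (hpair : ∀ c ∈ N, ∀ z ∈ K, ∀ z' ∈ K, (1 - ω) * δ * ∑ k, (α z k - α z' k) ^ 2 - L c ≤
      ∑ k, ((vv c k z - vv c k y) - (vv c k z' - vv c k y)) ^ 2) :
    ∀ (j : ℕ) (r : ℝ), 0 ≤ r →
      gaussValue ν α y (r + j * δ) (fun _ => 1) - j * blockErr n b δ ρ ω ε₁ -
          (∑ i ∈ Finset.range j, chanAvg ctr vv i (fun W => W y * L (ctr W)) (fun _ => 1)) / 4 ≤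
        chanAvg ctr vv j (fun W => W y * gaussValue ν α y r W) (fun _ => 1) := by
  intro j
  induction j with
  | zero => intro r _; simp [chanAvg]
  | succ j ih =>
    intro r hr
    rw [chanAvg_succ]
    have hle : chanAvg ctr vv j (fun W => W y * gaussValue ν α y (r + δ) W +
        ((-blockErr n b δ ρ ω ε₁) * W y + (-1 / 4) * (W y * L (ctr W)))) (fun _ => 1) ≤
        chanAvg ctr vv j (fun W => blockAvg (vv (ctr W)) (List.finRange n)
          (fun W => W y * gaussValue ν α y r W) W) (fun _ => 1) := by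
      refine chanAvg_mono hN j fun W hW => ?_
      obtain ⟨hWp, hWy⟩ := nodes_good hv (by linarith) hvb hyb j W hW
      have := block_gauss hK hν (hv _ (hN W)) hb0 hb (hvb _ (hN W)) y (hyb _ (hN W)) hα hρ hαb hδ hω
        hω1 (hL _ (hN W)) (hdrift _ (hN W)) (hpair _ (hN W)) hr hWp hWy
      linarith
    simp only [chanAvg_add, chanAvg_const_mul, chanAvg_eval] at hle
    have hih := ih (r + δ) (by linarith)
    rw [show r + δ + j * δ = r + ((j : ℝ) + 1) * δ by ring] at hih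
    rw [Finset.sum_range_succ]
    push_cast
    linarith

/-- The first order bound along the tree. -/
theorem chan_crude (hK : IsCompact K) (hν : ∀ᵐ z ∂ν, z ∈ K) (hN : ∀ W, ctr W ∈ N)
    (hv : ∀ c ∈ N, ∀ k, ContinuousOn (vv c k) K) {b : ℝ} (hb : b ≤ 1 / 16)
    (hvb : ∀ c ∈ N, ∀ k, ∀ z ∈ K, |vv c k z| ≤ b) (hyb : ∀ c ∈ N, ∀ k, |vv c k y| ≤ b)
    {d : X → ℝ} (hd : ContinuousOn d K)
    (hdrift : ∀ c ∈ N, ∀ z ∈ K, driftSum (vv c) y b (List.finRange n) z ≤ d z) :
    ∀ (j : ℕ) {f : X → ℝ}, ContinuousOn f K →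
      lse ν (fun z => f z - j * d z) ≤
        chanAvg ctr vv j (fun W => W y * lse ν fun z => logRatio y W z + f z) (fun _ => 1) := by
  intro j
  induction j with
  | zero => intro f _; simp [chanAvg, logRatio]
  | succ j ih =>
    intro f hf
    rw [chanAvg_succ]
    refine le_trans ?_ (chanAvg_mono hN j (F := fun W => W y * lse ν fun z => logRatio y W z + (f z - d z))
      fun W hW => ?_)
    · refine le_trans (le_of_eq (congrArg (lse ν) (funext fun z => ?_))) (ih (hf.sub hd))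
      push_cast; ring
    · obtain ⟨hWp, hWy⟩ := nodes_good hv (by linarith) hvb hyb j W hW
      refine le_trans (mul_le_mul_of_nonneg_left (lse_mono hK hν
        ((continuousOn_logRatio hWp y).add (hf.sub hd))
        (((continuousOn_logRatio hWp y).add hf).sub (continuousOn_driftSum (hv _ (hN W)) y b _))
        fun z hz => ?_) hWy.le)
        (block_crude hK hν (hv _ (hN W)) hb (hvb _ (hN W)) y (hyb _ (hN W)) hf _ W hWp hWy)
      simp only [Pi.add_apply, Pi.sub_apply]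
      linarith [hdrift _ (hN W) z hz]

end Chain

variable {G : (Fin n → ℝ) → Matrix (Fin n) (Fin n) ℝ} {D : (Fin n → ℝ) → (Fin n → ℝ) → ℝ}

lemma frame_mul_metric_mul (h : IsCH G D) (y : Fin n → ℝ) (b : EuclideanSpace ℝ (Fin n)) :
    frame G y *ᵥ (G y *ᵥ (frame G y *ᵥ WithLp.ofLp b)) = WithLp.ofLp b := by
  obtain ⟨-, h2, -, -⟩ := frame_spec h y
  rw [mulVec_mulVec, mulVec_mulVec, h2, one_mulVec]

/-- Frame coordinates of `z - y` in units of `s`. -/
def acoord (G : (Fin n → ℝ) → Matrix (Fin n) (Fin n) ℝ) (s : ℝ) (y z : Fin n → ℝ) :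
    EuclideanSpace ℝ (Fin n) :=
  WithLp.toLp 2 (s⁻¹ • (frame G y *ᵥ (G y *ᵥ (z - y))))

lemma continuous_acoord (G : (Fin n → ℝ) → Matrix (Fin n) (Fin n) ℝ) (s : ℝ) (y : Fin n → ℝ) :
    Continuous (acoord G s y) :=
  (PiLp.continuous_toLp 2 _).comp (by fun_prop)

lemma norm_sq_acoord_sub (h : IsCH G D) {s : ℝ} (hs : s ≠ 0) (y w : Fin n → ℝ) :
    ‖(WithLp.toLp 2 (s⁻¹ • (frame G y *ᵥ (G y *ᵥ w))) : EuclideanSpace ℝ (Fin n))‖ ^ 2 =
      qf G y w / s ^ 2 := by
  rw [EuclideanSpace.real_norm_sq_eq]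
  have e : ∑ i, (s⁻¹ • (frame G y *ᵥ (G y *ᵥ w))) i ^ 2 =
      (s⁻¹) ^ 2 * ((frame G y *ᵥ (G y *ᵥ w)) ⬝ᵥ (frame G y *ᵥ (G y *ᵥ w))) := by
    rw [dotProduct, Finset.mul_sum]
    exact Finset.sum_congr rfl fun i _ => by simp only [Pi.smul_apply, smul_eq_mul]; ring
  rw [e, frame_dot h, pairing, h.inv_mulVec, dotProduct_comm]
  rw [qf]; field_simp

lemma norm_sq_acoord (h : IsCH G D) {s : ℝ} (hs : s ≠ 0) (y z : Fin n → ℝ) :
    ‖acoord G s y z‖ ^ 2 = qf G y (z - y) / s ^ 2 :=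
  norm_sq_acoord_sub h hs y (z - y)

lemma sum_acoord_sub_sq (h : IsCH G D) {s : ℝ} (hs : s ≠ 0) (y z z' : Fin n → ℝ) :
    ∑ k, (acoord G s y z k - acoord G s y z' k) ^ 2 = qf G y (z - z') / s ^ 2 := by
  rw [← norm_sq_acoord_sub h hs y (z - z'), EuclideanSpace.real_norm_sq_eq]
  refine Finset.sum_congr rfl fun k _ => ?_
  simp only [acoord, Pi.smul_apply, smul_eq_mul, mulVec_sub, Pi.sub_apply]
  ring

lemma norm_acoord_sub_shift (h : IsCH G D) {s : ℝ} (hs : s ≠ 0) (y z : Fin n → ℝ)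
    (b : EuclideanSpace ℝ (Fin n)) :
    ‖acoord G s y z - b‖ ^ 2 = qf G y (z - toFrame (frame G y) s y b) / s ^ 2 := by
  rw [← norm_sq_acoord_sub h hs y (z - toFrame (frame G y) s y b)]
  congr 2
  have e : s⁻¹ • (frame G y *ᵥ (G y *ᵥ (z - toFrame (frame G y) s y b))) =
      s⁻¹ • (frame G y *ᵥ (G y *ᵥ (z - y))) - WithLp.ofLp b := by
    rw [toFrame, sub_add_eq_sub_sub, mulVec_sub, mulVec_sub, mulVec_smul, mulVec_smul,
      frame_mul_metric_mul h, smul_sub, smul_smul, inv_mul_cancel₀ hs, one_smul]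
  rw [e]
  rfl

/-- The channel dominates the Gaussian channel of the frozen metric. -/
theorem terminalPin (n : ℕ) : TerminalPin n := by
  intro _ G D h o R Rb e hR hRb he
  set K := {z | D o z ≤ R}
  have hK : IsCompact K := h.proper o R
  obtain ⟨ω, hω0, hω1, hωe⟩ : ∃ ω : ℝ, 0 < ω ∧ ω ≤ 1 ∧ ((n : ℝ) + 1) * Rb ^ 2 * ω ≤ e / 2 := by
    refine ⟨min 1 (e / (2 * (((n : ℝ) + 1) * Rb ^ 2))), by positivity, min_le_left _ _, ?_⟩
    refine (mul_le_mul_of_nonneg_left (min_le_right _ _) (by positivity)).trans (le_of_eq ?_)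
    field_simp
  obtain ⟨r₀, ρ₁, hr₀, hρ₁, hiso⟩ := exists_near_isometry h hK hω0
  obtain ⟨ρ₂, hρ₂, hup⟩ := D_upper h hK hω0
  obtain ⟨CA, hCA, hCAb⟩ := exists_comparison hK (f := fun p : (Fin n → ℝ) × (Fin n → ℝ) => ‖p.2‖)
    (g := fun p => √(qf G p.1 p.2)) (continuous_norm.comp continuous_snd)
    (Real.continuous_sqrt.comp (continuous_qf h))
    (fun y v a ha => by simp [norm_smul, abs_of_nonneg ha])
    (fun y v a ha => by simp [qf_smul, Real.sqrt_mul (sq_nonneg a), Real.sqrt_sq ha])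
    (fun y _ v hv => Real.sqrt_pos.2 (qf_pos h y hv))
  obtain ⟨Dm, hDm0, hDm⟩ : ∃ Dm : ℝ, 0 ≤ Dm ∧ ∀ a ∈ K, ∀ c ∈ K, D a c ≤ Dm := by
    obtain ⟨B, hB⟩ := (hK.prod hK).bddAbove_image h.continuous_D.continuousOn
    exact ⟨max B 0, le_max_right _ _,
      fun a ha c hc => (hB ⟨(a, c), ⟨ha, hc⟩, rfl⟩).trans (le_max_left _ _)⟩
  refine ⟨min ρ₁ ρ₂ / (CA * Rb), Rb ^ 2 / r₀, by positivity, by positivity, fun s hs hs₁ => ?_⟩
  set β := √(2 * Dm) / s
  set I3 := ∫ Z, ‖Z‖ ^ 3 ∂stdGaussian (EuclideanSpace ℝ (Fin n))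
  set F : ℝ → ℝ := fun x => ((1 + 20 * (β * x)) * (1 + ω) - 1) * Rb ^ 2 / 2
      + (n : ℝ) * (5400 * β ^ 3) * x + 200 * Rb ^ 3 * I3 * x
      + (n : ℝ) * Rb ^ 2 / 2 * (1 - Real.exp (-(10 * (β * x) * n +
          2 * (x ^ 2 * Rb ^ 2 + 5 * (n : ℝ) * (β * x) ^ 2))) * (1 - ω))
  have hF0 : F 0 < e := by
    simp only [F]
    norm_num
    nlinarith [sq_nonneg Rb, mul_nonneg hω0.le (sq_nonneg Rb)]
  have hlim : Tendsto (fun J : ℕ => (√(J : ℝ))⁻¹) atTop (𝓝 0) :=
    tendsto_inv_atTop_zero.comp (Real.tendsto_sqrt_atTop.comp tendsto_natCast_atTop_atTop)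
  obtain ⟨J₀, hJ₀⟩ := eventually_atTop.1 ((((by fun_prop : Continuous F).tendsto 0).comp hlim).eventually
    (eventually_lt_nhds hF0) |>.and (((Continuous.tendsto' (f := fun x => β * x) (by fun_prop) 0 0
      (mul_zero β)).comp hlim).eventually (eventually_le_nhds (by norm_num : (0:ℝ) < 1 / 20))) |>.and
      (eventually_gt_atTop 0))
  refine ⟨J₀, fun J hJ u ctr y hu hctr hy hpos => ?_⟩
  obtain ⟨⟨hFJ, hbJ⟩, hJpos⟩ := hJ₀ J hJ
  simp only [Function.comp_apply] at hFJ hbJ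
  have hb16 : β * (√(J : ℝ))⁻¹ ≤ 1 / 16 := hbJ.trans (by norm_num)
  have hJR : 0 < (J : ℝ) := by exact_mod_cast hJpos
  set x := (√(J : ℝ))⁻¹
  have hx2 : x ^ 2 = (J : ℝ)⁻¹ := by simp only [x]; rw [inv_pow, Real.sq_sqrt hJR.le]
  have hx : √(J : ℝ)⁻¹ = x := Real.sqrt_inv _
  set δ' := 1 / (s ^ 2 * (J : ℝ))
  have hδ' : 0 ≤ δ' := by positivity
  set b := β * x
  have hb0 : 0 ≤ b := by positivity
  have hbeq : √δ' * √(2 * Dm) = b := by
    simp only [δ', b, β, one_div, Real.sqrt_inv]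
    rw [Real.sqrt_mul (sq_nonneg s), Real.sqrt_sq hs.le]
    simp only [x]
    field_simp
  have hvb : ∀ c ∈ K, ∀ k, ∀ z ∈ K, |vstep G D δ' c k z| ≤ b := fun c hc k z hz =>
    hbeq ▸ abs_vstep_le h hδ' (hDm z hz c hc) k
  have hyb : ∀ c ∈ K, ∀ k, |vstep G D δ' c k y| ≤ b := fun c hc k => hvb c hc k y hy
  have hvc : ∀ (S : Set (Fin n → ℝ)), ∀ c ∈ K, ∀ k, ContinuousOn (vstep G D δ' c k) S :=
    fun S c _ k => (contDiff_vstep h δ' c k).continuous.continuousOn
  set μ := pm G u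
  haveI hμf : IsFiniteMeasure μ := isFiniteMeasure_pm h hK hu
  have hμK := ae_mem_pm h hK hu
  haveI : NeZero μ := ⟨fun h0 => by rw [h0] at hpos; simp at hpos⟩
  have hdsum : ∀ (c z : Fin n → ℝ),
      driftSum (vstep G D δ' c) y b (List.finRange n) z ≤ (1 + 20 * b) * (δ' * D y z) := by
    intro c z
    have e : driftSum (vstep G D δ' c) y b (List.finRange n) z = (1 + 20 * b) / 2 *
        (δ' * ((ucoord G D c z - ucoord G D c y) ⬝ᵥ (ucoord G D c z - ucoord G D c y))) := by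
      simp only [driftSum]
      rw [← List.ofFn_eq_map, List.sum_ofFn, dotProduct, Finset.mul_sum, Finset.mul_sum]
      refine Finset.sum_congr rfl fun k _ => ?_
      simp only [drift, vstep, ← mul_sub, mul_pow, Real.sq_sqrt hδ', Pi.sub_apply]
      ring
    rw [e]
    have h1 := ucoord_contraction h c z y
    rw [dist_symm h z y] at h1
    calc (1 + 20 * b) / 2 * (δ' * _) ≤ (1 + 20 * b) / 2 * (δ' * (2 * D y z)) :=
          mul_le_mul_of_nonneg_left (mul_le_mul_of_nonneg_left h1 hδ') (by positivity)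
      _ = _ := by ring
  constructor
  · -- first order
    set d : (Fin n → ℝ) → ℝ := fun z => 2 * D y z / (s ^ 2 * J)
    have hd : ContinuousOn d K :=
      ((continuous_const.mul (continuous_D h y)).div_const _).continuousOn
    have := chan_crude (ν := μ) (N := K) hK hμK hctr (hvc K) hb16 hvb hyb hd (fun c _ z _ => by
      refine (hdsum c z).trans ?_
      simp only [d, δ']
      rw [one_div, ← div_eq_inv_mul, ← mul_div_assoc]
      exact div_le_div_of_nonneg_right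
        (mul_le_mul_of_nonneg_right (by linarith) (h.dist_nonneg y z)) (by positivity))
      J (continuousOn_const (c := (0 : ℝ)))
    refine le_trans (le_of_eq ?_) (this.trans (le_of_eq (chanAvg_congr (N := K) hctr fun W hW => ?_)))
    · simp only [crudeLower, lse, d]
      congr 1
      refine integral_congr_ae (Eventually.of_forall fun z => ?_)
      simp only
      congr 1
      field_simp
      ring
    · obtain ⟨hWp, hWy⟩ := nodes_good (hvc K) (by linarith) hvb hyb J W hW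
      congr 1
      simp only [lse, add_zero, logRatio]
      rw [integral_congr_ae (g := fun z => W z * (W y)⁻¹) (hμK.mono fun z hz => by
          simp only
          rw [Real.exp_sub, Real.exp_log (hWp.2 z hz), Real.exp_log hWy, div_eq_mul_inv]),
        integral_mul_const, Real.log_mul (integral_pos_of_posOn hK hμK hWp).ne' (inv_ne_zero hWy.ne'),
        Real.log_inv]
      ring
  -- second order
  set B := K ∩ qball G s Rb y
  have hqc : IsClosed (qball G s Rb y) :=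
    isClosed_le ((continuous_qf h).comp (continuous_const.prodMk (continuous_id.sub continuous_const)))
      continuous_const
  have hB : IsCompact B := hK.inter_right hqc
  set ν := μ.restrict (qball G s Rb y)
  haveI : NeZero ν := ⟨fun h0 => by
    rw [Measure.restrict_eq_zero] at h0; rw [h0] at hpos; simp at hpos⟩
  have hν : ∀ᵐ z ∂ν, z ∈ B := by
    filter_upwards [ae_restrict_of_ae hμK, ae_restrict_mem hqc.measurableSet] with z h1 h2
    exact ⟨h1, h2⟩
  set α := acoord G s y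
  have hαb : ∀ z ∈ B, ‖α z‖ ≤ Rb := fun z hz => by
    refine le_of_pow_le_pow_left₀ two_ne_zero (by linarith) ?_
    rw [norm_sq_acoord h hs.ne', div_le_iff₀ (by positivity)]
    exact hz.2
  have hnear : ∀ z ∈ B, ‖z - y‖ ≤ min ρ₁ ρ₂ := fun z hz => by
    refine (hCAb y hy (z - y)).trans ?_
    have h1 : √(qf G y (z - y)) ≤ Rb * s :=
      (Real.sqrt_le_left (by positivity)).2 (by rw [mul_pow]; exact hz.2)
    rw [lt_div_iff₀ (by positivity)] at hs₁
    calc CA * √(qf G y (z - y)) ≤ CA * (Rb * s) := mul_le_mul_of_nonneg_left h1 hCA.le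
      _ ≤ _ := by linarith
  set L : (Fin n → ℝ) → ℝ := fun c => 4 * Rb ^ 2 / ((J : ℝ) * r₀) * D c y
  have hgauss := chan_gauss (ν := ν) (N := K) (L := L) (δ := (J : ℝ)⁻¹) (ω := ω)
    (ε₁ := ((1 + 20 * b) * (1 + ω) - 1) * Rb ^ 2 / (2 * J))
    hB hν hctr (hvc B) hb0 hb16 (fun c hc k z hz => hvb c hc k z hz.1) hyb
    (continuous_acoord G s y) (by linarith : (0:ℝ) ≤ Rb) hαb (inv_pos.2 hJR) hω0.le hω1
    (fun c _ => mul_nonneg (by positivity) (h.dist_nonneg c y))
    (fun c _ z hz => ?_) (fun c hc z hz z' hz' => ?_) J 0 le_rfl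
  rotate_left
  · refine (hdsum c z).trans ?_
    have h1 := hup y hy (z - y) ((hnear z hz).trans (min_le_right _ _))
    rw [add_sub_cancel] at h1
    have h2 : (0:ℝ) ≤ ((1 + 20 * b) * (1 + ω) - 1) := by nlinarith
    have h3 := pow_le_pow_left₀ (norm_nonneg _) (hαb z hz) 2
    have h4 : qf G y (z - y) = s ^ 2 * ‖α z‖ ^ 2 := by
      rw [norm_sq_acoord h hs.ne']; field_simp
    rw [h4] at h1
    calc (1 + 20 * b) * (δ' * D y z)
        ≤ (1 + 20 * b) * (δ' * ((1 + ω) * (s ^ 2 * ‖α z‖ ^ 2 / 2))) :=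
          mul_le_mul_of_nonneg_left (mul_le_mul_of_nonneg_left h1 hδ') (by positivity)
      _ = (J : ℝ)⁻¹ * ‖α z‖ ^ 2 / 2 + ((1 + 20 * b) * (1 + ω) - 1) * ‖α z‖ ^ 2 / (2 * J) := by
          simp only [δ']; field_simp; ring
      _ ≤ _ := add_le_add le_rfl
          (div_le_div_of_nonneg_right (mul_le_mul_of_nonneg_left h3 h2) (by positivity))
  · have e1 : ∑ k, ((vstep G D δ' c k z - vstep G D δ' c k y) -
        (vstep G D δ' c k z' - vstep G D δ' c k y)) ^ 2 =
        δ' * ((ucoord G D c z - ucoord G D c z') ⬝ᵥ (ucoord G D c z - ucoord G D c z')) := by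
      rw [dotProduct, Finset.mul_sum]
      refine Finset.sum_congr rfl fun k _ => ?_
      simp only [vstep, sub_sub_sub_cancel_right, ← mul_sub, mul_pow, Real.sq_sqrt hδ', Pi.sub_apply]
      ring
    rw [e1, sum_acoord_sub_sq h hs.ne']
    have hLn : 0 ≤ L c := mul_nonneg (by positivity) (h.dist_nonneg c y)
    rcases le_or_gt (D y c) r₀ with hgood | hbad
    · have h1 := hiso y hy c hc hgood z z' ((hnear z hz).trans (min_le_left _ _))
        ((hnear z' hz').trans (min_le_left _ _))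
      have h2 := mul_le_mul_of_nonneg_left h1 hδ'
      have e2 : (1 - ω) * (J : ℝ)⁻¹ * (qf G y (z - z') / s ^ 2) =
          δ' * ((1 - ω) * qf G y (z - z')) := by simp only [δ']; field_simp
      linarith
    · have h1 : 0 ≤ δ' * ((ucoord G D c z - ucoord G D c z') ⬝ᵥ
          (ucoord G D c z - ucoord G D c z')) :=
        mul_nonneg hδ' (Finset.sum_nonneg fun i _ => mul_self_nonneg _)
      have h2 : qf G y (z - z') / s ^ 2 ≤ (2 * Rb) ^ 2 := by
        rw [← norm_sq_acoord_sub h hs.ne' y (z - z')]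
        refine pow_le_pow_left₀ (norm_nonneg _) ?_ 2
        have e3 : (WithLp.toLp 2 (s⁻¹ • (frame G y *ᵥ (G y *ᵥ (z - z')))) :
            EuclideanSpace ℝ (Fin n)) = α z - α z' := by
          simp only [α, acoord, ← WithLp.toLp_sub, ← smul_sub, ← mulVec_sub, sub_sub_sub_cancel_right]
        rw [e3]
        exact (norm_sub_le _ _).trans (by linarith [hαb z hz, hαb z' hz'])
      have h3 : (1 - ω) * (J : ℝ)⁻¹ * (qf G y (z - z') / s ^ 2) ≤ 4 * Rb ^ 2 / ((J : ℝ) * r₀) * r₀ := by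
        calc _ ≤ 1 * (J : ℝ)⁻¹ * (2 * Rb) ^ 2 := mul_le_mul
              (mul_le_mul_of_nonneg_right (by linarith) (by positivity)) h2
              (div_nonneg (qf_nonneg h _ _) (sq_nonneg _)) (by positivity)
          _ = _ := by field_simp; ring
      have h4 : 4 * Rb ^ 2 / ((J : ℝ) * r₀) * r₀ ≤ L c :=
        mul_le_mul_of_nonneg_left (by rw [dist_symm h c y]; exact hbad.le) (by positivity)
      linarith
  rw [zero_add, show (J : ℝ) * (J : ℝ)⁻¹ = 1 from mul_inv_cancel₀ hJR.ne'] at hgauss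
  -- error
  have herr : (J : ℝ) * blockErr n b (J : ℝ)⁻¹ Rb ω
      (((1 + 20 * b) * (1 + ω) - 1) * Rb ^ 2 / (2 * J)) = F x := by
    have hJx : (J : ℝ) * x ^ 2 = 1 := by rw [hx2, mul_inv_cancel₀ hJR.ne']
    simp only [blockErr, F, b, hx, ← hx2]
    have e1 : ((1 + 20 * (β * x)) * (1 + ω) - 1) * Rb ^ 2 / (2 * (J : ℝ)) =
        ((1 + 20 * (β * x)) * (1 + ω) - 1) * Rb ^ 2 / 2 * x ^ 2 := by rw [hx2]; ring
    rw [e1, Real.sqrt_sq (show (0:ℝ) ≤ x by positivity)]
    linear_combination (((1 + 20 * (β * x)) * (1 + ω) - 1) * Rb ^ 2 / 2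
      + (n : ℝ) * (5400 * β ^ 3) * x + 200 * Rb ^ 3 * x * I3
      + (n : ℝ) * Rb ^ 2 / 2 * (1 - Real.exp (-(10 * (β * x) * n +
          2 * (x ^ 2 * Rb ^ 2 + 5 * (n : ℝ) * (β * x) ^ 2))) * (1 - ω))) * hJx
  rw [herr] at hgauss
  -- cost
  have hcost : (∑ i ∈ Finset.range J, chanAvg ctr (vstep G D δ') i (fun W => W y * L (ctr W))
      (fun _ => 1)) / 4 = Rb ^ 2 / r₀ * centreCost G D ctr s J y := by
    simp only [centreCost, L, Finset.mul_sum, Finset.sum_div]
    refine Finset.sum_congr rfl fun i _ => ?_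
    rw [show (fun W : (Fin n → ℝ) → ℝ => W y * (4 * Rb ^ 2 / ((J : ℝ) * r₀) * D (ctr W) y)) =
      fun W => 4 * Rb ^ 2 / ((J : ℝ) * r₀) * (W y * D (ctr W) y) from funext fun W => by ring,
      chanAvg_const_mul]
    ring
  rw [hcost] at hgauss
  -- start
  have hstart : gaussValue ν α y 1 (fun _ => 1) = termLower G u s Rb y := by
    refine integral_congr_ae (Eventually.of_forall fun Z => ?_)
    have hsm : 0 < shiftMass G u s Rb y Z := by
      have hc : ContinuousOn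
          (fun z => -(qf G y (z - toFrame (frame G y) s y Z) / (2 * s ^ 2))) B :=
        (((continuous_qf h).comp (continuous_const.prodMk (continuous_id.sub continuous_const))
          ).div_const _).neg.continuousOn
      exact tilt_pos hB hν hc
    simp only [lse, logRatio, Real.log_one, sub_self, zero_add, Real.sqrt_one, one_smul]
    rw [← Real.log_exp (‖Z‖ ^ 2 / 2), ← Real.log_mul (Real.exp_pos _).ne' hsm.ne', shiftMass,
      ← integral_const_mul]
    congr 1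
    refine integral_congr_ae (Eventually.of_forall fun z => ?_)
    simp only
    rw [← Real.exp_add, gaussTilt, mul_comm 2 (s ^ 2), ← div_div, ← norm_acoord_sub_shift h hs.ne',
      norm_sub_sq_real, real_inner_comm Z]
    congr 1
    simp only [α]
    ring
  rw [hstart] at hgauss
  -- end
  have hend : chanAvg ctr (vstep G D δ') J (fun W => W y * gaussValue ν α y 0 W) (fun _ => 1) ≤
      termAt G D u ctr s J y := by
    refine chanAvg_mono (N := K) hctr J fun W hW => ?_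
    obtain ⟨hWp, hWy⟩ := nodes_good (hvc K) (by linarith) hvb hyb J W hW
    refine mul_le_mul_of_nonneg_left ?_ hWy.le
    have hWB : PosOn B W := ⟨hWp.1.mono inter_subset_left, fun z hz => hWp.2 z hz.1⟩
    have e : ∀ Z : EuclideanSpace ℝ (Fin n),
        (lse ν fun z => logRatio y W z + gaussTilt α (√(0:ℝ) • Z) 0 z) =
          Real.log (∫ z, W z ∂ν) - Real.log (W y) := fun Z => by
      simp only [lse, gaussTilt, Real.sqrt_zero, zero_smul, inner_zero_left, zero_mul, zero_div,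
        sub_zero, add_zero, logRatio]
      rw [integral_congr_ae (g := fun z => W z * (W y)⁻¹) (hν.mono fun z hz => by
          simp only
          rw [Real.exp_sub, Real.exp_log (hWB.2 z hz), Real.exp_log hWy, div_eq_mul_inv]),
        integral_mul_const, Real.log_mul (integral_pos_of_posOn hB hν hWB).ne' (inv_ne_zero hWy.ne'),
        Real.log_inv]
      ring
    simp only [gaussValue, e, integral_const, probReal_univ, one_smul]
    refine sub_le_sub_right (Real.log_le_log (integral_pos_of_posOn hB hν hWB) ?_) _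
    exact setIntegral_le_integral (integrable_carrier hK hμK hWp.1)
      (hμK.mono fun z hz => (hWp.2 z hz).le)
  linarith

end Vale.Agent.P219.CH.Sharp
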