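import Vale.Agent.P219.Sharp.Geom
import Vale.Agent.P219.Sharp.Tree
import Vale.Agent.P219.CH.Gauss

/-!
# P219, the sharp constant: the tangential Fisher information of the weights
-/

noncomputable section

open MeasureTheory Set Filter Topology Matrix

namespace Vale.Agent.P219.CH.Sharp

variable {n : ℕ} {G : (Fin n → ℝ) → Matrix (Fin n) (Fin n) ℝ}
  {D : (Fin n → ℝ) → (Fin n → ℝ) → ℝ} {K : Set (Fin n → ℝ)} {u : (Fin n → ℝ) → ℝ}

/-! ## The tangential form -/

/-- The tangential inner product of covectors. -/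
def tanB (G : (Fin n → ℝ) → Matrix (Fin n) (Fin n) ℝ) (y ξ a b : Fin n → ℝ) : ℝ :=
  pairing G y a b - pairing G y ξ a * pairing G y ξ b / pairing G y ξ ξ

lemma tanSq_lin (h : IsCH G D) (y ξ a b : Fin n → ℝ) (α β : ℝ) :
    tanSq G y ξ (α • a + β • b) =
      α ^ 2 * tanSq G y ξ a + 2 * (α * β) * tanB G y ξ a b + β ^ 2 * tanSq G y ξ b := by
  have hr : ∀ p q r : Fin n → ℝ, ∀ s t : ℝ,
      pairing G y p (s • q + t • r) = s * pairing G y p q + t * pairing G y p r := fun p q r s t => by
    rw [h.pairing_comm, pairing_add_left, pairing_smul_left, pairing_smul_left, h.pairing_comm y q,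
      h.pairing_comm y r]
  simp only [tanSq, tanB, hr, pairing_add_left, pairing_smul_left]
  rw [h.pairing_comm y b a]
  ring

lemma tanSq_smul (h : IsCH G D) (y ξ a : Fin n → ℝ) (α : ℝ) :
    tanSq G y ξ (α • a) = α ^ 2 * tanSq G y ξ a := by
  have := tanSq_lin h y ξ a a α 0
  simpa using this

lemma tanSq_nonneg' (h : IsCH G D) (y ξ a : Fin n → ℝ) : 0 ≤ tanSq G y ξ a := by
  rcases eq_or_ne ξ 0 with rfl | hξ
  · simpa [tanSq, pairing] using h.pairing_self_nonneg y a
  · exact tanSq_nonneg h y hξ a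

lemma tanSq_le (h : IsCH G D) (y ξ a : Fin n → ℝ) : tanSq G y ξ a ≤ pairing G y a a := by
  rw [tanSq, sub_le_self_iff]
  exact div_nonneg (sq_nonneg _) (h.pairing_self_nonneg y ξ)

lemma tanB_eq (h : IsCH G D) (y ξ a b : Fin n → ℝ) :
    tanB G y ξ a b = (tanSq G y ξ (a + b) - tanSq G y ξ a - tanSq G y ξ b) / 2 := by
  have := tanSq_lin h y ξ a b 1 1
  simp only [one_smul, one_pow, one_mul, mul_one] at this
  linarith

/-- Half of the quadratic form is nonnegative. -/
lemma neg_tanB_le (h : IsCH G D) (y ξ a b : Fin n → ℝ) {lam w : ℝ} (hlam : 0 < lam) (hw : 0 < w) :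
    -tanB G y ξ a b ≤ lam / 2 * (tanSq G y ξ a / w) + w * tanSq G y ξ b / (2 * lam) := by
  have h1 := tanSq_nonneg' h y ξ (lam • a + w • b)
  rw [tanSq_lin h] at h1
  have e : lam / 2 * (tanSq G y ξ a / w) + w * tanSq G y ξ b / (2 * lam) + tanB G y ξ a b =
      (lam ^ 2 * tanSq G y ξ a + 2 * (lam * w) * tanB G y ξ a b + w ^ 2 * tanSq G y ξ b) /
        (2 * lam * w) := by
    field_simp
    ring
  have h2 : 0 ≤ (lam ^ 2 * tanSq G y ξ a + 2 * (lam * w) * tanB G y ξ a b + w ^ 2 * tanSq G y ξ b) /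
        (2 * lam * w) := by positivity
  linarith

/-! ## Integrability -/

lemma ae_cd_ne_zero (h : IsCH G D) (hu : ContDiff ℝ 1 u) : ∀ᵐ y ∂pm G u, cd u y ≠ 0 := by
  rw [pm, ae_withDensity_iff (continuous_weight h hu).measurable.ennreal_ofReal]
  refine Eventually.of_forall fun y hy h0 => hy ?_
  simp [h0, conorm_zero]

lemma integrable_pm_of_le (h : IsCH G D) (hK : IsCompact K) (hu : Comp K u)
    {f g : (Fin n → ℝ) → ℝ} (hf : Measurable f) (hg : ContinuousOn g K)
    (hle : ∀ y ∈ K, |f y| ≤ g y) : Integrable f (pm G u) :=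
  (integrable_pm_of_continuous h hK hu hg).mono' hf.aestronglyMeasurable
    ((ae_mem_pm h hK hu).mono fun y hy => hle y hy)

lemma continuous_pairing_field (h : IsCH G D) {a b : (Fin n → ℝ) → Fin n → ℝ} (ha : Continuous a)
    (hb : Continuous b) : Continuous fun y => pairing G y (a y) (b y) :=
  h.continuous_pairing.comp (continuous_id.prodMk (ha.prodMk hb))

lemma measurable_tanSq (h : IsCH G D) (hu : ContDiff ℝ 1 u) {a : (Fin n → ℝ) → Fin n → ℝ}
    (ha : Continuous a) : Measurable fun y => tanSq G y (cd u y) (a y) :=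
  (continuous_pairing_field h ha ha).measurable.sub
    (((continuous_pairing_field h (continuous_cd hu) ha).pow 2).measurable.div
      (continuous_pairing_field h (continuous_cd hu) (continuous_cd hu)).measurable)

lemma integrable_mul_tanSq (h : IsCH G D) (hK : IsCompact K) (hu : Comp K u)
    {f : (Fin n → ℝ) → ℝ} (hfm : Measurable f) (hf : ContinuousOn f K)
    {a : (Fin n → ℝ) → Fin n → ℝ} (ha : Continuous a) :
    Integrable (fun y => f y * tanSq G y (cd u y) (a y)) (pm G u) := by
  refine integrable_pm_of_le h hK hu (g := fun y => |f y| * pairing G y (a y) (a y))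
    (hfm.mul (measurable_tanSq h hu.1 ha))
    (hf.abs.mul (continuous_pairing_field h ha ha).continuousOn) fun y _ => ?_
  rw [abs_mul, abs_of_nonneg (tanSq_nonneg' h _ _ _)]
  exact mul_le_mul_of_nonneg_left (tanSq_le h _ _ _) (abs_nonneg _)

lemma integrable_tanB (h : IsCH G D) (hK : IsCompact K) (hu : Comp K u)
    {a b : (Fin n → ℝ) → Fin n → ℝ} (ha : Continuous a) (hb : Continuous b) :
    Integrable (fun y => tanB G y (cd u y) (a y) (b y)) (pm G u) := by
  have hI : ∀ {c : (Fin n → ℝ) → Fin n → ℝ}, Continuous c →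
      Integrable (fun y => tanSq G y (cd u y) (c y)) (pm G u) := fun hc => by
    simpa using integrable_mul_tanSq h hK hu (f := fun _ => (1 : ℝ)) measurable_const
      continuousOn_const hc
  simp only [tanB_eq h]
  exact (((hI (ha.add hb)).sub (hI ha)).sub (hI hb)).div_const 2

/-! ## Fisher information along a block -/

/-- The tangential Fisher information of a weight. -/
def fisher (G : (Fin n → ℝ) → Matrix (Fin n) (Fin n) ℝ) (u W : (Fin n → ℝ) → ℝ) : ℝ :=
  ∫ y, tanSq G y (cd u y) (cd W y) / W y ∂pm G u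

lemma integrable_fisher (h : IsCH G D) (hK : IsCompact K) (hu : Comp K u) {W : (Fin n → ℝ) → ℝ}
    (hW : ContDiff ℝ 1 W) (hWp : PosOn K W) :
    Integrable (fun y => tanSq G y (cd u y) (cd W y) / W y) (pm G u) := by
  refine (integrable_mul_tanSq h hK hu (f := fun y => (W y)⁻¹) hW.continuous.measurable.inv
    (hWp.1.inv₀ fun y hy => (hWp.2 y hy).ne') (continuous_cd hW)).congr
    (Eventually.of_forall fun y => ?_)
  simp only
  rw [div_eq_mul_inv, mul_comm]

/-- The averaged Fisher information of one step. -/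
def fstep (G : (Fin n → ℝ) → Matrix (Fin n) (Fin n) ℝ) (u v : (Fin n → ℝ) → ℝ) (y : Fin n → ℝ) :
    ℝ :=
  tanSq G y (cd u y) (cd v y) / (1 - v y ^ 2)

lemma integrable_mul_fstep (h : IsCH G D) (hK : IsCompact K) (hu : Comp K u)
    {W v : (Fin n → ℝ) → ℝ} (hW : Continuous W) (hv : ContDiff ℝ 1 v) (hb : ∀ y ∈ K, |v y| < 1) :
    Integrable (fun y => W y * fstep G u v y) (pm G u) := by
  refine (integrable_mul_tanSq h hK hu (f := fun y => W y / (1 - v y ^ 2))
    (hW.measurable.div (continuous_const.sub (hv.continuous.pow 2)).measurable)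
    (hW.continuousOn.div (continuous_const.sub (hv.continuous.pow 2)).continuousOn fun y hy => ?_)
    (continuous_cd hv)).congr (Eventually.of_forall fun y => ?_)
  · have := (sq_lt_one_iff_abs_lt_one (v y)).2 (hb y hy)
    simp only [Pi.sub_apply, Pi.pow_apply]
    exact (sub_pos.2 this).ne'
  · simp only [fstep]; ring

lemma integrable_mul_list (h : IsCH G D) (hK : IsCompact K) (hu : Comp K u)
    {W : (Fin n → ℝ) → ℝ} (hW : Continuous W) {v : Fin n → (Fin n → ℝ) → ℝ}
    (hv : ∀ k, ContDiff ℝ 1 (v k)) (hb : ∀ k, ∀ y ∈ K, |v k y| < 1) :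
    ∀ ks : List (Fin n),
      Integrable (fun y => W y * (ks.map fun k => fstep G u (v k) y).sum) (pm G u)
  | [] => by simp
  | k :: ks => by
      simp only [List.map_cons, List.sum_cons, mul_add]
      exact (integrable_mul_fstep h hK hu hW (hv k) (hb k)).add
        (integrable_mul_list h hK hu hW hv hb ks)

lemma cd_mul {f g : (Fin n → ℝ) → ℝ} {y : Fin n → ℝ} (hf : DifferentiableAt ℝ f y)
    (hg : DifferentiableAt ℝ g y) :
    cd (fun z => f z * g z) y = g y • cd f y + f y • cd g y := by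
  funext i
  simp [cd, fderiv_fun_mul hf hg]
  ring

/-- One sign step keeps the Fisher information up to an exact linear term. -/
lemma fisher_step (h : IsCH G D) (hK : IsCompact K) (hu : Comp K u) {W v : (Fin n → ℝ) → ℝ}
    (hW : ContDiff ℝ 1 W) (hWp : PosOn K W) (hv : ContDiff ℝ 1 v) (hb : ∀ y ∈ K, |v y| < 1) :
    stepAvg v (fisher G u) W = fisher G u W + ∫ y, W y * fstep G u v y ∂pm G u := by
  obtain ⟨hp, hm⟩ := hWp.mul_step hv.continuous.continuousOn hb
  have hp1 : ContDiff ℝ 1 fun y => W y * (1 + v y) := hW.mul (contDiff_const.add hv)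
  have hm1 : ContDiff ℝ 1 fun y => W y * (1 - v y) := hW.mul (contDiff_const.sub hv)
  rw [stepAvg, fisher, fisher, fisher,
    ← integral_add (integrable_fisher h hK hu hp1 hp) (integrable_fisher h hK hu hm1 hm),
    ← integral_div, ← integral_add (integrable_fisher h hK hu hW hWp)
      (integrable_mul_fstep h hK hu hW.continuous hv hb)]
  refine integral_congr_ae ((ae_mem_pm h hK hu).mono fun y hy => ?_)
  have hw := hWp.2 y hy
  obtain ⟨b1, b2⟩ := abs_lt.1 (hb y hy)
  have dW := hW.differentiable one_ne_zero y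
  have dv := hv.differentiable one_ne_zero y
  have e1 : cd (fun z => W z * (1 + v z)) y = (1 + v y) • cd W y + W y • cd v y := by
    rw [cd_mul (g := fun z => 1 + v z) dW (dv.const_add 1)]
    congr 2
    funext i
    simp [cd, fderiv_const_add]
  have e2 : cd (fun z => W z * (1 - v z)) y = (1 - v y) • cd W y + (-W y) • cd v y := by
    rw [cd_mul (g := fun z => 1 - v z) dW (dv.const_sub 1)]
    congr 1
    funext i
    simp [cd, fderiv_const_sub]
  simp only [e1, e2, tanSq_lin h, fstep, Pi.add_apply, Pi.mul_apply]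
  have n1 : (1 + v y) ≠ 0 := by linarith
  have n2 : (1 - v y) ≠ 0 := by linarith
  have n3 : (1 - v y ^ 2) ≠ 0 := by
    rw [show 1 - v y ^ 2 = (1 + v y) * (1 - v y) by ring]; exact mul_ne_zero n1 n2
  field_simp
  ring

/-- The Fisher information of a block. -/
lemma fisher_block (h : IsCH G D) (hK : IsCompact K) (hu : Comp K u)
    {v : Fin n → (Fin n → ℝ) → ℝ} (hv : ∀ k, ContDiff ℝ 1 (v k))
    (hb : ∀ k, ∀ y ∈ K, |v k y| < 1) : ∀ (ks : List (Fin n)) (W : (Fin n → ℝ) → ℝ),
    ContDiff ℝ 1 W → PosOn K W →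
      blockAvg v ks (fisher G u) W =
        fisher G u W + ∫ y, W y * (ks.map fun k => fstep G u (v k) y).sum ∂pm G u
  | [], W, _, _ => by simp [blockAvg]
  | k :: ks, W, hW, hWp => by
      obtain ⟨hp, hm⟩ := hWp.mul_step (hv k).continuous.continuousOn (hb k)
      have hp1 : ContDiff ℝ 1 fun y => W y * (1 + v k y) := hW.mul (contDiff_const.add (hv k))
      have hm1 : ContDiff ℝ 1 fun y => W y * (1 - v k y) := hW.mul (contDiff_const.sub (hv k))
      have hs := fisher_step h hK hu hW hWp (hv k) (hb k)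
      simp only [stepAvg] at hs
      have ip := integrable_mul_list h hK hu hp1.continuous hv hb ks
      have im := integrable_mul_list h hK hu hm1.continuous hv hb ks
      have i1 := integrable_mul_fstep h hK hu hW.continuous (hv k) (hb k)
      have i2 := integrable_mul_list h hK hu hW.continuous hv hb ks
      simp only [blockAvg, stepAvg, fisher_block h hK hu hv hb ks _ hp1 hp,
        fisher_block h hK hu hv hb ks _ hm1 hm, List.map_cons, List.sum_cons]
      simp only [mul_add (W _) (fstep _ _ _ _)]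
      rw [integral_add i1 i2]
      have e : (∫ y, W y * (1 + v k y) * (ks.map fun k => fstep G u (v k) y).sum ∂pm G u) +
          ∫ y, W y * (1 - v k y) * (ks.map fun k => fstep G u (v k) y).sum ∂pm G u =
          2 * ∫ y, W y * (ks.map fun k => fstep G u (v k) y).sum ∂pm G u := by
        rw [← integral_add ip im, ← integral_const_mul]
        exact integral_congr_ae (Eventually.of_forall fun y => by ring)
      linarith

lemma cd_vstep (h : IsCH G D) (δ : ℝ) (c : Fin n → ℝ) (k : Fin n) (y : Fin n → ℝ) :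
    cd (vstep G D δ c k) y = √δ • cd (fun z => ucoord G D c z k) y := by
  funext i
  have := ((contDiff_ucoord h c k).differentiable one_ne_zero y).hasFDerivAt.const_mul √δ
  simp only [cd, Pi.smul_apply]
  rw [show fderiv ℝ (vstep G D δ c k) y = _ from this.fderiv]
  simp

/-- A block of coordinate steps adds at most `δ (n - 1)` times the mass. -/
lemma fisher_block_le (h : IsCH G D) (hK : IsCompact K) (hu : Comp K u) {δ b : ℝ} (hδ : 0 ≤ δ)
    {c : Fin n → ℝ} (hb : b < 1) (hb0 : 0 ≤ b) (hvb : ∀ k, ∀ y ∈ K, |vstep G D δ c k y| ≤ b)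
    {W : (Fin n → ℝ) → ℝ} (hW : ContDiff ℝ 1 W) (hWp : PosOn K W) :
    blockAvg (vstep G D δ c) (List.finRange n) (fisher G u) W ≤
      fisher G u W + δ * ((n : ℝ) - 1) / (1 - b ^ 2) * ∫ y, W y ∂pm G u := by
  have hlt : ∀ k, ∀ y ∈ K, |vstep G D δ c k y| < 1 := fun k y hy => (hvb k y hy).trans_lt hb
  rw [fisher_block h hK hu (contDiff_vstep h δ c) hlt _ _ hW hWp, ← integral_const_mul]
  refine add_le_add le_rfl (integral_mono_ae
    (integrable_mul_list h hK hu hW.continuous (contDiff_vstep h δ c) hlt _)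
    ((integrable_pm_of_continuous h hK hu hWp.1).const_mul _) ?_)
  filter_upwards [ae_mem_pm h hK hu, ae_cd_ne_zero h hu.1] with y hy hy0
  rw [mul_comm _ (W y)]
  refine mul_le_mul_of_nonneg_left ?_ (hWp.2 y hy).le
  rw [← List.ofFn_eq_map, List.sum_ofFn]
  have hb2 : 0 < 1 - b ^ 2 := sub_pos.2 ((sq_lt_one_iff₀ hb0).2 hb)
  calc ∑ k, fstep G u (vstep G D δ c k) y
      ≤ ∑ k, δ * tanSq G y (cd u y) (cd (fun z => ucoord G D c z k) y) / (1 - b ^ 2) :=
        Finset.sum_le_sum fun k _ => by
          rw [fstep, cd_vstep h, tanSq_smul h, Real.sq_sqrt hδ]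
          refine div_le_div_of_nonneg_left (mul_nonneg hδ (tanSq_nonneg' h _ _ _)) hb2 ?_
          have := pow_le_pow_left₀ (abs_nonneg _) (hvb k y hy) 2
          rw [sq_abs] at this
          linarith
    _ = δ * (∑ k, tanSq G y (cd u y) (cd (fun z => ucoord G D c z k) y)) / (1 - b ^ 2) := by
        rw [Finset.mul_sum, Finset.sum_div]
    _ ≤ δ * ((n : ℝ) - 1) / (1 - b ^ 2) :=
        div_le_div_of_nonneg_right (mul_le_mul_of_nonneg_left (sum_tanSq_ucoord_le h c y hy0) hδ)
          hb2.le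

end Vale.Agent.P219.CH.Sharp
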