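import Vale.Agent.P219.Sharp.Var
import Vale.Agent.P219.Sharp.GainFisher
import Vale.Agent.P219.CH.Main

/-!
# P219, the sharp constant: near minimality at one node
-/

noncomputable section

open MeasureTheory Set Filter Topology Matrix

namespace Vale.Agent.P219.CH.Sharp

variable {n : ℕ} {G : (Fin n → ℝ) → Matrix (Fin n) (Fin n) ℝ}
  {D : (Fin n → ℝ) → (Fin n → ℝ) → ℝ} {K : Set (Fin n → ℝ)} {u : (Fin n → ℝ) → ℝ}

/-- The variation density against the measure `|du| dvol`. -/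
lemma varW_mul_dens (h : IsCH G D) (c : Fin n → ℝ) (W : (Fin n → ℝ) → ℝ) (y ξ : Fin n → ℝ) :
    varW G D c W y ξ * dens G y =
      (((n : ℝ) - 1) * W y + tanB G y ξ (cd W y) (cd (D c) y)) * (conorm G y ξ * dens G y) := by
  rw [varW, tanB, ← h.conorm_sq y ξ]
  rcases eq_or_ne (conorm G y ξ) 0 with h0 | h0
  · simp [h0]
  · field_simp
    ring

lemma abs_normalPart_eq (h : IsCH G D) (c : Fin n → ℝ) (W : (Fin n → ℝ) → ℝ) (y : Fin n → ℝ) :
    |normalPart G D c u y| * W y * dens G y =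
      W y * (|normalPart G D c u y| / conorm G y (cd u y)) * (conorm G y (cd u y) * dens G y) := by
  rcases eq_or_ne (conorm G y (cd u y)) 0 with h0 | h0
  · have : |normalPart G D c u y| = 0 := le_antisymm
      ((h.abs_normalPart_le c u y).trans_eq (by rw [h0, zero_mul])) (abs_nonneg _)
    simp [h0, this]
  · field_simp

lemma normal_ratio_le (h : IsCH G D) (c y : Fin n → ℝ) :
    |normalPart G D c u y| / conorm G y (cd u y) ≤ √(2 * D c y) := by
  rcases eq_or_lt_of_le (conorm_nonneg (G := G) y (cd u y)) with h0 | h0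
  · rw [← h0, div_zero]; exact Real.sqrt_nonneg _
  · rw [div_le_iff₀ h0]; linarith [h.abs_normalPart_le c u y]

lemma sq_normal_ratio (h : IsCH G D) (c y : Fin n → ℝ) :
    (|normalPart G D c u y| / conorm G y (cd u y)) ^ 2 + tanSq G y (cd u y) (cd (D c) y) =
      2 * D c y := by
  rw [div_pow, sq_abs, h.conorm_sq, normalPart, tanSq, h.eikonal]
  ring

lemma integrable_normal_ratio (h : IsCH G D) (hK : IsCompact K) (hu : Comp K u) (c : Fin n → ℝ)
    {W : (Fin n → ℝ) → ℝ} (hW : Continuous W) :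
    Integrable (fun y => W y * (|normalPart G D c u y| / conorm G y (cd u y))) (pm G u) := by
  refine integrable_pm_of_le h hK hu (g := fun y => |W y| * √(2 * D c y))
    (hW.measurable.mul ((continuous_pairing_field h (continuous_cd hu.1)
      (continuous_cd_dist h c)).abs.measurable.div (h.continuous_conorm_cd hu.1).measurable))
    (hW.abs.mul (continuous_const.mul (h.continuous_D_left c)).sqrt).continuousOn fun y _ => ?_
  rw [abs_mul, abs_of_nonneg (a := |normalPart G D c u y| / conorm G y (cd u y))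
    (div_nonneg (abs_nonneg _) (conorm_nonneg y _))]
  exact mul_le_mul_of_nonneg_left (normal_ratio_le h c y) (abs_nonneg _)

/-- The weighted arithmetic geometric mean inequality at one point. -/
lemma node_pointwise (h : IsCH G D) (c y : Fin n → ℝ) {W : (Fin n → ℝ) → ℝ} (hw : 0 < W y)
    {lam : ℝ} (hlam : 0 < lam) (hh : ℝ) :
    hh * (W y * (|normalPart G D c u y| / conorm G y (cd u y))) -
        tanB G y (cd u y) (cd W y) (cd (D c) y) ≤
      lam / 2 * hh ^ 2 * W y + lam / 2 * (tanSq G y (cd u y) (cd W y) / W y) + W y * D y c / lam := by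
  set a := |normalPart G D c u y| / conorm G y (cd u y)
  have h1 := neg_tanB_le h y (cd u y) (cd W y) (cd (D c) y) hlam hw
  have h2 : hh * (W y * a) ≤ lam / 2 * hh ^ 2 * W y + W y * a ^ 2 / (2 * lam) := by
    have e : lam / 2 * hh ^ 2 * W y + W y * a ^ 2 / (2 * lam) - hh * (W y * a) =
        W y * (lam * hh - a) ^ 2 / (2 * lam) := by
      field_simp; ring
    have : 0 ≤ W y * (lam * hh - a) ^ 2 / (2 * lam) := by positivity
    linarith
  have h3 : W y * D y c / lam =
      W y * a ^ 2 / (2 * lam) + W y * tanSq G y (cd u y) (cd (D c) y) / (2 * lam) := by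
    rw [← add_div, ← mul_add, sq_normal_ratio h, dist_symm h y c]
    field_simp
  linarith

/-- Near minimality against one competitor, with the numbers only. -/
lemma stationary_scalar {P P' P₀ V V' g g' F Φ l α M C δ t e d hh hmax : ℝ} (hd0 : 0 ≤ d)
    (hdV : d < V) (hd : d = t * F + t * e * P) (hvol : V - t * F - t * e * P ≤ V') (hα0 : 0 ≤ α)
    (hα1 : α ≤ 1) (hl : 0 ≤ l) (hM : 0 ≤ M) (hC : 0 ≤ C) (ht : 0 < t) (he : 0 ≤ e) (hP : 0 ≤ P)
    (hP₀ : P ≤ P₀) (hb : l * α * (V - d) ^ (α - 1) ≤ hh) (hh0 : 0 ≤ hh) (hhmax : hh ≤ hmax)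
    (hg : g ≤ δ) (hper : P' ≤ P - t * Φ + t * e * P) (hgap : g' ≤ (1 + C * t) * g)
    (hopt : P - l * V ^ α + M * g ≤ P' - l * V' ^ α + M * g' + δ) :
    Φ - hh * F ≤ e * P₀ * (1 + hmax) + M * C * δ + δ / t := by
  have h1 := concave_step (V' := V') (α := α) hd0 hdV (by rw [hd]; linarith) hα0 hα1
  have h3 : l * V ^ α - l * V' ^ α ≤ hh * d :=
    calc l * V ^ α - l * V' ^ α = l * (V ^ α - V' ^ α) := by ring
      _ ≤ l * (α * (V - d) ^ (α - 1) * d) := mul_le_mul_of_nonneg_left (by linarith) hl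
      _ = l * α * (V - d) ^ (α - 1) * d := by ring
      _ ≤ hh * d := mul_le_mul_of_nonneg_right hb hd0
  have h4 : M * g' ≤ M * g + M * C * t * δ :=
    calc M * g' ≤ M * ((1 + C * t) * g) := mul_le_mul_of_nonneg_left hgap hM
      _ = M * g + M * C * t * g := by ring
      _ ≤ M * g + M * C * t * δ :=
        add_le_add le_rfl (mul_le_mul_of_nonneg_left hg (by positivity))
  have h6 : hh * (t * e * P) ≤ hmax * (t * e * P₀) :=
    mul_le_mul hhmax (mul_le_mul_of_nonneg_left hP₀ (by positivity)) (by positivity)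
      (hh0.trans hhmax)
  have h6' : t * e * P ≤ t * e * P₀ := mul_le_mul_of_nonneg_left hP₀ (by positivity)
  refine le_of_mul_le_mul_left ?_ ht
  have e1 : t * (e * P₀ * (1 + hmax) + M * C * δ + δ / t) =
      t * e * P₀ + hmax * (t * e * P₀) + M * C * t * δ + δ := by
    field_simp
  rw [e1]
  rw [hd] at h3
  linarith

/-- The inequality at one node for all almost minimisers. -/
theorem node_ineq (hn : 2 ≤ n) (h : IsCH G D) (o : Fin n → ℝ) {R P₀ v₀ l M θ κ α : ℝ} (hR : 0 < R)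
    (hP₀ : 0 ≤ P₀) (hv₀ : 0 < v₀) (hl : 0 < l) (hM : 0 ≤ M) (hθ : 1 < θ) (hκ : 0 < κ)
    (hα : α = ((n : ℝ) - 1) / n) {c : Fin n → ℝ} (hc : D o c ≤ R) {W : (Fin n → ℝ) → ℝ}
    (hW : ContDiff ℝ 1 W) (hWp : ∀ y, D o y ≤ R + 1 → 0 < W y) :
    ∀ᶠ δ in 𝓝[>] (0 : ℝ), ∀ u, NearMin G D o R P₀ v₀ l M δ u → ∀ lam : ℝ, 0 < lam →
      ((n : ℝ) - 1) * ∫ y, W y ∂pm G u ≤
        lam / 2 * ((l * α * θ * vol G u ^ (α - 1)) ^ 2 * ∫ y, W y ∂pm G u + fisher G u W)
          + (∫ y, W y * D y c ∂pm G u) / lam + κ := by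
  set K : Set (Fin n → ℝ) := {y | D o y ≤ R}
  have hK : IsCompact K := h.proper o R
  have hn2 : (2 : ℝ) ≤ n := by exact_mod_cast hn
  have hα0 : 0 < α := by rw [hα]; exact div_pos (by linarith) (by linarith)
  have hα1 : α ≤ 1 := by rw [hα, div_le_one (by linarith)]; linarith
  have hθ0 : 0 < θ := by linarith
  have hWK : ∀ y ∈ K, 0 < W y := fun y hy => hWp y (by have : D o y ≤ R := hy; linarith)
  obtain ⟨hmax, hhmax⟩ : ∃ z : ℝ, z = l * α * θ * v₀ ^ (α - 1) := ⟨_, rfl⟩
  have hmax0 : 0 < hmax := by rw [hhmax]; positivity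
  obtain ⟨e, he⟩ : ∃ z : ℝ, z = κ / (2 * (P₀ * (1 + hmax) + 1)) := ⟨_, rfl⟩
  have he0 : 0 < e := by rw [he]; positivity
  obtain ⟨τ, C, hτ, hC, hvar⟩ := weightVarPin n hn G D h o R c W e hR hc hW hWp he0
  obtain ⟨Bw, hBw0, hBw⟩ : ∃ B : ℝ, 0 ≤ B ∧ ∀ y ∈ K, W y * √(2 * D c y) ≤ B := by
    obtain ⟨B, hB⟩ := hK.bddAbove_image (f := fun y => W y * √(2 * D c y))
      (hW.continuous.mul (continuous_const.mul (h.continuous_D_left c)).sqrt).continuousOn
    exact ⟨max B 0, le_max_right _ _, fun y hy => (hB ⟨y, hy, rfl⟩).trans (le_max_left _ _)⟩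
  obtain ⟨Fm, hFm⟩ : ∃ z : ℝ, z = Bw * P₀ + e * P₀ + 1 := ⟨_, rfl⟩
  have hFm0 : 0 < Fm := by rw [hFm]; positivity
  obtain ⟨r, hr⟩ : ∃ z : ℝ, z = θ ^ (-(n : ℝ)) := ⟨_, rfl⟩
  have hr0 : 0 < r := by rw [hr]; positivity
  have hr1 : r < 1 := hr ▸ Real.rpow_lt_one_of_one_lt_of_neg hθ (by linarith)
  obtain ⟨t, ht⟩ : ∃ z : ℝ, z = min τ ((1 - r) * v₀ / Fm) := ⟨_, rfl⟩
  have ht0 : 0 < t := ht ▸ lt_min hτ (div_pos (mul_pos (by linarith) hv₀) hFm0)
  have htF : t * Fm ≤ (1 - r) * v₀ := (le_div_iff₀ hFm0).1 (ht ▸ min_le_right _ _)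
  filter_upwards [Ioc_mem_nhdsGT (show (0 : ℝ) < κ / (2 * (M * C + 1 / t + 1)) by positivity)]
    with δ hδ u hmin lam hlam
  obtain ⟨hu, hPu, hVu, hgu, hopt⟩ := hmin
  rw [← hα] at hopt
  obtain ⟨u', hu', hper, hvol, hgap⟩ := hvar t u ht0 (ht ▸ min_le_left _ _) hu
  have hKae := ae_mem_pm h hK hu
  have iW := integrable_pm_of_continuous h hK hu hW.continuous.continuousOn
  have iA := integrable_normal_ratio h hK hu c hW.continuous
  have iB : Integrable (fun y => tanB G y (cd u y) (cd W y) (cd (D c) y)) (pm G u) :=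
    integrable_tanB h hK hu (continuous_cd hW) (continuous_cd_dist h c)
  have iT := integrable_fisher h hK hu hW ⟨hW.continuous.continuousOn, hWK⟩
  have iD : Integrable (fun y => W y * D y c) (pm G u) :=
    integrable_pm_of_continuous h hK hu (hW.continuous.mul
      (h.continuous_D.comp (continuous_id.prodMk continuous_const))).continuousOn
  have eV : (∫ y, varW G D c W y (cd u y) * dens G y) =
      ((n : ℝ) - 1) * (∫ y, W y ∂pm G u) + ∫ y, tanB G y (cd u y) (cd W y) (cd (D c) y) ∂pm G u := by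
    rw [← integral_const_mul, ← integral_add (iW.const_mul _) iB, integral_pm h hu.1]
    exact integral_congr_ae (Eventually.of_forall fun y => varW_mul_dens h c W y (cd u y))
  obtain ⟨F, hF⟩ : ∃ z : ℝ,
      z = ∫ y, W y * (|normalPart G D c u y| / conorm G y (cd u y)) ∂pm G u := ⟨_, rfl⟩
  have eF : (∫ y, |normalPart G D c u y| * W y * dens G y) = F := by
    rw [hF, integral_pm h hu.1]
    exact integral_congr_ae (Eventually.of_forall fun y => abs_normalPart_eq h c W y)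
  have hF0 : 0 ≤ F := hF ▸ integral_nonneg_of_ae (hKae.mono fun y hy =>
    mul_nonneg (hWK y hy).le (div_nonneg (abs_nonneg _) (conorm_nonneg y _)))
  have hFle : F ≤ Bw * P₀ := by
    have := isFiniteMeasure_pm h hK hu
    have h1 : F ≤ ∫ _, Bw ∂pm G u := hF ▸ integral_mono_ae iA (integrable_const Bw)
      (hKae.mono fun y hy =>
        (mul_le_mul_of_nonneg_left (normal_ratio_le h c y) (hWK y hy).le).trans (hBw y hy))
    rw [integral_const, smul_eq_mul, Measure.real, pm_univ h hK hu] at h1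
    exact h1.trans (by rw [mul_comm]; exact mul_le_mul_of_nonneg_left hPu hBw0)
  rw [eV] at hper
  rw [eF] at hvol
  have hP := h.per_nonneg u
  obtain ⟨V, hV⟩ : ∃ z : ℝ, z = vol G u := ⟨_, rfl⟩
  rw [← hV] at hVu hvol hopt ⊢
  have hV0 : 0 < V := hv₀.trans_le hVu
  obtain ⟨d, hd⟩ : ∃ z : ℝ, z = t * F + t * e * per G u := ⟨_, rfl⟩
  have hd0 : 0 ≤ d := by rw [hd]; positivity
  have hdle : d ≤ (1 - r) * V := by
    have h1 : d ≤ t * Fm := by
      rw [hd, hFm]
      have h2 := mul_le_mul_of_nonneg_left hFle ht0.le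
      have h3 := mul_le_mul_of_nonneg_left hPu (mul_nonneg ht0.le he0.le)
      linarith
    exact h1.trans (htF.trans (mul_le_mul_of_nonneg_left hVu (by linarith)))
  have hrV : 0 < r * V := mul_pos hr0 hV0
  have hdV : r * V ≤ V - d := by linarith
  obtain ⟨hh, hhh⟩ : ∃ z : ℝ, z = l * α * θ * V ^ (α - 1) := ⟨_, rfl⟩
  have hh0 : 0 < hh := by rw [hhh]; positivity
  have hhmax' : hh ≤ hmax := by
    rw [hhh, hhmax]
    exact mul_le_mul_of_nonneg_left (Real.rpow_le_rpow_of_nonpos hv₀ hVu (by linarith))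
      (by positivity)
  rw [← hhh]
  have hb' : l * α * (V - d) ^ (α - 1) ≤ hh := by
    have h1 : (V - d) ^ (α - 1) ≤ (r * V) ^ (α - 1) :=
      Real.rpow_le_rpow_of_nonpos hrV hdV (by linarith)
    rw [Real.mul_rpow hr0.le hV0.le, hr, ← Real.rpow_mul hθ0.le,
      show -(n : ℝ) * (α - 1) = 1 by rw [hα]; field_simp; ring, Real.rpow_one] at h1
    calc l * α * (V - d) ^ (α - 1) ≤ l * α * (θ * V ^ (α - 1)) :=
          mul_le_mul_of_nonneg_left h1 (by positivity)
      _ = hh := by rw [hhh]; ring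
  have h7 := stationary_scalar hd0 (show d < V by linarith) hd hvol hα0.le hα1 hl.le hM hC ht0 he0.le
    hP hPu hb' hh0.le hhmax' hgu hper hgap (hopt u' hu')
  have herr : e * P₀ * (1 + hmax) + M * C * δ + δ / t ≤ κ :=
    error_le hκ hP₀ hmax0 (mul_nonneg hM hC) ht0 hδ.1 he hδ.2
  have h8 : hh * F - (∫ y, tanB G y (cd u y) (cd W y) (cd (D c) y) ∂pm G u) ≤
      lam / 2 * hh ^ 2 * (∫ y, W y ∂pm G u) + lam / 2 * fisher G u W
        + (∫ y, W y * D y c ∂pm G u) / lam := by
    have i12 : Integrable (fun y => lam / 2 * hh ^ 2 * W y +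
        lam / 2 * (tanSq G y (cd u y) (cd W y) / W y)) (pm G u) :=
      (iW.const_mul _).add (iT.const_mul _)
    rw [hF, fisher, ← integral_const_mul, ← integral_const_mul, ← integral_const_mul, ← integral_div,
      ← integral_sub (iA.const_mul _) iB, ← integral_add (iW.const_mul _) (iT.const_mul _),
      ← integral_add i12 (iD.div_const _)]
    exact integral_mono_ae ((iA.const_mul _).sub iB) (i12.add (iD.div_const _))
      (hKae.mono fun y hy => node_pointwise h c y (hWK y hy) hlam hh)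
  linarith

end Vale.Agent.P219.CH.Sharp
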