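import Vale.Agent.P219.Sharp.GainPin
import Vale.Agent.P219.Sharp.GainNode

/-!
# P219, the sharp constant: the entropy gain along the channel, proof
-/

noncomputable section

open MeasureTheory Set Filter Topology Matrix

namespace Vale.Agent.P219.CH.Sharp

variable {n : ℕ} {G : (Fin n → ℝ) → Matrix (Fin n) (Fin n) ℝ}
  {D : (Fin n → ℝ) → (Fin n → ℝ) → ℝ} {K N : Set (Fin n → ℝ)} {u : (Fin n → ℝ) → ℝ}
  {ctr : ((Fin n → ℝ) → ℝ) → (Fin n → ℝ)}

lemma blockAvg_const {X : Type*} (v : Fin n → X → ℝ) (a : ℝ) : ∀ (ks : List (Fin n)) (W : X → ℝ),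
    blockAvg v ks (fun _ => a) W = a
  | [], _ => rfl
  | k :: ks, W => by simp only [blockAvg, stepAvg, blockAvg_const v a ks]; ring

lemma chanAvg_const {X Y : Type*} (ctr : (X → ℝ) → Y) (vv : Y → Fin n → X → ℝ) (a : ℝ) :
    ∀ (j : ℕ) (W : X → ℝ), chanAvg ctr vv j (fun _ => a) W = a
  | 0, _ => rfl
  | j + 1, W => by
      simp only [chanAvg]
      rw [funext (chanAvg_const ctr vv a j), blockAvg_const]

/-- A Riemann sum of `1 / (A + x)` dominates the logarithm. -/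
lemma log_le_sum {A d k : ℝ} (hA : 0 < A) (hd : 0 ≤ d) (hk : 0 < k) (hk1 : k ≤ 1) (J : ℕ) :
    k * Real.log (1 + J * d / A) ≤ ∑ j ∈ Finset.range J, d / (A + j * d / k) := by
  have key : k * (Real.log (A + J * d / k) - Real.log A) ≤
      ∑ j ∈ Finset.range J, d / (A + j * d / k) := by
    induction J with
    | zero => simp
    | succ J ih =>
      rw [Finset.sum_range_succ]
      have h0 : 0 < A + J * d / k := by positivity
      have h1 : (0 : ℝ) < A + (J + 1 : ℕ) * d / k := by positivity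
      have h2 := Real.log_le_sub_one_of_pos (div_pos h1 h0)
      rw [Real.log_div h1.ne' h0.ne'] at h2
      have h3 := mul_le_mul_of_nonneg_left h2 hk.le
      have e : k * ((A + (J + 1 : ℕ) * d / k) / (A + J * d / k) - 1) = d / (A + J * d / k) := by
        rw [Nat.cast_add, Nat.cast_one]
        field_simp
        ring
      linarith
  refine le_trans (mul_le_mul_of_nonneg_left ?_ hk.le) key
  rw [← Real.log_div (by positivity) hA.ne']
  refine Real.log_le_log (by positivity) ?_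
  rw [add_div, div_self hA.ne']
  refine add_le_add le_rfl (div_le_div_of_nonneg_right ?_ hA.le)
  exact le_div_self (by positivity) hk hk1

/-- The mean squared distance of a weight to its centre. -/
def centreInt (G : (Fin n → ℝ) → Matrix (Fin n) (Fin n) ℝ) (D : (Fin n → ℝ) → (Fin n → ℝ) → ℝ)
    (ctr : ((Fin n → ℝ) → ℝ) → (Fin n → ℝ)) (u W : (Fin n → ℝ) → ℝ) : ℝ :=
  ∫ y, W y * D y (ctr W) ∂pm G u

/-- Weights of class `C1`, positive on a set. -/
def GoodW (K : Set (Fin n → ℝ)) (W : (Fin n → ℝ) → ℝ) : Prop :=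
  ContDiff ℝ 1 W ∧ PosOn K W

lemma gain_nodes_good (h : IsCH G D) {δ b : ℝ} (hb : b < 1)
    (hvb : ∀ c ∈ N, ∀ k, ∀ y ∈ K, |vstep G D δ c k y| ≤ b) :
    ∀ j, ∀ W ∈ nodes N (vstep G D δ) j, GoodW K W :=
  nodes_induction ⟨contDiff_const, continuousOn_const, fun _ _ => one_pos⟩ fun c hc k W hW => by
    obtain ⟨hp, hm⟩ := hW.2.mul_step (contDiff_vstep h δ c k).continuous.continuousOn
      fun y hy => (hvb c hc k y hy).trans_lt hb
    exact ⟨⟨hW.1.mul (contDiff_const.add (contDiff_vstep h δ c k)), hp⟩,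
      ⟨hW.1.mul (contDiff_const.sub (contDiff_vstep h δ c k)), hm⟩⟩

lemma chanAvg_mass (h : IsCH G D) (hK : IsCompact K) (hu : Comp K u) (hN : ∀ W, ctr W ∈ N) {δ : ℝ}
    {j : ℕ} (hgood : ∀ W ∈ nodes N (vstep G D δ) j, GoodW K W) :
    chanAvg ctr (vstep G D δ) j (fun W => ∫ y, W y ∂pm G u) (fun _ => 1) = per G u := by
  have := isFiniteMeasure_pm h hK hu
  have e := chanAvg_integral_mul hK (ae_mem_pm h hK hu) hN (vv := vstep G D δ) (j := j)
    (fun W hW => (hgood W hW).2) (f := fun _ => (1 : ℝ)) continuousOn_const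
  simp only [mul_one] at e
  rw [e, integral_const, smul_eq_mul, mul_one, Measure.real, pm_univ h hK hu]

/-- The average Fisher information after `j` blocks. -/
lemma chanAvg_fisher_le (h : IsCH G D) (hK : IsCompact K) (hu : Comp K u) (hN : ∀ W, ctr W ∈ N)
    {δ b : ℝ} (hδ : 0 ≤ δ) (hb : b < 1) (hb0 : 0 ≤ b)
    (hvb : ∀ c ∈ N, ∀ k, ∀ y ∈ K, |vstep G D δ c k y| ≤ b) (j : ℕ) :
    chanAvg ctr (vstep G D δ) j (fisher G u) (fun _ => 1) ≤
      j * (δ * ((n : ℝ) - 1) / (1 - b ^ 2) * per G u) := by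
  induction j with
  | zero =>
    have e : fisher G u (fun _ => (1 : ℝ)) = 0 := by
      have : cd (fun _ : Fin n → ℝ => (1 : ℝ)) = fun _ => 0 := by funext y i; simp [cd]
      simp [fisher, this, tanSq, pairing]
    simp [chanAvg, e]
  | succ j ih =>
    rw [chanAvg_succ]
    have hgood := gain_nodes_good h hb hvb j
    refine (chanAvg_mono hN j (F' := fun W => fisher G u W +
      δ * ((n : ℝ) - 1) / (1 - b ^ 2) * ∫ y, W y ∂pm G u) fun W hW => ?_).trans ?_
    · exact fisher_block_le h hK hu hδ hb hb0 (hvb (ctr W) (hN W)) (hgood W hW).1 (hgood W hW).2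
    · rw [chanAvg_add, chanAvg_const_mul, chanAvg_mass h hK hu hN hgood]
      push_cast
      linarith

/-- The average entropy after `j` blocks. -/
lemma chanAvg_ent_le (h : IsCH G D) (hK : IsCompact K) (hu : Comp K u) (hP : 0 < per G u)
    (hN : ∀ W, ctr W ∈ N) {δ b κ : ℝ} (hδ : 0 ≤ δ) (hb : b < 1 / 2) (hb0 : 0 ≤ b)
    (hvb : ∀ c ∈ N, ∀ k, ∀ y ∈ K, |vstep G D δ c k y| ≤ b) (hρ : (1 + b) ^ n - 1 ≤ 1 / 2)
    (hctr : ∀ W, GoodW K W → ∀ k,
      |∫ y, W y * ucoord G D (ctr W) y k ∂pm G u| ≤ κ * ∫ y, W y ∂pm G u) (j : ℕ) :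
    chanAvg ctr (vstep G D δ) j (ent (pm G u)) (fun _ => 1) +
        (1 - 2 * b) * δ * ∑ i ∈ Finset.range j,
          chanAvg ctr (vstep G D δ) i (centreInt G D ctr u) (fun _ => 1) ≤
      per G u * Real.log (per G u) +
        j * (n * (2 * (√δ * κ + ((1 + b) ^ n - 1) * b) ^ 2) * per G u) := by
  have := isFiniteMeasure_pm h hK hu
  have : NeZero (pm G u) := ⟨fun h0 => by
    have := pm_univ h hK hu; rw [h0] at this; simp at this; linarith⟩
  induction j with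
  | zero =>
    simp [chanAvg, ent, integral_const, smul_eq_mul, Measure.real, pm_univ h hK hu]
  | succ j ih =>
    rw [chanAvg_succ, Finset.sum_range_succ]
    have hgood := gain_nodes_good h (show b < 1 by linarith) hvb j
    have key : ∀ W ∈ nodes N (vstep G D δ) j,
        blockAvg (vstep G D δ (ctr W)) (List.finRange n) (ent (pm G u)) W +
          (1 - 2 * b) * δ * centreInt G D ctr u W ≤
        ent (pm G u) W + n * (2 * (√δ * κ + ((1 + b) ^ n - 1) * b) ^ 2) * ∫ y, W y ∂pm G u := by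
      intro W hW
      have h1 := ent_block hK (ae_mem_pm h hK hu)
        (fun k => (contDiff_vstep h δ (ctr W) k).continuous.continuousOn) hb0 hb (hvb _ (hN W))
        (hgood W hW).2 (a := √δ * κ) (fun k => ?_) hρ (List.finRange n) (by simp)
      · simp only [sum_vstep_sq h hδ, List.length_finRange] at h1
        have e : ∫ y, W y * (δ * (2 * D y (ctr W))) ∂pm G u = 2 * δ * centreInt G D ctr u W := by
          rw [centreInt, ← integral_const_mul]
          exact integral_congr_ae (Eventually.of_forall fun y => by ring)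
        rw [e] at h1
        linarith
      · have e : ∫ y, W y * vstep G D δ (ctr W) k y ∂pm G u =
            √δ * ∫ y, W y * ucoord G D (ctr W) y k ∂pm G u := by
          rw [← integral_const_mul]
          exact integral_congr_ae (Eventually.of_forall fun y => by simp only [vstep]; ring)
        rw [e, abs_mul, abs_of_nonneg (Real.sqrt_nonneg δ), mul_assoc]
        exact mul_le_mul_of_nonneg_left (hctr W (hgood W hW) k) (Real.sqrt_nonneg δ)
    have h2 := chanAvg_mono hN j key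
    rw [chanAvg_add, chanAvg_const_mul, chanAvg_add, chanAvg_const_mul,
      chanAvg_mass h hK hu hN hgood] at h2
    push_cast
    linarith

/-- The centre cost is the mean of the distances to the centres. -/
lemma integral_centreCost (h : IsCH G D) (hK : IsCompact K) (hu : Comp K u) (hN : ∀ W, ctr W ∈ N)
    {s b : ℝ} {J : ℕ} (hb : b < 1)
    (hvb : ∀ c ∈ N, ∀ k, ∀ y ∈ K, |vstep G D (1 / (s ^ 2 * J)) c k y| ≤ b) :
    ∫ y, centreCost G D ctr s J y ∂pm G u = (J : ℝ)⁻¹ * ∑ i ∈ Finset.range J,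
      chanAvg ctr (vstep G D (1 / (s ^ 2 * J))) i (centreInt G D ctr u) (fun _ => 1) := by
  have := isFiniteMeasure_pm h hK hu
  have hae := ae_mem_pm h hK hu
  have key : ∀ i, chanAvg ctr (vstep G D (1 / (s ^ 2 * J))) i (centreInt G D ctr u) (fun _ => 1) =
      ∫ y, chanAvg ctr (vstep G D (1 / (s ^ 2 * J))) i (fun W => W y * D (ctr W) y) (fun _ => 1)
        ∂pm G u ∧
      ContinuousOn (fun y => chanAvg ctr (vstep G D (1 / (s ^ 2 * J))) i
        (fun W => W y * D (ctr W) y) (fun _ => 1)) K := fun i => by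
    have h1 := integral_chanAvg hK hae hN (vv := vstep G D (1 / (s ^ 2 * J))) i
      (g := fun W y => W y * D (ctr W) y) fun W hW =>
        ((gain_nodes_good h hb hvb i W hW).2.1.mul (h.continuous_D_left _).continuousOn)
    refine ⟨?_, h1.2⟩
    rw [← h1.1]
    refine chanAvg_congr hN fun W _ => integral_congr_ae (Eventually.of_forall fun y => ?_)
    simp only [dist_symm h y]
  simp only [centreCost]
  rw [integral_const_mul, integral_finsetSum _ fun i _ => integrable_carrier hK hae (key i).2]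
  exact congrArg _ (Finset.sum_congr rfl fun i _ => (key i).1.symm)

/-- The lower bound of the mean centre distance after averaging the node inequality. -/
lemma centre_lower (h : IsCH G D) (hK : IsCompact K) (hu : Comp K u) (hN : ∀ W, ctr W ∈ N)
    {δ b A m κ : ℝ} (hm : m = (n : ℝ) - 1) (hm0 : 0 < m) (hA : 0 < A) (hδ : 0 ≤ δ) (hb : b < 1)
    (hb0 : 0 ≤ b) (hvb : ∀ c ∈ N, ∀ k, ∀ y ∈ K, |vstep G D δ c k y| ≤ b) (hκ : 0 ≤ κ) (j : ℕ)
    (hnode : ∀ W ∈ nodes N (vstep G D δ) j, ∀ lam : ℝ, 0 < lam →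
      m * ∫ y, W y ∂pm G u ≤ lam / 2 * (A * ∫ y, W y ∂pm G u + fisher G u W) +
        (∫ y, W y * D y (ctr W) ∂pm G u) / lam + κ) :
    m / 2 * per G u * (δ * m / (A + j * (δ * m) / (1 - b ^ 2))) - δ * (m / A) * κ ≤
      δ * chanAvg ctr (vstep G D δ) j (centreInt G D ctr u) (fun _ => 1) := by
  have hb2 : 0 < 1 - b ^ 2 := sub_pos.2 ((sq_lt_one_iff₀ hb0).2 hb)
  obtain ⟨den, hden⟩ : ∃ z : ℝ, z = A + j * (δ * m) / (1 - b ^ 2) := ⟨_, rfl⟩
  have hden0 : A ≤ den := by rw [hden]; exact le_add_of_nonneg_right (by positivity)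
  have hdenpos : 0 < den := hA.trans_le hden0
  obtain ⟨lam, hlam⟩ : ∃ z : ℝ, z = m / den := ⟨_, rfl⟩
  have hlam0 : 0 < lam := by rw [hlam]; positivity
  have hgood := gain_nodes_good h hb hvb j
  have h1 := chanAvg_mono hN j (F := fun W => m * ∫ y, W y ∂pm G u)
    (F' := fun W => lam / 2 * (A * (∫ y, W y ∂pm G u) + fisher G u W) +
      lam⁻¹ * centreInt G D ctr u W + κ) fun W hW => by
      simp only [centreInt, ← div_eq_inv_mul]; exact hnode W hW lam hlam0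
  rw [chanAvg_add, chanAvg_add, chanAvg_const_mul, chanAvg_const_mul, chanAvg_const_mul, chanAvg_add,
    chanAvg_const_mul, chanAvg_const, chanAvg_mass h hK hu hN hgood] at h1
  set S := chanAvg ctr (vstep G D δ) j (centreInt G D ctr u) (fun _ => 1)
  have h2 := chanAvg_fisher_le h hK hu hN hδ hb hb0 hvb j
  rw [← hm] at h2
  have h3 : A * per G u + chanAvg ctr (vstep G D δ) j (fisher G u) (fun _ => 1) ≤ den * per G u := by
    have e : j * (δ * m / (1 - b ^ 2) * per G u) = j * (δ * m) / (1 - b ^ 2) * per G u := by ring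
    rw [e] at h2
    rw [hden, add_mul]
    linarith
  have h4 := mul_le_mul_of_nonneg_left h3 (by linarith : 0 ≤ lam / 2)
  have e : lam / 2 * (den * per G u) = m / 2 * per G u := by rw [hlam]; field_simp
  rw [e] at h4
  have h5 : lam * (m / 2 * per G u) - lam * κ ≤ S := by
    have := mul_le_mul_of_nonneg_left (show m / 2 * per G u - κ ≤ lam⁻¹ * S by linarith) hlam0.le
    rw [mul_sub, mul_inv_cancel_left₀ hlam0.ne'] at this
    exact this
  have h6 : lam * κ ≤ m / A * κ :=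
    mul_le_mul_of_nonneg_right (hlam ▸ div_le_div_of_nonneg_left hm0.le hA hden0) hκ
  have h7 := mul_le_mul_of_nonneg_left (show lam * (m / 2 * per G u) - m / A * κ ≤ S by linarith) hδ
  have e2 : m / 2 * per G u * (δ * m / den) = δ * (lam * (m / 2 * per G u)) := by rw [hlam]; ring
  rw [← hden, e2]
  linarith

/-- The budget of the first line. -/
lemma gain_budget {m P P₀ L Lmax b E₀ S plogp r₁ κ₃ e : ℝ} (hm : 0 ≤ m) (hP : 0 ≤ P) (hP₀ : P ≤ P₀)
    (hL0 : 0 ≤ L) (hL : L ≤ Lmax) (hb0 : 0 ≤ b) (hb : b ≤ 1 / 4) (hκ₃ : 0 ≤ κ₃)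
    (hE : E₀ + (1 - 2 * b) * S ≤ plogp + r₁) (hr : r₁ ≤ e / 2)
    (hS : m / 2 * P * ((1 - b ^ 2) * L) - κ₃ ≤ S) (hκe : κ₃ ≤ e / 4)
    (hbe : 3 * b * (m / 2 * P₀ * Lmax) ≤ e / 4) :
    m / 2 * P * L + E₀ ≤ plogp + e := by
  have h1 := mul_le_mul_of_nonneg_left hS (show (0 : ℝ) ≤ 1 - 2 * b by linarith)
  have hX : 0 ≤ m / 2 * P * L := by positivity
  have h2 : (1 - 3 * b) * (m / 2 * P * L) ≤
      (1 - 2 * b) * (1 - b ^ 2) * (m / 2 * P * L) := by
    refine mul_le_mul_of_nonneg_right ?_ hX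
    nlinarith [mul_nonneg hb0 (show (0 : ℝ) ≤ 1 - b by linarith), pow_nonneg hb0 3]
  have h3 : 3 * b * (m / 2 * P * L) ≤ e / 4 := by
    refine le_trans (mul_le_mul_of_nonneg_left ?_ (by linarith)) hbe
    exact mul_le_mul (mul_le_mul_of_nonneg_left hP₀ (by linarith)) hL hL0
      (mul_nonneg (by linarith) (hP.trans hP₀))
  have h4 : (1 - 2 * b) * κ₃ ≤ κ₃ := mul_le_of_le_one_left hκ₃ (by linarith)
  linarith

/-- At almost minimisers the channel lowers the entropy as much as on a round sphere. -/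
theorem gainPin (n : ℕ) : GainPin n := by
  intro hn G D h o R P₀ v₀ l M θ s e hR hP₀ hv₀ hl hM hθ hs he
  have hn2 : (2 : ℝ) ≤ n := by exact_mod_cast hn
  obtain ⟨m, hm⟩ : ∃ m : ℝ, m = (n : ℝ) - 1 := ⟨_, rfl⟩
  have hm0 : 0 < m := by linarith
  obtain ⟨α, hα⟩ : ∃ α : ℝ, α = ((n : ℝ) - 1) / n := ⟨_, rfl⟩
  have hα0 : 0 < α := by rw [hα]; exact div_pos (by linarith) (by linarith)
  have hα1 : α ≤ 1 := by rw [hα, div_le_one (by linarith)]; linarith
  have hθ0 : 0 < θ := by linarith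
  set K : Set (Fin n → ℝ) := {y | D o y ≤ R}
  set K₁ : Set (Fin n → ℝ) := {y | D o y ≤ R + 1}
  have hK : IsCompact K := h.proper o R
  have hK₁ : IsCompact K₁ := h.proper o (R + 1)
  have hKK₁ : K ⊆ K₁ := fun y (hy : D o y ≤ R) => show D o y ≤ R + 1 by linarith
  obtain ⟨B, hB0, hB⟩ : ∃ B : ℝ, 0 ≤ B ∧ ∀ y ∈ K₁, ∀ c ∈ K₁, D y c ≤ B := by
    obtain ⟨B, hB⟩ := (hK₁.prod hK₁).bddAbove_image (h.continuous_D.continuousOn (s := K₁ ×ˢ K₁))
    exact ⟨max B 0, le_max_right _ _,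
      fun y hy c hc => (hB ⟨(y, c), ⟨hy, hc⟩, rfl⟩).trans (le_max_left _ _)⟩
  obtain ⟨VK, hVK⟩ : ∃ z : ℝ, z = max (volG G K) v₀ := ⟨_, rfl⟩
  obtain ⟨hmin', hhmin⟩ : ∃ z : ℝ, z = l * α * θ * VK ^ (α - 1) := ⟨_, rfl⟩
  have hVK0 : 0 < VK := hVK ▸ lt_max_of_lt_right hv₀
  have hmin0 : 0 < hmin' := by rw [hhmin]; positivity
  obtain ⟨κ₃, hκ₃⟩ : ∃ z : ℝ, z = e / 4 * (s ^ 2 * hmin' ^ 2 / m) := ⟨_, rfl⟩
  have hκ₃0 : 0 < κ₃ := by rw [hκ₃]; positivity
  obtain ⟨κ, hκ⟩ : ∃ z : ℝ, z = √(s ^ 2 * e / (16 * n * (P₀ + 1))) := ⟨_, rfl⟩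
  have hκ0 : 0 < κ := by rw [hκ]; positivity
  obtain ⟨Lmax, hLmax⟩ : ∃ z : ℝ, z = Real.log (1 + m / (s ^ 2 * hmin' ^ 2)) := ⟨_, rfl⟩
  set bJ : ℕ → ℝ := fun J => √(1 / (s ^ 2 * J)) * √(2 * B)
  have hbt : Tendsto bJ atTop (𝓝 0) := by
    have h1 : Tendsto (fun J : ℕ => √(1 / (s ^ 2 * J))) atTop (𝓝 0) := by
      have h0 : Tendsto (fun J : ℕ => 1 / (s ^ 2 * J)) atTop (𝓝 0) :=
        (tendsto_const_div_atTop_nhds_zero_nat (1 / s ^ 2)).congr fun J => by rw [div_div]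
      have := h0.sqrt
      rwa [Real.sqrt_zero] at this
    simpa [bJ] using h1.mul_const √(2 * B)
  have hρt : Tendsto (fun J => (1 + bJ J) ^ n - 1) atTop (𝓝 0) := by
    simpa using ((hbt.const_add 1).pow n).sub_const 1
  obtain ⟨J₀, hJ₀⟩ := eventually_atTop.1 ((eventually_ge_atTop 1).and
    ((hbt.eventually (Iic_mem_nhds (by norm_num : (0 : ℝ) < 1 / 4))).and
    ((hρt.eventually (Iic_mem_nhds (by norm_num : (0 : ℝ) < 1 / 2))).and
    (((((hρt.pow 2).const_mul (4 * n * P₀ * (2 * B / s ^ 2))).eventually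
        (Iic_mem_nhds (show 4 * n * P₀ * (2 * B / s ^ 2) * (0 : ℝ) ^ 2 < e / 4 by
          simp only [zero_pow two_ne_zero, mul_zero]; positivity)))).and
      ((((hbt.const_mul 3).mul_const (m / 2 * P₀ * Lmax)).eventually
        (Iic_mem_nhds (show (3 : ℝ) * 0 * (m / 2 * P₀ * Lmax) < e / 4 by
          simp only [mul_zero, zero_mul]; positivity))))))))
  refine ⟨κ, hκ0, J₀, fun J hJ N hNf hNR => ?_⟩
  obtain ⟨hJ1, hb4, hρ, hρe, hbe⟩ := hJ₀ J hJ
  have hJpos : (0 : ℝ) < J := by exact_mod_cast hJ1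
  obtain ⟨δ, hδ⟩ : ∃ z : ℝ, z = 1 / (s ^ 2 * J) := ⟨_, rfl⟩
  have hδ0 : 0 ≤ δ := by rw [hδ]; positivity
  obtain ⟨b, hb⟩ : ∃ z : ℝ, z = √δ * √(2 * B) := ⟨_, rfl⟩
  have hbJ : bJ J = b := by simp only [bJ, hb, hδ]
  simp only [hbJ, mem_Iic] at hb4 hρ hρe hbe
  have hb0 : 0 ≤ b := by rw [hb]; positivity
  have hvb : ∀ c ∈ N, ∀ k, ∀ y ∈ K₁, |vstep G D δ c k y| ≤ b := fun c hc k y hy =>
    hb ▸ abs_vstep_le h hδ0 (hB y hy c (hKK₁ (hNR c hc))) k
  have hvbK : ∀ c ∈ N, ∀ k, ∀ y ∈ K, |vstep G D δ c k y| ≤ b :=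
    fun c hc k y hy => hvb c hc k y (hKK₁ hy)
  have hgood₁ := gain_nodes_good h (show b < 1 by linarith) hvb
  have hfin : ((⋃ j ∈ Finset.range J, nodes N (vstep G D δ) j) ×ˢ N).Finite :=
    (Set.Finite.biUnion (Finset.range J).finite_toSet fun j _ => nodes_finite hNf j).prod hNf
  have hev : ∀ᶠ d in 𝓝[>] (0 : ℝ), ∀ p ∈ (⋃ j ∈ Finset.range J, nodes N (vstep G D δ) j) ×ˢ N,
      ∀ u, NearMin G D o R P₀ v₀ l M d u → ∀ lam : ℝ, 0 < lam →
      ((n : ℝ) - 1) * ∫ y, p.1 y ∂pm G u ≤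
        lam / 2 * ((l * α * θ * vol G u ^ (α - 1)) ^ 2 * ∫ y, p.1 y ∂pm G u + fisher G u p.1)
          + (∫ y, p.1 y * D y p.2 ∂pm G u) / lam + κ₃ := by
    refine hfin.eventually_all.2 fun p hp => ?_
    obtain ⟨hW, hc⟩ := hp
    simp only [mem_iUnion] at hW
    obtain ⟨j, -, hW⟩ := hW
    exact node_ineq hn h o hR hP₀ hv₀ hl hM hθ hκ₃0 hα (hNR _ hc) (hgood₁ j _ hW).1
      (hgood₁ j _ hW).2.2
  obtain ⟨δ₀, hnode, hδ₀⟩ := (hev.and (self_mem_nhdsWithin : Ioi (0 : ℝ) ∈ 𝓝[>] (0 : ℝ))).exists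
  refine ⟨δ₀, hδ₀, fun u hu hP ctr hN hctr => ?_⟩
  obtain ⟨huc, hPu, hVu, -, -⟩ := id hu
  rw [← hδ, ← hα, ← hm]
  obtain ⟨A, hA⟩ : ∃ z : ℝ, z = (l * α * θ * vol G u ^ (α - 1)) ^ 2 := ⟨_, rfl⟩
  have hV0 : 0 < vol G u := hv₀.trans_le hVu
  have hAmin : hmin' ^ 2 ≤ A := by
    rw [hA]
    refine pow_le_pow_left₀ hmin0.le ?_ 2
    rw [hhmin]
    exact mul_le_mul_of_nonneg_left (Real.rpow_le_rpow_of_nonpos hV0
      ((h.vol_le hK huc).trans (hVK ▸ le_max_left _ _)) (by linarith)) (by positivity)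
  have hA0 : 0 < A := lt_of_lt_of_le (by positivity) hAmin
  rw [← hA]
  have hS : ∀ i, 0 ≤ chanAvg ctr (vstep G D δ) i (centreInt G D ctr u) (fun _ => 1) := fun i =>
    (chanAvg_const ctr (vstep G D δ) 0 i fun _ => 1).symm.trans_le (chanAvg_mono hN i fun W hW =>
      integral_nonneg_of_ae ((ae_mem_pm h hK huc).mono fun y hy => mul_nonneg
        ((hgood₁ i W hW).2.2 y (hKK₁ hy)).le (h.dist_nonneg _ _)))
  have hent := chanAvg_ent_le h hK huc hP hN hδ0 (by linarith) hb0 hvbK hρ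
    (fun W hW k => hctr W hW.2.1 hW.2.2 k) J
  have hJδ : (J : ℝ) * δ = 1 / s ^ 2 := by rw [hδ]; field_simp
  have hr₁ : (J : ℝ) * (n * (2 * (√δ * κ + ((1 + b) ^ n - 1) * b) ^ 2) * per G u) ≤ e / 2 := by
    have h1 : (√δ * κ + ((1 + b) ^ n - 1) * b) ^ 2 ≤
        2 * (δ * κ ^ 2) + 2 * (((1 + b) ^ n - 1) ^ 2 * b ^ 2) :=
      add_sq_le.trans (le_of_eq (by rw [mul_pow, mul_pow, Real.sq_sqrt hδ0]; ring))
    calc (J : ℝ) * (n * (2 * (√δ * κ + ((1 + b) ^ n - 1) * b) ^ 2) * per G u)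
        ≤ J * (n * (2 * (2 * (δ * κ ^ 2) + 2 * (((1 + b) ^ n - 1) ^ 2 * b ^ 2))) * P₀) := by
          gcongr
      _ = 4 * n * P₀ * (J * δ * κ ^ 2) +
          4 * n * P₀ * (J * δ * (2 * B)) * ((1 + b) ^ n - 1) ^ 2 := by
          have : b ^ 2 = δ * (2 * B) := by
            rw [hb, mul_pow, Real.sq_sqrt hδ0, Real.sq_sqrt (by positivity)]
          rw [this]; ring
      _ ≤ e / 4 + e / 4 := by
          refine add_le_add ?_ ?_
          · rw [hJδ, hκ, Real.sq_sqrt (by positivity)]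
            have : 4 * n * P₀ * (1 / s ^ 2 * (s ^ 2 * e / (16 * n * (P₀ + 1)))) =
                e / 4 * (P₀ / (P₀ + 1)) := by
              field_simp; ring
            rw [this]
            exact mul_le_of_le_one_right (by positivity) ((div_le_one (by positivity)).2 (by linarith))
          · rw [hJδ, show 1 / s ^ 2 * (2 * B) = 2 * B / s ^ 2 by ring]
            exact hρe
      _ = _ := by ring
  have hlow : m / 2 * per G u * ((1 - b ^ 2) * Real.log (1 + m / (s ^ 2 * A))) - e / 4 ≤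
      δ * ∑ i ∈ Finset.range J,
        chanAvg ctr (vstep G D δ) i (centreInt G D ctr u) (fun _ => 1) := by
    rw [Finset.mul_sum]
    refine le_trans ?_ (Finset.sum_le_sum fun i hi => centre_lower h hK huc hN hm hm0 hA0 hδ0
      (show b < 1 by linarith) hb0 hvbK hκ₃0.le i fun W hW lam hlam => by
        rw [hA, hm]
        exact hnode (W, ctr W) ⟨Set.mem_biUnion hi hW, hN W⟩ u hu lam hlam)
    rw [Finset.sum_sub_distrib, Finset.sum_const, Finset.card_range, nsmul_eq_mul, ← Finset.mul_sum]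
    refine sub_le_sub (mul_le_mul_of_nonneg_left ?_ (by positivity)) ?_
    · have e1 : 1 + m / (s ^ 2 * A) = 1 + J * (δ * m) / A := by
        rw [← mul_assoc, hJδ]; ring
      rw [e1]
      exact log_le_sum hA0 (by positivity)
        (sub_pos.2 ((sq_lt_one_iff₀ hb0).2 (by linarith))) (by linarith [sq_nonneg b]) J
    · calc (J : ℝ) * (δ * (m / A) * κ₃) = J * δ * (m / A) * κ₃ := by ring
        _ ≤ 1 / s ^ 2 * (m / hmin' ^ 2) * κ₃ := by
            rw [hJδ]; gcongr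
        _ = e / 4 := by rw [hκ₃]; field_simp
  have hL0 : 0 ≤ Real.log (1 + m / (s ^ 2 * A)) :=
    Real.log_nonneg (le_add_of_nonneg_right (by positivity))
  have hLle : Real.log (1 + m / (s ^ 2 * A)) ≤ Lmax := by
    rw [hLmax]
    refine Real.log_le_log (by positivity) (add_le_add le_rfl ?_)
    gcongr
  rw [mul_assoc] at hent
  refine ⟨gain_budget hm0.le hP.le hPu hL0 hLle hb0 hb4 (by positivity) hent hr₁ hlow le_rfl hbe, ?_⟩
  rw [integral_centreCost h hK huc hN (show b < 1 by linarith) (hδ ▸ hvbK), ← hδ]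
  set Ss := ∑ i ∈ Finset.range J, chanAvg ctr (vstep G D δ) i (centreInt G D ctr u) (fun _ => 1)
  have hSs : 0 ≤ δ * Ss := mul_nonneg hδ0 (Finset.sum_nonneg fun i _ => hS i)
  have e2 : (J : ℝ)⁻¹ * Ss / (2 * s ^ 2) = δ * Ss / 2 := by rw [hδ]; field_simp
  have h9 := mul_le_mul_of_nonneg_right (show (1 : ℝ) / 2 ≤ 1 - 2 * b by linarith) hSs
  rw [e2]
  linarith

end Vale.Agent.P219.CH.Sharp
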