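import Vale.Agent.P219.Sharp.Defs
import Vale.Agent.P219.CH.Gauss

/-!
# P219, the sharp constant: the measure `|du| dvol`, frames and the logarithm coordinates
-/

noncomputable section

open MeasureTheory ProbabilityTheory Set Filter Topology Matrix
open scoped ENNReal

namespace Vale.Agent.P219.CH.Sharp

variable {n : ℕ} {G : (Fin n → ℝ) → Matrix (Fin n) (Fin n) ℝ}
  {D : (Fin n → ℝ) → (Fin n → ℝ) → ℝ} {K : Set (Fin n → ℝ)} {u : (Fin n → ℝ) → ℝ}

/-! ## The measure -/

lemma weight_nonneg (h : IsCH G D) (u : (Fin n → ℝ) → ℝ) (y : Fin n → ℝ) :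
    0 ≤ conorm G y (cd u y) * dens G y :=
  mul_nonneg (CH.conorm_nonneg y _) (h.dens_pos y).le

lemma continuous_weight (h : IsCH G D) (hu : ContDiff ℝ 1 u) :
    Continuous fun y => conorm G y (cd u y) * dens G y :=
  (h.continuous_conorm_cd hu).mul h.continuous_dens

lemma integral_pm (h : IsCH G D) (hu : ContDiff ℝ 1 u) (f : (Fin n → ℝ) → ℝ) :
    ∫ y, f y ∂pm G u = ∫ y, f y * (conorm G y (cd u y) * dens G y) := by
  rw [pm, integral_withDensity_eq_integral_toReal_smul
    ((continuous_weight h hu).measurable.ennreal_ofReal)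
    (Eventually.of_forall fun _ => ENNReal.ofReal_lt_top)]
  refine integral_congr_ae (Eventually.of_forall fun y => ?_)
  simp only
  rw [ENNReal.toReal_ofReal (weight_nonneg h u y), smul_eq_mul, mul_comm]

lemma isFiniteMeasure_pm (h : IsCH G D) (hK : IsCompact K) (hu : Comp K u) :
    IsFiniteMeasure (pm G u) :=
  isFiniteMeasure_withDensity_ofReal (integrable_per h hK hu).2

lemma pm_univ (h : IsCH G D) (hK : IsCompact K) (hu : Comp K u) :
    (pm G u univ).toReal = per G u := by
  have := isFiniteMeasure_pm h hK hu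
  have e := integral_pm h hu.1 fun _ => (1 : ℝ)
  simpa [per, Measure.real] using e

lemma ae_mem_pm (h : IsCH G D) (hK : IsCompact K) (hu : Comp K u) : ∀ᵐ y ∂pm G u, y ∈ K := by
  rw [pm, ae_withDensity_iff (continuous_weight h hu.1).measurable.ennreal_ofReal]
  refine Eventually.of_forall fun y hy => ?_
  by_contra hn
  exact hy (by simp [CH.cd_eq_zero hu hn, conorm, pairing])

lemma integrable_pm_of_continuous (h : IsCH G D) (hK : IsCompact K) (hu : Comp K u)
    {f : (Fin n → ℝ) → ℝ} (hf : ContinuousOn f K) : Integrable f (pm G u) := by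
  have := isFiniteMeasure_pm h hK hu
  have h1 : IntegrableOn f K (pm G u) := hf.integrableOn_compact hK
  rwa [IntegrableOn, Measure.restrict_eq_self_of_ae_mem (ae_mem_pm h hK hu)] at h1

/-! ## Frames -/

lemma frame_spec (h : IsCH G D) (x : Fin n → ℝ) :
    (frame G x).transpose = frame G x ∧ frame G x * G x * frame G x = 1 ∧
      frame G x * frame G x = (G x)⁻¹ ∧ |(frame G x).det| = (dens G x)⁻¹ :=
  Classical.epsilon_spec (exists_frame h x)

lemma frame_dot (h : IsCH G D) (x ξ η : Fin n → ℝ) :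
    (frame G x *ᵥ ξ) ⬝ᵥ (frame G x *ᵥ η) = pairing G x ξ η := by
  obtain ⟨h1, -, h3, -⟩ := frame_spec h x
  rw [pairing, ← h3, ← mulVec_mulVec, dotProduct_mulVec ξ (frame G x), ← mulVec_transpose, h1]

/-! ## Logarithm coordinates -/

lemma dist_symm (h : IsCH G D) (x y : Fin n → ℝ) : D x y = D y x := by
  have key : ∀ a b, D a b ≤ D b a := fun a b => by
    have h0 : cd (D b) b = 0 := by
      by_contra hne
      have := h.pairing_self_pos b hne
      rw [h.eikonal, h.dist_self] at this
      linarith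
    have h4 := h.cosine b a b
    rw [h.dist_self, h0] at h4
    simpa [pairing] using h4
  exact le_antisymm (key x y) (key y x)

lemma ucoord_dot (h : IsCH G D) (c y : Fin n → ℝ) :
    ucoord G D c y ⬝ᵥ ucoord G D c y = 2 * D y c := by
  rw [ucoord, frame_dot h, h.eikonal]

/-- The coordinates at any base point shorten distances. -/
lemma ucoord_contraction (h : IsCH G D) (c y z : Fin n → ℝ) :
    (ucoord G D c y - ucoord G D c z) ⬝ᵥ (ucoord G D c y - ucoord G D c z) ≤ 2 * D y z := by
  have hc := h.cosine y z c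
  rw [sub_dotProduct, dotProduct_sub, dotProduct_sub, dotProduct_comm (ucoord G D c z) (ucoord G D c y),
    ucoord_dot h, ucoord_dot h, ucoord, ucoord, frame_dot h]
  linarith [dist_symm h y z]

lemma sqrt_dot_triangle (a b : Fin n → ℝ) :
    √(a ⬝ᵥ a) ≤ √(b ⬝ᵥ b) + √((a - b) ⬝ᵥ (a - b)) := by
  have e : ∀ v : Fin n → ℝ, √(v ⬝ᵥ v) = ‖(WithLp.toLp 2 v : EuclideanSpace ℝ (Fin n))‖ := fun v => by
    rw [EuclideanSpace.norm_eq]
    simp [dotProduct, sq]
  simp only [e, WithLp.toLp_sub]
  exact norm_le_norm_add_norm_sub' _ _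

/-- The triangle inequality. -/
lemma dist_triangle (h : IsCH G D) (x y z : Fin n → ℝ) :
    √(2 * D x z) ≤ √(2 * D x y) + √(2 * D y z) := by
  calc √(2 * D x z) = √(ucoord G D z x ⬝ᵥ ucoord G D z x) := by rw [ucoord_dot h]
    _ ≤ √(ucoord G D z y ⬝ᵥ ucoord G D z y)
        + √((ucoord G D z x - ucoord G D z y) ⬝ᵥ (ucoord G D z x - ucoord G D z y)) :=
        sqrt_dot_triangle _ _
    _ ≤ √(2 * D y z) + √(2 * D x y) := by
        rw [ucoord_dot h]
        exact add_le_add le_rfl (Real.sqrt_le_sqrt (ucoord_contraction h z x y))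
    _ = _ := add_comm _ _

end Vale.Agent.P219.CH.Sharp
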