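import Vale.Agent.P219.Gauss.Rotation

/-!
# P219, lower pin: the localised rotation inequality and Gaussian moments
-/

noncomputable section

open MeasureTheory ProbabilityTheory Set Filter
open scoped ENNReal NNReal Real RealInnerProductSpace

namespace Vale.Agent.P219.Gauss

section Local

variable {E : Type*} [NormedAddCommGroup E] [InnerProductSpace ℝ E] [FiniteDimensional ℝ E]
  [MeasurableSpace E] [BorelSpace E]

/-- The rotation inequality for pairs in a ball only sees the gradient in the ball. -/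
theorem lintegral_sub_le_local {f : E → ℝ} (hf : ContDiff ℝ 1 f) (ρ : ℝ) :
    ∫⁻ p in {p : E × E | ‖p.1‖ + ‖p.2‖ ≤ ρ}, ‖f p.2 - f p.1‖ₑ
        ∂(stdGaussian E).prod (stdGaussian E)
      ≤ ENNReal.ofReal (√(π / 2)) *
        ∫⁻ x in {x : E | ‖x‖ ≤ ρ}, ‖fderiv ℝ f x‖ₑ ∂stdGaussian E := by
  set γ := stdGaussian E
  set B := {x : E | ‖x‖ ≤ ρ}
  set S := {p : E × E | ‖p.1‖ + ‖p.2‖ ≤ ρ}
  have hB : MeasurableSet B := measurableSet_le measurable_norm measurable_const
  have hS : MeasurableSet S :=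
    measurableSet_le (by fun_prop : Measurable fun p : E × E => ‖p.1‖ + ‖p.2‖) measurable_const
  have hd : Continuous (fderiv ℝ f) := hf.continuous_fderiv one_ne_zero
  have hG : Continuous fun p : E × E => fderiv ℝ f p.1 p.2 :=
    (hd.comp continuous_fst).clm_apply continuous_snd
  set G : E × E → ℝ≥0∞ := fun p => B.indicator (fun _ => ‖fderiv ℝ f p.1 p.2‖ₑ) p.1
  have hGm : Measurable G := by
    have e : G = (Prod.fst ⁻¹' B).indicator fun p => ‖fderiv ℝ f p.1 p.2‖ₑ := by
      funext p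
      simp only [G, indicator, mem_preimage]
    rw [e]
    exact hG.enorm.measurable.indicator (hB.preimage measurable_fst)
  set rot : ℝ → E × E → E × E := fun θ p =>
    (Real.cos θ • p.1 + Real.sin θ • p.2, -Real.sin θ • p.1 + Real.cos θ • p.2)
  have hrc : Continuous fun q : ℝ × (E × E) => rot q.1 q.2 := by fun_prop
  have key : ∀ p ∈ S, ‖f p.2 - f p.1‖ₑ ≤ ∫⁻ θ in Ioc (0 : ℝ) (π / 2), G (rot θ p) := by
    intro p hp
    set h : ℝ → ℝ := fun θ => f (rot θ p).1
    have hh : ∀ θ, HasDerivAt h (fderiv ℝ f (rot θ p).1 (rot θ p).2) θ := fun θ =>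
      ((hf.differentiable one_ne_zero _).hasFDerivAt).comp_hasDerivAt θ
        (((Real.hasDerivAt_cos θ).smul_const p.1).add ((Real.hasDerivAt_sin θ).smul_const p.2))
    have hc : Continuous fun θ => fderiv ℝ f (rot θ p).1 (rot θ p).2 :=
      hG.comp (hrc.comp (Continuous.prodMk continuous_id continuous_const))
    have e : f p.2 - f p.1 = ∫ θ in Ioc (0 : ℝ) (π / 2), fderiv ℝ f (rot θ p).1 (rot θ p).2 := by
      rw [← intervalIntegral.integral_of_le (by positivity : (0 : ℝ) ≤ π / 2),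
        intervalIntegral.integral_eq_sub_of_hasDerivAt (fun θ _ => hh θ)
          (hc.intervalIntegrable _ _)]
      simp [h, rot]
    rw [e]
    refine (enorm_integral_le_lintegral_enorm _).trans (lintegral_mono fun θ => ?_)
    have hin : (rot θ p).1 ∈ B := by
      show ‖Real.cos θ • p.1 + Real.sin θ • p.2‖ ≤ ρ
      refine (norm_add_le _ _).trans (le_trans ?_ hp)
      rw [norm_smul, norm_smul, Real.norm_eq_abs, Real.norm_eq_abs]
      exact add_le_add (mul_le_of_le_one_left (norm_nonneg _) (Real.abs_cos_le_one θ))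
        (mul_le_of_le_one_left (norm_nonneg _) (Real.abs_sin_le_one θ))
    simp only [G, indicator_of_mem hin]
    exact le_rfl
  have hrot : ∀ θ, ∫⁻ p, G (rot θ p) ∂γ.prod γ = ∫⁻ p, G p ∂γ.prod γ := fun θ => by
    have h := IsGaussian.map_rotation_eq_self_of_forall_strongDual_eq_zero (μ := γ)
      integral_strongDual_stdGaussian θ
    conv_rhs => rw [← h]
    rw [lintegral_map hGm (ContinuousLinearMap.continuous _).measurable]
    simp only [rot, ContinuousLinearMap.rotation_apply]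
  calc ∫⁻ p in S, ‖f p.2 - f p.1‖ₑ ∂γ.prod γ
      ≤ ∫⁻ p in S, ∫⁻ θ in Ioc (0 : ℝ) (π / 2), G (rot θ p) ∂volume ∂γ.prod γ :=
        setLIntegral_mono' hS key
    _ ≤ ∫⁻ p, ∫⁻ θ in Ioc (0 : ℝ) (π / 2), G (rot θ p) ∂volume ∂γ.prod γ :=
        setLIntegral_le_lintegral _ _
    _ = ∫⁻ θ in Ioc (0 : ℝ) (π / 2), ∫⁻ p, G (rot θ p) ∂γ.prod γ := by
        refine lintegral_lintegral_swap (Measurable.aemeasurable ?_)
        exact hGm.comp (hrc.comp (continuous_snd.prodMk continuous_fst)).measurable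
    _ = ENNReal.ofReal (π / 2) * ∫⁻ p, G p ∂γ.prod γ := by
        simp only [hrot, setLIntegral_const, Real.volume_Ioc, sub_zero]
        rw [mul_comm]
    _ = ENNReal.ofReal (π / 2) *
        (ENNReal.ofReal (√(2 / π)) * ∫⁻ x in B, ‖fderiv ℝ f x‖ₑ ∂γ) := by
        congr 1
        rw [lintegral_prod _ hGm.aemeasurable, ← lintegral_indicator hB,
          ← lintegral_const_mul' _ _ ENNReal.ofReal_ne_top]
        refine lintegral_congr fun x => ?_
        by_cases hx : x ∈ B
        · simp only [G, indicator_of_mem hx]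
          exact lintegral_dual_stdGaussian (fderiv ℝ f x)
        · simp [G, indicator_of_notMem hx]
    _ = _ := by
        rw [← mul_assoc, ← ENNReal.ofReal_mul (by positivity)]
        congr 2
        conv_lhs => rw [← Real.mul_self_sqrt (by positivity : (0 : ℝ) ≤ π / 2)]
        rw [mul_assoc, ← Real.sqrt_mul (by positivity), show π / 2 * (2 / π) = 1 by field_simp,
          Real.sqrt_one, mul_one]

/-- The localised rotation inequality. -/
theorem gradient_mean_ge_local {f : E → ℝ} (hf : ContDiff ℝ 1 f)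
    (h01 : ∀ x, f x ∈ Icc (0 : ℝ) 1) (ρ : ℝ)
    (hint : Integrable (fun x => ‖fderiv ℝ f x‖) (stdGaussian E)) :
    2 * (∫ x, f x ∂stdGaussian E) * (1 - ∫ x, f x ∂stdGaussian E)
        - 2 * ∫ x, f x * (1 - f x) ∂stdGaussian E
        - 2 * (stdGaussian E).real {x | ρ / 2 < ‖x‖}
      ≤ √(π / 2) * ∫ x in {x : E | ‖x‖ ≤ ρ}, ‖fderiv ℝ f x‖ ∂stdGaussian E := by
  set γ := stdGaussian E
  set B := {x : E | ‖x‖ ≤ ρ}
  set S := {p : E × E | ‖p.1‖ + ‖p.2‖ ≤ ρ}
  set O := {x : E | ρ / 2 < ‖x‖}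
  have hc : Continuous f := hf.continuous
  have hS : MeasurableSet S :=
    measurableSet_le (by fun_prop : Measurable fun p : E × E => ‖p.1‖ + ‖p.2‖) measurable_const
  have hO : MeasurableSet O := measurableSet_lt measurable_const measurable_norm
  have h01' := h01
  have hb : ∀ {g : E → ℝ}, Continuous g → (∀ x, |g x| ≤ 1) → Integrable g γ := fun hg hg1 =>
    Integrable.of_bound hg.aestronglyMeasurable 1 (Eventually.of_forall fun x => by
      rw [Real.norm_eq_abs]; exact hg1 x)
  have i1 : Integrable f γ := hb hc fun x => abs_le.2 ⟨by linarith [(h01 x).1], (h01 x).2⟩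
  have i2 : Integrable (fun x => f x * (1 - f x)) γ := hb (by fun_prop) fun x =>
    abs_le.2 ⟨by nlinarith [(h01 x).1, (h01 x).2], by nlinarith [(h01 x).1, (h01 x).2]⟩
  have hd1 : ∀ p : E × E, |f p.2 - f p.1| ≤ 1 := fun p =>
    abs_le.2 ⟨by linarith [(h01 p.1).2, (h01 p.2).1], by linarith [(h01 p.1).1, (h01 p.2).2]⟩
  have hp : Integrable (fun p : E × E => |f p.2 - f p.1|) (γ.prod γ) :=
    Integrable.of_bound
      (by fun_prop : Continuous fun p : E × E => |f p.2 - f p.1|).aestronglyMeasurable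
      1 (Eventually.of_forall fun p => by rw [Real.norm_eq_abs, abs_abs]; exact hd1 p)
  have iA : Integrable (fun p : E × E => f p.2 + f p.1) (γ.prod γ) :=
    (i1.comp_snd γ).add (i1.comp_fst γ)
  have iB : Integrable (fun p : E × E => 2 * (f p.1 * f p.2)) (γ.prod γ) :=
    (i1.mul_prod i1).const_mul 2
  have iC : Integrable (fun p : E × E => f p.2 * (1 - f p.2) + f p.1 * (1 - f p.1)) (γ.prod γ) :=
    (i2.comp_snd γ).add (i2.comp_fst γ)
  have iO : Integrable (fun x : E => O.indicator (fun _ => (1 : ℝ)) x) γ :=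
    (integrable_const 1).indicator hO
  have iS : Integrable (fun p : E × E => S.indicator (fun p => |f p.2 - f p.1|) p) (γ.prod γ) :=
    hp.indicator hS
  have k1 : 2 * (∫ x, f x ∂γ) * (1 - ∫ x, f x ∂γ) - 2 * ∫ x, f x * (1 - f x) ∂γ
      ≤ (∫ p in S, |f p.2 - f p.1| ∂γ.prod γ) + 2 * γ.real O := by
    have e : ∫ p, ((f p.2 + f p.1) - 2 * (f p.1 * f p.2)
        - (f p.2 * (1 - f p.2) + f p.1 * (1 - f p.1))) ∂γ.prod γ
        = 2 * (∫ x, f x ∂γ) * (1 - ∫ x, f x ∂γ) - 2 * ∫ x, f x * (1 - f x) ∂γ := by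
      have e1 : ∀ g : E → ℝ, ∫ p, g p.1 ∂γ.prod γ = ∫ x, g x ∂γ := fun g => by
        simp [integral_fun_fst]
      have e2 : ∀ g : E → ℝ, ∫ p, g p.2 ∂γ.prod γ = ∫ x, g x ∂γ := fun g => by
        simp [integral_fun_snd]
      have iAB : Integrable (fun p : E × E => (f p.2 + f p.1) - 2 * (f p.1 * f p.2)) (γ.prod γ) :=
        iA.sub iB
      rw [integral_sub iAB iC, integral_sub iA iB,
        integral_add (i1.comp_snd γ) (i1.comp_fst γ),
        integral_add (i2.comp_snd γ) (i2.comp_fst γ), integral_const_mul,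
        integral_prod_mul, e1, e2, e1 fun x => f x * (1 - f x), e2 fun x => f x * (1 - f x)]
      ring
    have e3 : ∫ p, (S.indicator (fun p => |f p.2 - f p.1|) p
        + (O.indicator (fun _ => (1 : ℝ)) p.1 + O.indicator (fun _ => (1 : ℝ)) p.2)) ∂γ.prod γ
        = (∫ p in S, |f p.2 - f p.1| ∂γ.prod γ) + 2 * γ.real O := by
      rw [integral_add iS, integral_add (iO.comp_fst γ) (iO.comp_snd γ), integral_indicator hS,
        integral_fun_fst (fun x => O.indicator (fun _ => (1 : ℝ)) x),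
        integral_fun_snd (fun x => O.indicator (fun _ => (1 : ℝ)) x),
        integral_indicator_const _ hO]
      · simp; ring
      · exact (iO.comp_fst γ).add (iO.comp_snd γ)
    rw [← e, ← e3]
    refine integral_mono ((iA.sub iB).sub iC)
      (iS.add ((iO.comp_fst γ).add (iO.comp_snd γ))) fun p => ?_
    have h1 := hd1 p
    have h2 := mul_le_of_le_one_left (abs_nonneg (f p.2 - f p.1)) h1
    rw [← abs_mul, abs_mul_self] at h2
    have h3 : |f p.2 - f p.1| ≤ S.indicator (fun p => |f p.2 - f p.1|) p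
        + (O.indicator (fun _ => (1 : ℝ)) p.1 + O.indicator (fun _ => (1 : ℝ)) p.2) := by
      have n1 : ∀ x, 0 ≤ O.indicator (fun _ => (1 : ℝ)) x :=
        fun x => indicator_nonneg (fun _ _ => zero_le_one) x
      have := n1 p.1
      have := n1 p.2
      by_cases hpS : p ∈ S
      · rw [indicator_of_mem hpS]
        linarith
      · rw [indicator_of_notMem hpS]
        have hor : p.1 ∈ O ∨ p.2 ∈ O := by
          by_contra hh
          rw [not_or] at hh
          have a1 : ‖p.1‖ ≤ ρ / 2 := not_lt.1 hh.1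
          have a2 : ‖p.2‖ ≤ ρ / 2 := not_lt.1 hh.2
          exact hpS (show ‖p.1‖ + ‖p.2‖ ≤ ρ by linarith)
        rcases hor with ho | ho <;> rw [indicator_of_mem ho] <;> linarith
    nlinarith
  have k2 : ∫ p in S, |f p.2 - f p.1| ∂γ.prod γ
      ≤ √(π / 2) * ∫ x in B, ‖fderiv ℝ f x‖ ∂γ := by
    have h := lintegral_sub_le_local (E := E) hf ρ
    have l1 : ∫⁻ p in S, ‖f p.2 - f p.1‖ₑ ∂γ.prod γ
        = ENNReal.ofReal (∫ p in S, |f p.2 - f p.1| ∂γ.prod γ) := by
      rw [ofReal_integral_eq_lintegral_ofReal hp.integrableOn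
        (Eventually.of_forall fun p => abs_nonneg _)]
      exact lintegral_congr fun p => Real.enorm_eq_ofReal_abs _
    have l2 : ∫⁻ x in B, ‖fderiv ℝ f x‖ₑ ∂γ
        = ENNReal.ofReal (∫ x in B, ‖fderiv ℝ f x‖ ∂γ) := by
      rw [ofReal_integral_eq_lintegral_ofReal hint.integrableOn
        (Eventually.of_forall fun x => norm_nonneg _)]
      exact lintegral_congr fun x => (ofReal_norm _).symm
    rw [l1, l2, ← ENNReal.ofReal_mul (by positivity)] at h
    exact (ENNReal.ofReal_le_ofReal_iff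
      (mul_nonneg (Real.sqrt_nonneg _) (integral_nonneg fun x => norm_nonneg _))).1 h
  linarith

end Local

/-! ## Moments -/

variable {n : ℕ}

theorem exp_quarter_moment :
    Integrable (fun x : EuclideanSpace ℝ (Fin n) => Real.exp (‖x‖ ^ 2 / 4))
        (stdGaussian (EuclideanSpace ℝ (Fin n))) ∧
      ∫ x, Real.exp (‖x‖ ^ 2 / 4) ∂stdGaussian (EuclideanSpace ℝ (Fin n))
        ≤ Real.exp ((n : ℝ) / 2) := by
  set φ : EuclideanSpace ℝ (Fin n) → ℝ := fun x =>
    Real.exp (-(1 / 4) * ‖x‖ ^ 2) / √(2 * π) ^ n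
  have hv := GaussianFourier.integral_rexp_neg_mul_sq_norm (V := EuclideanSpace ℝ (Fin n))
    (b := 1 / 4) (by norm_num)
  rw [finrank_euclideanSpace_fin] at hv
  have hi : Integrable φ := by
    refine (Integrable.of_integral_ne_zero ?_).div_const _
    rw [hv]; positivity
  have e : ∀ x : EuclideanSpace ℝ (Fin n), (ENNReal.ofReal (Real.exp (-(1 / 2) * ‖x‖ ^ 2)
      / √(2 * π) ^ Module.finrank ℝ (EuclideanSpace ℝ (Fin n)))).toReal • Real.exp (‖x‖ ^ 2 / 4)
      = φ x := fun x => by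
    rw [ENNReal.toReal_ofReal (by positivity), finrank_euclideanSpace_fin, smul_eq_mul]
    simp only [φ]
    rw [div_mul_eq_mul_div, ← Real.exp_add]
    ring_nf
  rw [stdGaussian_eq_withDensity]
  refine ⟨?_, ?_⟩
  · rw [integrable_withDensity_iff_integrable_smul' (by fun_prop)
      (Eventually.of_forall fun _ => ENNReal.ofReal_lt_top)]
    exact hi.congr (Eventually.of_forall fun x => (e x).symm)
  · rw [integral_withDensity_eq_integral_toReal_smul (by fun_prop)
      (Eventually.of_forall fun _ => ENNReal.ofReal_lt_top), integral_congr_ae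
        (Eventually.of_forall e)]
    simp only [φ]
    rw [integral_div, hv]
    have h1 : (π / (1 / 4 : ℝ)) ^ ((n : ℝ) / 2) / √(2 * π) ^ n = (2 : ℝ) ^ ((n : ℝ) / 2) := by
      rw [Real.sqrt_eq_rpow, ← Real.rpow_natCast ((2 * π) ^ (1 / 2 : ℝ)),
        ← Real.rpow_mul (by positivity), show (1 / 2 : ℝ) * n = (n : ℝ) / 2 by ring,
        ← Real.div_rpow (by positivity) (by positivity)]
      congr 1
      field_simp
      norm_num
    rw [h1, show Real.exp ((n : ℝ) / 2) = Real.exp 1 ^ ((n : ℝ) / 2) by rw [Real.exp_one_rpow]]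
    exact Real.rpow_le_rpow zero_le_two (by linarith [Real.add_one_le_exp (1 : ℝ)]) (by positivity)

theorem gauss_tail (r : ℝ) (hr : 0 ≤ r) :
    (stdGaussian (EuclideanSpace ℝ (Fin n))).real {x | r < ‖x‖}
      ≤ Real.exp ((n : ℝ) / 2 - r ^ 2 / 4) := by
  set γ := stdGaussian (EuclideanSpace ℝ (Fin n))
  obtain ⟨hi, hle⟩ := exp_quarter_moment (n := n)
  have h1 := mul_meas_ge_le_integral_of_nonneg (μ := γ)
    (Eventually.of_forall fun x => (Real.exp_pos _).le) hi (Real.exp (r ^ 2 / 4))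
  have hsub : γ.real {x | r < ‖x‖}
      ≤ γ.real {x : EuclideanSpace ℝ (Fin n) | Real.exp (r ^ 2 / 4) ≤ Real.exp (‖x‖ ^ 2 / 4)} := by
    refine measureReal_mono fun x (hx : r < ‖x‖) => ?_
    exact Real.exp_le_exp.2 (by gcongr)
  rw [Real.exp_sub, le_div_iff₀ (Real.exp_pos _), mul_comm]
  exact ((mul_le_mul_of_nonneg_left hsub (Real.exp_pos _).le).trans h1).trans hle

theorem integrable_norm_sq :
    Integrable (fun x : EuclideanSpace ℝ (Fin n) => ‖x‖ ^ 2)
      (stdGaussian (EuclideanSpace ℝ (Fin n))) := by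
  refine ((exp_quarter_moment (n := n)).1.const_mul 4).mono'
    (by fun_prop) (Eventually.of_forall fun x => ?_)
  rw [Real.norm_of_nonneg (by positivity)]
  linarith [Real.add_one_le_exp (‖x‖ ^ 2 / 4)]

theorem integral_norm_sq :
    ∫ x, ‖x‖ ^ 2 ∂stdGaussian (EuclideanSpace ℝ (Fin n)) = n := by
  set γ := stdGaussian (EuclideanSpace ℝ (Fin n))
  set b := EuclideanSpace.basisFun (Fin n) ℝ
  have hc : ∀ i, MemLp (fun x => ⟪b i, x⟫) 2 γ := fun i =>
    (innerSL ℝ (b i)).comp_memLp' IsGaussian.memLp_two_id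
  have h1 : ∀ i, ∫ x, ⟪b i, x⟫ ^ 2 ∂γ = 1 := fun i => by
    have hv := variance_dual_stdGaussian (E := EuclideanSpace ℝ (Fin n)) (innerSL ℝ (b i))
    rw [variance_of_integral_eq_zero (by fun_prop) (integral_strongDual_stdGaussian _)] at hv
    simpa using hv
  simp_rw [← b.sum_sq_inner_right]
  rw [integral_finsetSum _ fun i _ => (hc i).integrable_sq]
  simp [h1]

theorem setIntegral_norm_sq_le {S : Set (EuclideanSpace ℝ (Fin n))}
    (hS : MeasurableSet S) :
    ∫ x in S, ‖x‖ ^ 2 / 2 ∂stdGaussian (EuclideanSpace ℝ (Fin n))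
      ≤ 3 * n * (stdGaussian (EuclideanSpace ℝ (Fin n))).real S + 2 := by
  set γ := stdGaussian (EuclideanSpace ℝ (Fin n))
  obtain ⟨hi, hle⟩ := exp_quarter_moment (n := n)
  set M := 3 / 2 * (n : ℝ)
  have i1 : Integrable (fun _ : EuclideanSpace ℝ (Fin n) => 2 * M) γ := integrable_const _
  calc ∫ x in S, ‖x‖ ^ 2 / 2 ∂γ
      ≤ ∫ x in S, (2 * M + 2 * Real.exp (-M) * Real.exp (‖x‖ ^ 2 / 4)) ∂γ := by
        refine setIntegral_mono_on ((integrable_norm_sq).div_const 2).integrableOn
          (i1.add (hi.const_mul _)).integrableOn hS fun x _ => ?_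
        rw [mul_assoc, ← Real.exp_add]
        linarith [Real.add_one_le_exp (-M + ‖x‖ ^ 2 / 4)]
    _ = γ.real S * (2 * M) + 2 * Real.exp (-M) * ∫ x in S, Real.exp (‖x‖ ^ 2 / 4) ∂γ := by
        rw [integral_add i1.integrableOn (hi.const_mul _).integrableOn, setIntegral_const,
          smul_eq_mul, integral_const_mul]
    _ ≤ _ := by
        have h1 : ∫ x in S, Real.exp (‖x‖ ^ 2 / 4) ∂γ ≤ Real.exp ((n : ℝ) / 2) :=
          (setIntegral_le_integral hi (Eventually.of_forall fun x => (Real.exp_pos _).le)).trans hle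
        have h2 := mul_le_mul_of_nonneg_left h1 (by positivity : 0 ≤ 2 * Real.exp (-M))
        have h3 : Real.exp (-M) * Real.exp ((n : ℝ) / 2) ≤ 1 := by
          rw [← Real.exp_add, Real.exp_le_one_iff]
          simp only [M]
          linarith [(Nat.cast_nonneg n : (0 : ℝ) ≤ n)]
        simp only [M] at h2 ⊢
        linarith

end Vale.Agent.P219.Gauss
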