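import Vale.Agent.P219.Sharp.Basic
import Vale.Agent.P219.Sharp.LowerRot
import Vale.Agent.P219.CH.Start

/-!
# P219, lower pin: a middle level at a shifted point gives mass near that point
-/

noncomputable section

open MeasureTheory ProbabilityTheory Set Filter Topology Matrix
open scoped ENNReal NNReal Real RealInnerProductSpace

namespace Vale.Agent.P219.CH.Sharp

variable {n : ℕ} {G : (Fin n → ℝ) → Matrix (Fin n) (Fin n) ℝ}
  {D : (Fin n → ℝ) → (Fin n → ℝ) → ℝ}

/-- A frame average of values in an interval stays in the interval. -/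
lemma avg_mem_Icc (h : IsCH G D) {s : ℝ} (hs : 0 < s) {g : (Fin n → ℝ) → ℝ} (hg : Continuous g)
    {a c : ℝ} (hgb : ∀ y, g y ∈ Icc a c) (x : Fin n → ℝ) : avg G s g x ∈ Icc a c := by
  obtain ⟨hAt, hA, -, hdet⟩ := frame_spec h x
  rw [← integral_toFrame h hs hAt hA hdet]
  have hi : Integrable (fun z => g (toFrame (frame G x) s x z))
      (stdGaussian (EuclideanSpace ℝ (Fin n))) :=
    Integrable.of_bound (hg.comp (by unfold toFrame; fun_prop)).aestronglyMeasurable (|a| + |c|)
      (Eventually.of_forall fun z => by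
        obtain ⟨h1, h2⟩ := hgb (toFrame (frame G x) s x z)
        rw [Real.norm_eq_abs, abs_le]
        constructor <;> linarith [neg_abs_le a, le_abs_self c, abs_nonneg a, abs_nonneg c])
  constructor
  · have := integral_mono (integrable_const a) hi fun z => (hgb _).1
    simpa using this
  · have := integral_mono hi (integrable_const c) fun z => (hgb _).2
    simpa using this

lemma ltau_nonneg {τ v : ℝ} (hτ : 0 < τ) (hτ' : τ ≤ 1 / 2) (hv : v ∈ Icc (0 : ℝ) 1) :
    0 ≤ ltau τ v :=
  neg_nonneg.2 (Real.log_nonpos (by nlinarith [hv.1, hv.2])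
    (by nlinarith [sq_nonneg (2 * v - 1)]))

lemma ltau_le {τ v : ℝ} (hτ : 0 < τ) (hv : v ∈ Icc (0 : ℝ) 1) : ltau τ v ≤ -Real.log τ :=
  neg_le_neg (Real.log_le_log hτ (by nlinarith [hv.1, hv.2]))

lemma exp_neg_ltau {τ v : ℝ} (hτ : 0 < τ) (hv : v ∈ Icc (0 : ℝ) 1) :
    Real.exp (-ltau τ v) = v * (1 - v) + τ := by
  rw [ltau, neg_neg, Real.exp_log (by nlinarith [hv.1, hv.2])]

lemma qf_toFrame_sub (h : IsCH G D) (s : ℝ) (x : Fin n → ℝ) (b : EuclideanSpace ℝ (Fin n)) :
    qf G x (toFrame (frame G x) s x b - x) = s ^ 2 * ‖b‖ ^ 2 := by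
  obtain ⟨hAt, hA, -, -⟩ := frame_spec h x
  rw [toFrame, add_sub_cancel_left, qf_smul, qf_frame hAt hA]

lemma qf_add_le (h : IsCH G D) (x v w : Fin n → ℝ) :
    qf G x (v + w) ≤ 2 * qf G x v + 2 * qf G x w := by
  have h0 := qf_nonneg h x (v - w)
  simp only [qf, mulVec_sub, mulVec_add, dotProduct_sub, sub_dotProduct, dotProduct_add,
    add_dotProduct] at h0 ⊢
  linarith

lemma measurableSet_qball (h : IsCH G D) (s R : ℝ) (y : Fin n → ℝ) :
    MeasurableSet (qball G s R y) :=
  (isClosed_le ((continuous_qf h).comp (continuous_const.prodMk (continuous_id.sub continuous_const)))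
    continuous_const).measurableSet

lemma integrable_exp_qf (h : IsCH G D) {K : Set (Fin n → ℝ)} (hK : IsCompact K)
    {u : (Fin n → ℝ) → ℝ} (hu : Comp K u) (s : ℝ) (x p : Fin n → ℝ) :
    Integrable (fun z => Real.exp (-(qf G x (z - p) / (2 * s ^ 2)))) (pm G u) :=
  integrable_pm_of_continuous h hK hu (Real.continuous_exp.comp
    (((continuous_qf h).comp (continuous_const.prodMk (continuous_id.sub continuous_const))).div_const
      _).neg).continuousOn

/-- A middle level at the shifted point `z₀` gives mass in a frozen ball around `z₀`; on that ball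
the frozen metrics at `y` and `z₀` agree up to `1 + δ` and `D y` is at most the frozen form. -/
theorem shift_ball (h : IsCH G D) (o : Fin n → ℝ) (R : ℝ) (hn : 1 ≤ n) {δ : ℝ} (hδ : 0 < δ)
    (hδ1 : δ ≤ 1) (q : ℕ) (hq : 1 ≤ q) :
    ∃ σ : ℝ, 0 < σ ∧ ∀ s, 0 < s → s ≤ Real.exp (-6) → ∃ δ₁ : ℝ, 0 < δ₁ ∧
      ∀ u, Comp {y | D o y ≤ R} u → gap G u ≤ δ₁ → ∀ y, D o y ≤ R →
      ∀ (b : EuclideanSpace ℝ (Fin n)) (ρ L : ℝ), 0 ≤ ρ → (‖b‖ + ρ) * s ≤ σ →
        ltau (s ^ q) (avg G s u (toFrame (frame G y) s y b)) ≤ L →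
        L ≤ -((q : ℝ) / 2) * Real.log s → (n : ℝ) / 2 - ρ ^ 2 / 16 ≤ -(L + 3) →
        (√(2 * π) * s) ^ (n - 1) * Real.exp (-L) ≤
            ∫ z in qball G s ρ (toFrame (frame G y) s y b),
              Real.exp (-(qf G (toFrame (frame G y) s y b) (z - toFrame (frame G y) s y b)
                / (2 * s ^ 2))) ∂pm G u ∧
        ∀ z ∈ qball G s ρ (toFrame (frame G y) s y b),
          qf G y (z - toFrame (frame G y) s y b) ≤
              (1 + δ) * qf G (toFrame (frame G y) s y b) (z - toFrame (frame G y) s y b) ∧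
            D y z ≤ qf G y (z - y) := by
  set K := {y | D o y ≤ R}
  have hK : IsCompact K := h.proper o R
  obtain ⟨B, hB⟩ := hK.isBounded.subset_closedBall (0 : Fin n → ℝ)
  set K₁ := Metric.closedBall (0 : Fin n → ℝ) (B + 1)
  have hK₁ : IsCompact K₁ := isCompact_closedBall _ _
  set f : (Fin n → ℝ) × (Fin n → ℝ) → ℝ := fun p => conorm G p.1 p.2 * dens G p.1
  have hf : Continuous f :=
    (continuous_conorm h).mul ((continuous_dens h).comp continuous_fst)
  have hfs : ∀ y v (a : ℝ), 0 ≤ a → f (y, a • v) = a * f (y, v) := fun y v a ha => by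
    simp [f, conorm_smul h, abs_of_nonneg ha, mul_assoc]
  have hfp : ∀ y v, v ≠ 0 → 0 < f (y, v) := fun y v hv =>
    mul_pos (Real.sqrt_pos.2 (pairing_pos h y hv)) (dens_pos h y)
  obtain ⟨ρ1, hρ1, -, hmodf⟩ := exists_modulus hK₁ hf (c := 1)
    (fun y v a ha => by rw [Real.rpow_one]; exact hfs y v a ha) one_pos hfp hδ
  obtain ⟨ρ2, hρ2, -, hmodq⟩ := exists_modulus hK₁ (continuous_qf h) (c := 2)
    (fun y v a _ => by rw [Real.rpow_two]; exact qf_smul y v a) two_pos
    (fun y v hv => qf_pos h y hv) hδ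
  obtain ⟨ρ3, hρ3, hD⟩ := D_upper h hK (δ := 1) one_pos
  obtain ⟨CA, hCA, hCAb⟩ := exists_comparison hK₁ (f := fun p : (Fin n → ℝ) × (Fin n → ℝ) => ‖p.2‖)
    (g := fun p => √(qf G p.1 p.2)) (continuous_norm.comp continuous_snd)
    (Real.continuous_sqrt.comp (continuous_qf h))
    (fun y v a ha => by simp [norm_smul, abs_of_nonneg ha])
    (fun y v a ha => by simp [qf_smul, Real.sqrt_mul (sq_nonneg a), Real.sqrt_sq ha])
    (fun y _ v hv => Real.sqrt_pos.2 (qf_pos h y hv))
  obtain ⟨dM, hdM⟩ := hK₁.exists_bound_of_continuousOn (continuous_dens h).continuousOn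
  obtain ⟨dm, hdm, hdmb⟩ := hK.exists_forall_le' (continuous_dens h).continuousOn
    fun y _ => dens_pos h y
  set ρm := min (min ρ1 ρ2) (min ρ3 1)
  have hρm : 0 < ρm := lt_min (lt_min hρ1 hρ2) (lt_min hρ3 one_pos)
  refine ⟨ρm / CA, by positivity, fun s hs hs6 => ?_⟩
  set m := √(2 * π) * s with hm_def
  have hm : 0 < m := by positivity
  set Kk := (|dM| + 1) / m ^ n / dm with hKk
  have hKk0 : 0 < Kk := by positivity
  refine ⟨s ^ q / Kk, by positivity, fun u hu hgap y hy b ρ L hρ hσ hL hLq hρL => ?_⟩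
  set z₀ := toFrame (frame G y) s y b with hz₀
  rw [le_div_iff₀ hCA] at hσ
  have hyK : y ∈ K := hy
  have hyB := hB hyK
  rw [mem_closedBall_zero_iff] at hyB
  have hy₁ : y ∈ K₁ := mem_closedBall_zero_iff.2 (by linarith)
  have hm1 : ρm ≤ 1 := (min_le_right _ _).trans (min_le_right _ _)
  have hb0 : ‖z₀ - y‖ ≤ ‖b‖ * s * CA := by
    refine (hCAb y hy₁ _).trans (le_of_eq ?_)
    simp only [hz₀]
    rw [qf_toFrame_sub h, ← mul_pow, Real.sqrt_sq (by positivity)]
    ring
  have hbρ : 0 ≤ ρ * s * CA := by positivity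
  have hz₁ : z₀ ∈ K₁ := by
    rw [mem_closedBall_zero_iff]
    have := norm_le_norm_add_norm_sub' z₀ y
    linarith
  set S := qball G s ρ z₀ with hS_def
  have hS : MeasurableSet S := measurableSet_qball h s ρ z₀
  have hnear : ∀ z ∈ S, ‖z - z₀‖ ≤ ρ * s * CA := fun z hz => by
    refine (hCAb z₀ hz₁ _).trans ?_
    simp only
    rw [mul_comm CA]
    refine mul_le_mul_of_nonneg_right ?_ hCA.le
    rw [Real.sqrt_le_left (by positivity), mul_pow]
    exact hz
  refine ⟨?_, fun z hz => ⟨?_, ?_⟩⟩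
  swap
  · exact (hmodq y hy₁ z₀ (hb0.trans ((by linarith : ‖b‖ * s * CA ≤ ρm).trans
      ((min_le_left _ _).trans (min_le_right _ _)))) (z - z₀)).1
  swap
  · have h2 : ‖z - y‖ ≤ ρ3 := by
      have := norm_sub_le_norm_sub_add_norm_sub z z₀ y
      have := hnear z hz
      have h3 : ρm ≤ ρ3 := (min_le_right _ _).trans (min_le_left _ _)
      linarith
    have h4 := hD y hyK (z - y) h2
    rw [add_sub_cancel] at h4
    linarith
  obtain ⟨hAt, hA, hAA, hdet⟩ := frame_spec h z₀
  set A := frame G z₀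
  set T := toFrame A s z₀ with hT_def
  have hT : ContDiff ℝ 1 T := by
    let L₀ : EuclideanSpace ℝ (Fin n) →L[ℝ] (Fin n → ℝ) := LinearMap.toContinuousLinearMap
      ((s • (toLin' A)).comp (WithLp.linearEquiv 2 ℝ (Fin n → ℝ)).toLinearMap)
    have e : T = fun z => z₀ + L₀ z := by funext z; simp [T, L₀, toFrame]
    rw [e]
    exact contDiff_const.add L₀.contDiff
  set g := fun z => conorm G z₀ (cd u z)
  have hgc : Continuous g :=
    (continuous_conorm h).comp (continuous_const.prodMk (continuous_cd hu.1))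
  have hgs : HasCompactSupport g :=
    HasCompactSupport.intro hK fun z hz => by simp [g, cd_eq_zero hu hz, conorm, pairing]
  obtain ⟨Cg, hCg⟩ := hgc.bounded_above_of_compact_support hgs
  have hd := norm_fderiv_toFrame h hs hAt hAA (x := z₀) hu.1
  have h1 := Gauss.gradient_mean_ge_local (f := fun w => u (T w)) (hu.1.comp hT)
    (fun w => hu.2.2 _) ρ
    (Integrable.of_bound ((hu.1.comp hT).continuous_fderiv one_ne_zero).norm.aestronglyMeasurable
      (s * Cg) (Eventually.of_forall fun w => by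
        rw [norm_norm, hd w]
        exact mul_le_mul_of_nonneg_left ((le_abs_self _).trans (hCg _)) hs.le))
  have e1 : ∫ w in {w : EuclideanSpace ℝ (Fin n) | ‖w‖ ≤ ρ},
      ‖fderiv ℝ (fun w => u (T w)) w‖ ∂stdGaussian (EuclideanSpace ℝ (Fin n))
      = s * avg G s (S.indicator g) z₀ := by
    rw [← integral_toFrame h hs hAt hA hdet, ← integral_const_mul,
      ← integral_indicator (measurableSet_le measurable_norm measurable_const)]
    refine integral_congr_ae (Eventually.of_forall fun w => ?_)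
    have hmem : T w ∈ S ↔ ‖w‖ ≤ ρ := by
      show qf G z₀ (T w - z₀) ≤ ρ ^ 2 * s ^ 2 ↔ _
      simp only [T, A]
      rw [qf_toFrame_sub h, mul_comm, mul_le_mul_iff_left₀ (by positivity),
        pow_le_pow_iff_left₀ (norm_nonneg _) hρ two_ne_zero]
    by_cases hw : ‖w‖ ≤ ρ
    · have := hmem.2 hw
      beta_reduce
      rw [indicator_of_mem (by exact hw), indicator_of_mem this, hd w]
    · have := mt hmem.1 hw
      beta_reduce
      rw [indicator_of_notMem (by exact hw), indicator_of_notMem this, mul_zero]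
  have hμ : ∫ w, u (T w) ∂stdGaussian (EuclideanSpace ℝ (Fin n)) = avg G s u z₀ :=
    integral_toFrame h hs hAt hA hdet u
  have hη : ∫ w, u (T w) * (1 - u (T w)) ∂stdGaussian (EuclideanSpace ℝ (Fin n))
      = avg G s (fun z => u z * (1 - u z)) z₀ :=
    integral_toFrame h hs hAt hA hdet fun z => u z * (1 - u z)
  rw [hμ, hη, e1] at h1
  have hv := avg_mem_Icc h hs hu.1.continuous hu.2.2 z₀
  set v := avg G s u z₀
  have hexpL : Real.exp (-L) ≤ v * (1 - v) + s ^ q := by
    rw [← exp_neg_ltau (pow_pos hs q) hv]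
    exact Real.exp_le_exp.2 (neg_le_neg hL)
  have he3 : Real.exp (-3) ≤ 1 / 8 := by
    rw [Real.exp_neg, show (1 : ℝ) / 8 = (8 : ℝ)⁻¹ by norm_num]
    refine inv_anti₀ (by norm_num) ?_
    rw [show (3 : ℝ) = ((3 : ℕ) : ℝ) * 1 by norm_num, Real.exp_nat_mul]
    calc (8 : ℝ) = 2 ^ 3 := by norm_num
      _ ≤ Real.exp 1 ^ 3 :=
        pow_le_pow_left₀ zero_le_two (by linarith [Real.add_one_le_exp (1 : ℝ)]) 3
  have hτ : s ^ q ≤ Real.exp (-L) / 8 := by
    have hlog : Real.log s ≤ -6 := by
      have := Real.log_le_log hs hs6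
      rwa [Real.log_exp] at this
    have hq1 : (1 : ℝ) ≤ q := by exact_mod_cast hq
    calc s ^ q = Real.exp ((q : ℝ) * Real.log s) := by rw [Real.exp_nat_mul, Real.exp_log hs]
      _ ≤ Real.exp (-L + -3) := Real.exp_le_exp.2 (by nlinarith)
      _ ≤ _ := by
        rw [Real.exp_add, div_eq_mul_one_div]
        exact mul_le_mul_of_nonneg_left he3 (Real.exp_pos _).le
  have hη' : avg G s (fun z => u z * (1 - u z)) z₀ ≤ s ^ q := by
    have h3 : avg G s (fun z => u z * (1 - u z)) z₀ ≤ Kk * gap G u := by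
      rw [avg, gap, ← integral_const_mul]
      refine integral_mono_of_nonneg (Eventually.of_forall fun z => mul_nonneg
        (mul_nonneg (hu.2.2 z).1 (sub_nonneg.2 (hu.2.2 z).2)) (ker_nonneg h hs z₀ z)) ?_
        (Eventually.of_forall fun z => ?_)
      · exact ((((hu.1.continuous).mul (continuous_const.sub hu.1.continuous)).mul
          (continuous_dens h)).integrable_of_hasCompactSupport
          (comp_hasCompactSupport hK hu).mul_right.mul_right).const_mul _
      · simp only
        by_cases hz : z ∈ K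
        swap
        · simp [comp_eq_zero hu hz]
        rw [mul_left_comm Kk]
        refine mul_le_mul_of_nonneg_left ?_ (mul_nonneg (hu.2.2 z).1 (sub_nonneg.2 (hu.2.2 z).2))
        have hx' := hdM z₀ hz₁
        rw [Real.norm_of_nonneg (dens_pos h z₀).le] at hx'
        calc ker G s z₀ z ≤ dens G z₀ / m ^ n :=
              mul_le_of_le_one_right (div_nonneg (dens_pos h z₀).le (by positivity))
                (Real.exp_le_one_iff.2
                  (neg_nonpos.2 (div_nonneg (qf_nonneg h z₀ _) (by positivity))))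
          _ ≤ (|dM| + 1) / m ^ n := by
              gcongr; linarith [le_abs_self dM]
          _ = Kk * dm := by rw [hKk, div_mul_cancel₀ _ hdm.ne']
          _ ≤ Kk * dens G z := mul_le_mul_of_nonneg_left (hdmb z hz) hKk0.le
    refine h3.trans ?_
    have h4 := mul_le_mul_of_nonneg_left hgap hKk0.le
    rwa [mul_div_cancel₀ _ hKk0.ne'] at h4
  have htail : (stdGaussian (EuclideanSpace ℝ (Fin n))).real {w | ρ / 2 < ‖w‖}
      ≤ Real.exp (-L) / 8 := by
    refine (Gauss.gauss_tail (ρ / 2) (by linarith)).trans ?_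
    calc Real.exp ((n : ℝ) / 2 - (ρ / 2) ^ 2 / 4) ≤ Real.exp (-L + -3) :=
          Real.exp_le_exp.2 (by linarith)
      _ ≤ _ := by
        rw [Real.exp_add, div_eq_mul_one_div (Real.exp (-L))]
        exact mul_le_mul_of_nonneg_left he3 (Real.exp_pos _).le
  have hsq : √(π / 2) * (s * avg G s (S.indicator g) z₀)
      = m / 2 * avg G s (S.indicator g) z₀ := by
    have e : √(π / 2) = √(2 * π) / 2 := by
      rw [show π / 2 = 2 * π / 2 ^ 2 by ring, Real.sqrt_div' _ (by positivity),
        Real.sqrt_sq zero_le_two]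
    rw [e]; simp only [m]; ring
  rw [hsq] at h1
  set E := fun z => Real.exp (-(qf G z₀ (z - z₀) / (2 * s ^ 2)))
  have hmn : m ^ n = m ^ (n - 1) * m := by
    rw [← pow_succ]; congr 1; omega
  have hW : ∫ z in S, E z ∂pm G u
      = ∫ z, S.indicator E z * (conorm G z (cd u z) * dens G z) := by
    rw [← integral_indicator hS, integral_pm h hu.1]
  have hcmp : m ^ n * avg G s (S.indicator g) z₀ ≤ (1 + δ) * ∫ z in S, E z ∂pm G u := by
    rw [hW, avg, ← integral_const_mul, ← integral_const_mul]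
    have hEi : Integrable (fun z => S.indicator E z * (conorm G z (cd u z) * dens G z)) := by
      refine (integrable_per h hK hu).mono' ((((Real.continuous_exp.comp
        (((continuous_qf h).comp (continuous_const.prodMk (continuous_id.sub
          continuous_const))).div_const _).neg).aestronglyMeasurable.indicator hS)).mul
        (continuous_weight h hu.1).aestronglyMeasurable) (Eventually.of_forall fun z => ?_)
      have hw := weight_nonneg h u z
      have hnn : 0 ≤ S.indicator E z := indicator_nonneg (fun z _ => (Real.exp_pos _).le) z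
      rw [norm_mul, Real.norm_of_nonneg hw]
      refine mul_le_of_le_one_left hw ?_
      show ‖S.indicator E z‖ ≤ 1
      rw [Real.norm_of_nonneg hnn]
      exact indicator_le' (fun z _ => Real.exp_le_one_iff.2 (neg_nonpos.2
        (div_nonneg (qf_nonneg h z₀ _) (by positivity)))) (fun _ _ => zero_le_one) z
    refine integral_mono_of_nonneg (Eventually.of_forall fun z => mul_nonneg (by positivity)
      (mul_nonneg (indicator_nonneg (fun z _ => conorm_nonneg _ _) z) (ker_nonneg h hs z₀ z)))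
      (hEi.const_mul _) (Eventually.of_forall fun z => ?_)
    simp only
    by_cases hz : z ∈ S
    swap
    · simp [indicator_of_notMem hz]
    rw [indicator_of_mem hz, indicator_of_mem hz]
    have e : m ^ n * (g z * ker G s z₀ z) = f (z₀, cd u z) * E z := by
      simp only [ker, f, g, E, m]
      field_simp
    rw [e]
    have hzn : ‖z - z₀‖ ≤ ρ1 := (hnear z hz).trans ((by
      have : 0 ≤ ‖b‖ * s * CA := by positivity
      linarith : ρ * s * CA ≤ ρm).trans ((min_le_left _ _).trans (min_le_left _ _)))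
    calc f (z₀, cd u z) * E z ≤ (1 + δ) * f (z, cd u z) * E z :=
          mul_le_mul_of_nonneg_right (hmodf z₀ hz₁ z hzn (cd u z)).1 (Real.exp_pos _).le
      _ = _ := by simp only [f]; ring
  have key : 2 * Real.exp (-L) ≤ m * avg G s (S.indicator g) z₀ := by
    linarith [Real.exp_pos (-L)]
  have h5 := mul_le_mul_of_nonneg_left key (pow_nonneg hm.le (n - 1))
  rw [← mul_assoc (m ^ (n - 1)) m, ← hmn] at h5
  have h6 := h5.trans hcmp
  have h7 : (1 + δ) * (∫ z in S, E z ∂pm G u) ≤ 2 * ∫ z in S, E z ∂pm G u :=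
    mul_le_mul_of_nonneg_right (by linarith) (integral_nonneg fun z => (Real.exp_pos _).le)
  linarith

end Vale.Agent.P219.CH.Sharp
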