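import Vale.Agent.P219.Sharp.VarStep

/-!
# P219, part A: the first variation along `W ∇ D c`
-/

noncomputable section

open MeasureTheory Set Filter Topology Matrix

namespace Vale.Agent.P219.CH.Sharp

variable {n : ℕ} {G : (Fin n → ℝ) → Matrix (Fin n) (Fin n) ℝ}
  {D : (Fin n → ℝ) → (Fin n → ℝ) → ℝ} {K : Set (Fin n → ℝ)} {u : (Fin n → ℝ) → ℝ}

/-- The step map pushes away from a centre in the ball, so it only reaches the ball from inside. -/
theorem exists_support_field (h : IsCH G D) (o : Fin n → ℝ) (R : ℝ) (c : Fin n → ℝ)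
    (hc : D o c ≤ R) {W : (Fin n → ℝ) → ℝ} (hW : ContDiff ℝ 1 W)
    (hWp : ∀ y, D o y ≤ R + 1 → 0 < W y) {Z : (Fin n → ℝ) → Fin n → ℝ} {r B : ℝ}
    (hKr : {y | D o y ≤ R} ⊆ Metric.closedBall 0 r) (hB0 : 0 ≤ B) (hB : ∀ y, ‖Z y‖ ≤ B)
    (hone : ∀ y, ‖y‖ < r + 2 → Z y = wfield G D c W y) :
    ∃ τ : ℝ, 0 < τ ∧ ∀ t ∈ Icc 0 τ, ∀ y, D o (y + t • Z y) ≤ R → D o y ≤ R := by
  set S := Metric.closedBall (0 : Fin n → ℝ) (r + 2)
  have hS : IsCompact S := isCompact_closedBall _ _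
  obtain ⟨C, hC0, hC⟩ := h.exists_norm_inv_mulVec_le hS
  have hf' : ContDiff ℝ 1 (fderiv ℝ (D o)) := (h.contDiff_D o).fderiv_right le_rfl
  obtain ⟨C₁', hC₁⟩ := hS.bddAbove_image hf'.continuous.norm.continuousOn
  obtain ⟨C₂, hC₂⟩ := hS.bddAbove_image (hf'.continuous_fderiv one_ne_zero).norm.continuousOn
  obtain ⟨M', hM⟩ := hS.bddAbove_image hW.continuous.continuousOn
  set C₁ := max C₁' 0
  set C₃ := max C₂ 0
  set M := max M' 0
  refine ⟨min (min (1 / (B + 1)) (1 / (C₁ * B + 1))) (1 / (2 * C₃ * C ^ 2 * M + 1)), by positivity, ?_⟩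
  rintro t ⟨ht0, htτ⟩ y hy
  by_contra hR
  rw [not_le] at hR
  obtain ⟨v, hv⟩ : ∃ v, v = Z y := ⟨_, rfl⟩
  rw [← hv] at hy
  have hvB : ‖v‖ ≤ B := hv ▸ hB y
  have hz : ‖y + t • v‖ ≤ r := by simpa using hKr hy
  have htn : ‖t • v‖ ≤ t * B := by
    rw [norm_smul, Real.norm_eq_abs, abs_of_nonneg ht0]
    exact mul_le_mul_of_nonneg_left hvB ht0
  have htv : ‖t • v‖ ≤ 1 := by
    refine htn.trans ((mul_le_mul_of_nonneg_right
      (htτ.trans ((min_le_left _ _).trans (min_le_left _ _))) hB0).trans ?_)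
    rw [div_mul_eq_mul_div, div_le_one (by positivity)]; linarith
  have hyr : ‖y‖ ≤ r + 1 := by
    have := norm_sub_le (y + t • v) (t • v)
    rw [add_sub_cancel_right] at this
    linarith
  have hyS : y ∈ S := by simp [S]; linarith
  have hzS : y + t • v ∈ S := by simp [S]; linarith
  have hyR : D o y ≤ R + 1 := by
    have h1 := (convex_closedBall (0 : Fin n → ℝ) (r + 2)).norm_image_sub_le_of_norm_fderiv_le
      (f := D o) (C := C₁) (fun w _ => (h.contDiff_D o).differentiable two_ne_zero w)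
      (fun w hw => (hC₁ ⟨w, hw, rfl⟩).trans (le_max_left _ _)) hzS hyS
    rw [sub_add_cancel_left, norm_neg, Real.norm_eq_abs] at h1
    have h2 : C₁ * ‖t • v‖ ≤ 1 := by
      calc C₁ * ‖t • v‖ ≤ C₁ * (1 / (C₁ * B + 1) * B) :=
            mul_le_mul_of_nonneg_left (htn.trans (mul_le_mul_of_nonneg_right
              (htτ.trans ((min_le_left _ _).trans (min_le_right _ _))) hB0)) (le_max_right _ _)
        _ = C₁ * B / (C₁ * B + 1) := by ring
        _ ≤ 1 := by rw [div_le_one (by positivity)]; linarith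
    have hy' : D o (y + t • v) ≤ R := hy
    linarith [(abs_le.1 (h1.trans h2)).2]
  obtain ⟨w, hwd⟩ : ∃ w, w = W y := ⟨_, rfl⟩
  have hw0 : 0 < w := hwd ▸ hWp y hyR
  have hw1 : w ≤ M := hwd ▸ (hM ⟨y, hyS, rfl⟩).trans (le_max_left _ _)
  have hvw : v = w • grad G (D c) y := by
    rw [hv, hone y (by linarith), wfield, hwd]
  have hlin : w * D c y ≤ fderiv ℝ (D o) y v := by
    rw [hvw, map_smul, smul_eq_mul, ← pairing_cd]
    exact mul_le_mul_of_nonneg_left (by linarith [h.cosine o c y]) hw0.le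
  have hnorm : ‖v‖ ^ 2 ≤ C ^ 2 * M * w * (2 * D c y) := by
    rw [hvw, norm_smul, Real.norm_eq_abs, abs_of_pos hw0, mul_pow, ← h.eikonal, ← h.conorm_sq]
    have h1 := pow_le_pow_left₀ (norm_nonneg _) (hC y hyS (cd (D c) y)) 2
    rw [mul_pow] at h1
    calc w ^ 2 * ‖grad G (D c) y‖ ^ 2 ≤ (M * w) * (C ^ 2 * conorm G y (cd (D c) y) ^ 2) := by
          refine mul_le_mul ?_ h1 (sq_nonneg _) (mul_nonneg (le_max_right _ _) hw0.le)
          rw [sq]; exact mul_le_mul_of_nonneg_right hw1 hw0.le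
      _ = _ := by ring
  -- second order bound on the segment
  have hseg : segment ℝ y (y + t • v) ⊆ S := (convex_closedBall _ _).segment_subset hyS hzS
  have hT : |D o (y + t • v) - D o y - fderiv ℝ (D o) y (t • v)| ≤ C₃ * ‖t • v‖ * ‖t • v‖ := by
    have h1 := (convex_segment y (y + t • v)).norm_image_sub_le_of_norm_fderiv_le'
      (f := D o) (φ := fderiv ℝ (D o) y) (C := C₃ * ‖t • v‖)
      (fun z _ => (h.contDiff_D o).differentiable two_ne_zero z) (fun z hz => ?_)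
      (left_mem_segment ℝ _ _) (right_mem_segment ℝ _ _)
    · simpa using h1
    · have h2 := (convex_closedBall (0 : Fin n → ℝ) (r + 2)).norm_image_sub_le_of_norm_fderiv_le
        (f := fderiv ℝ (D o)) (C := C₃) (fun w _ => hf'.differentiable one_ne_zero w)
        (fun w hw => (hC₂ ⟨w, hw, rfl⟩).trans (le_max_left _ _)) hyS (hseg hz)
      refine h2.trans (mul_le_mul_of_nonneg_left ?_ (le_max_right _ _))
      have := segment_subset_closedBall_left y (y + t • v) hz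
      simpa [Metric.mem_closedBall, dist_eq_norm] using this
  rw [map_smul, smul_eq_mul, norm_smul, Real.norm_eq_abs t, abs_of_nonneg ht0] at hT
  have h1 := (abs_le.1 hT).1
  have ht2 : t * (2 * C₃ * C ^ 2 * M) ≤ 1 := by
    calc t * (2 * C₃ * C ^ 2 * M) ≤ 1 / (2 * C₃ * C ^ 2 * M + 1) * (2 * C₃ * C ^ 2 * M) :=
          mul_le_mul_of_nonneg_right (htτ.trans (min_le_right _ _)) (by positivity)
      _ ≤ 1 := by rw [div_mul_eq_mul_div, div_le_one (by positivity)]; linarith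
  have h3 : C₃ * (t * ‖v‖) * (t * ‖v‖) ≤ t * (w * D c y) := by
    calc _ = C₃ * t ^ 2 * ‖v‖ ^ 2 := by ring
      _ ≤ C₃ * t ^ 2 * (C ^ 2 * M * w * (2 * D c y)) :=
          mul_le_mul_of_nonneg_left hnorm (by positivity)
      _ = t * (2 * C₃ * C ^ 2 * M) * (t * (w * D c y)) := by ring
      _ ≤ 1 * (t * (w * D c y)) := mul_le_mul_of_nonneg_right ht2
          (mul_nonneg ht0 (mul_nonneg hw0.le (h.dist_nonneg _ _)))
      _ = _ := one_mul _
  have hy' : D o (y + t • v) ≤ R := hy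
  linarith [mul_le_mul_of_nonneg_left hlin ht0]

/-- The perimeter after a step. -/
theorem per_step_field (h : IsCH G D) (hK : IsCompact K) (hu : Comp K u) (c : Fin n → ℝ)
    {W : (Fin n → ℝ) → ℝ} (hW : ContDiff ℝ 1 W) {Z : (Fin n → ℝ) → Fin n → ℝ}
    (hZ : ContDiff ℝ 1 Z) {B Cv t e : ℝ}
    (hB : ∀ y, ‖fderiv ℝ Z y‖ ≤ B) (hCv : ∀ y ∈ K, ∀ ξ, |varW G D c W y ξ| ≤ Cv * conorm G y ξ)
    (ht : 0 ≤ t) (he : 0 ≤ e) (htB : t * B < 1) (htV : t * Cv ≤ 1)
    (hdet : ∀ y, 0 ≤ (1 + t • opMat (fderiv ℝ Z y)).det)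
    (hdef : ∀ y ∈ K, ∀ ξ : Fin n → ℝ, defect G y (Z y) (fderiv ℝ Z y) ξ t ≤
      -(t * ((1 + t • opMat (fderiv ℝ Z y)).det * dens G (y + t • Z y) *
        (varW G D c W (y + t • Z y) ξ - e * conorm G (y + t • Z y) ξ))))
    (hsupp : ∀ y, y + t • Z y ∈ K → y ∈ K) :
    per G (fun y => u (y + t • Z y)) ≤
      per G u - t * (∫ y, varW G D c W y (cd u y) * dens G y) + t * e * per G u := by
  have i0 : Integrable fun y => conorm G y (cd u y) * dens G y := by
    simpa using h.integrable_mul_conorm hK hu (continuous_const (y := (1 : ℝ)))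
  have hzero : ∀ y ∉ K, cd u y = 0 := fun y hy => cd_eq_zero_of_notMem fun hs => hy (hu.2.1 hs)
  have i1 : Integrable fun y => varW G D c W y (cd u y) * dens G y := by
    refine (i0.const_mul Cv).mono'
      ((measurable_varW_cd h c hW hu.1).mul h.continuous_dens.measurable).aestronglyMeasurable
      (Eventually.of_forall fun y => ?_)
    rw [Real.norm_eq_abs, abs_mul, abs_of_pos (h.dens_pos y), ← mul_assoc]
    refine mul_le_mul_of_nonneg_right ?_ (h.dens_pos y).le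
    by_cases hy : y ∈ K
    · exact hCv y hy _
    · simp [hzero y hy, varW_zero, conorm_zero]
  set g : (Fin n → ℝ) → ℝ := fun z => (1 + t * e) * (conorm G z (cd u z) * dens G z) -
    t * (varW G D c W z (cd u z) * dens G z)
  have ig : Integrable g := (i0.const_mul _).sub (i1.const_mul t)
  have eI : ∫ z, g z = per G u - t * (∫ y, varW G D c W y (cd u y) * dens G y) + t * e * per G u := by
    simp only [g]
    rw [integral_sub (i0.const_mul _) (i1.const_mul t), integral_const_mul, integral_const_mul, per]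
    ring
  have hg0 : ∀ z, 0 ≤ g z := by
    intro z
    by_cases hz : z ∈ K
    · have h2 := mul_le_mul_of_nonneg_left ((le_abs_self _).trans (hCv z hz (cd u z))) ht
      have h3 := mul_le_mul_of_nonneg_right htV (conorm_nonneg (G := G) z (cd u z))
      have h4 := mul_nonneg (mul_nonneg ht he) (conorm_nonneg (G := G) z (cd u z))
      have h5 : t * varW G D c W z (cd u z) ≤ (1 + t * e) * conorm G z (cd u z) := by linarith
      have h6 := mul_le_mul_of_nonneg_right h5 (h.dens_pos z).le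
      simp only [g]
      linarith
    · simp [g, hzero z hz, varW_zero, conorm_zero]
  obtain ⟨hint, hle⟩ := setIntegral_step_le hK.measurableSet (hZ.differentiable one_ne_zero)
    hB ht htB (fun y _ => hdet y) ig hg0
  refine le_trans ?_ (hle.trans eI.le)
  have hts : ∀ y ∉ K, cd (fun y => u (y + t • Z y)) y = 0 := fun y hy => by
    rw [cd_step hu.1 hZ, hzero _ fun hs => hy (hsupp y hs)]
    funext i; simp [pull]
  rw [per, ← setIntegral_eq_integral_of_forall_compl_eq_zero (s := K) fun y hy => by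
    rw [hts y hy, conorm_zero, zero_mul]]
  have hcd : ContDiff ℝ 1 fun y => u (y + t • Z y) :=
    hu.1.comp (contDiff_id.add (hZ.const_smul t))
  refine setIntegral_mono_on (((h.continuous_conorm_cd hcd).mul
    h.continuous_dens).continuousOn.integrableOn_compact hK) hint hK.measurableSet fun y hy => ?_
  rw [cd_step hu.1 hZ]
  have := hdef y hy (cd u (y + t • Z y))
  rw [defect] at this
  simp only [g]
  linarith

/-- Pulling a competitor back by a small step along `W ∇ D c`. -/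
theorem weightVarPin (n : ℕ) : WeightVarPin n := by
  intro _ G D h o R c W e _ hc hW hWp he
  set K : Set (Fin n → ℝ) := {y | D o y ≤ R}
  have hK : IsCompact K := h.proper o R
  obtain ⟨r, hr, hKr⟩ := hK.isBounded.subset_closedBall_lt 0 0
  obtain ⟨φ, hφd⟩ : ∃ φ : ContDiffBump (0 : Fin n → ℝ), φ.rIn = r + 2 :=
    ⟨⟨r + 2, r + 3, by linarith, by linarith⟩, rfl⟩
  set Z : (Fin n → ℝ) → Fin n → ℝ := fun y => φ y • wfield G D c W y
  have hZ : ContDiff ℝ 1 Z := φ.contDiff.smul (contDiff_wfield h c hW)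
  have hZc : HasCompactSupport Z := φ.hasCompactSupport.smul_right
  obtain ⟨B₁, hB₁⟩ := hZc.exists_bound_of_continuous hZ.continuous
  obtain ⟨B₂, hB₂⟩ := (hZc.fderiv ℝ).exists_bound_of_continuous (hZ.continuous_fderiv one_ne_zero)
  obtain ⟨B, hBd⟩ : ∃ B, B = max (max B₁ B₂) 0 := ⟨_, rfl⟩
  have hB0 : 0 ≤ B := hBd ▸ le_max_right _ _
  have hB : ∀ y, ‖Z y‖ ≤ B ∧ ‖fderiv ℝ Z y‖ ≤ B := fun y => hBd ▸
    ⟨(hB₁ y).trans ((le_max_left _ _).trans (le_max_left _ _)),
      (hB₂ y).trans ((le_max_right _ _).trans (le_max_left _ _))⟩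
  have hev : ∀ y, ‖y‖ < r + 2 → Z =ᶠ[𝓝 y] wfield G D c W := fun y hy => by
    filter_upwards [φ.eventuallyEq_one_of_mem_ball (x := y) (by simpa [hφd] using hy)] with z hz
    simp [Z, hz]
  have hnear : ∀ y ∈ K, ‖y‖ < r + 2 := fun y hy => by
    have : ‖y‖ ≤ r := by simpa using hKr hy
    linarith
  have hWK : ∀ y ∈ K, 0 < W y := fun y hy => hWp y (by have : D o y ≤ R := hy; linarith)
  obtain ⟨τd, hτd, hdef⟩ := exists_defect_step h hK hZ (varW G D c W)
    (fun y _ hξ => continuousAt_varW h c hW y hξ) (fun y ξ k hk => varW_smul h c W y hk ξ)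
    (varW_zero c W) (fun y hy ξ hξ => by
      rw [(hev y (hnear y hy)).eq_of_nhds, (hev y (hnear y hy)).fderiv_eq]
      exact defect'_wfield_le h c hW y (hWK y hy).le hξ) he
  obtain ⟨τs, hτs, hsupp⟩ := exists_support_field h o R c hc hW hWp hKr hB0 (fun y => (hB y).1)
    (fun y hy => (hev y hy).eq_of_nhds)
  obtain ⟨τv, hτv, hvol⟩ := exists_vol_step h hK hZ hZc he
  obtain ⟨τj, hτj, hdetb⟩ := exists_det_step (n := n) B
  obtain ⟨Cj, hCj, hjac⟩ := h.exists_jacobian_bound r B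
  obtain ⟨md, hmd, hmdle⟩ : ∃ md : ℝ, 0 < md ∧ ∀ y, ‖y‖ ≤ r + 1 → md ≤ dens G y := by
    obtain ⟨y₀, -, hy₀⟩ := (isCompact_closedBall (0 : Fin n → ℝ) (r + 1)).exists_isMinOn
      ⟨0, by simp; linarith⟩ h.continuous_dens.continuousOn
    exact ⟨dens G y₀, h.dens_pos y₀, fun y hy => hy₀ (by simpa using hy)⟩
  obtain ⟨Cv, hCv0, hCv⟩ := exists_abs_varW_le h c hW hK
  obtain ⟨τ, hτ⟩ : ∃ τ : ℝ, τ = min (min (min τd τs) (min τv τj))
      (min 1 (min (1 / (B + 1)) (1 / Cv))) := ⟨_, rfl⟩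
  have hτpos : 0 < τ := by rw [hτ]; positivity
  have hle : τ ≤ τd ∧ τ ≤ τs ∧ τ ≤ τv ∧ τ ≤ τj ∧ τ ≤ 1 ∧ τ ≤ 1 / (B + 1) ∧ τ ≤ 1 / Cv := by
    rw [hτ]
    simp only [min_le_iff, le_refl, true_or, or_true, and_self]
  obtain ⟨hle1, hle2, hle3, hle4, hle5, hle6, hle7⟩ := hle
  refine ⟨τ, 2 * Cj / md, hτpos, by positivity, fun t u ht htτ hu => ?_⟩
  have htB : t * B < 1 := by
    calc t * B ≤ 1 / (B + 1) * B := mul_le_mul_of_nonneg_right (htτ.trans hle6) hB0
      _ < 1 := by rw [div_mul_eq_mul_div, div_lt_one (by positivity)]; linarith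
  have hdet : ∀ y, 1 / 2 ≤ (1 + t • opMat (fderiv ℝ Z y)).det :=
    fun y => hdetb t ⟨ht.le, htτ.trans hle4⟩ _ (hB y).2
  have hsupp' : ∀ y, y + t • Z y ∈ K → y ∈ K :=
    fun y hy => hsupp t ⟨ht.le, htτ.trans hle2⟩ y hy
  refine ⟨fun y => u (y + t • Z y), ⟨hu.1.comp (contDiff_id.add (hZ.const_smul t)), ?_,
    fun y => hu.2.2 _⟩, ?_, ?_, ?_⟩
  · refine closure_minimal (fun y hy => hsupp' y (hu.2.1 ?_)) hK.isClosed
    exact subset_tsupport _ hy
  · refine per_step_field h hK hu c hW hZ (fun y => (hB y).2) hCv ht.le he.le htB ?_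
      (fun y => le_trans (by norm_num) (hdet y)) (hdef t ⟨ht.le, htτ.trans hle1⟩) hsupp'
    calc t * Cv ≤ 1 / Cv * Cv := mul_le_mul_of_nonneg_right (htτ.trans hle7) hCv0.le
      _ = 1 := div_mul_cancel₀ _ hCv0.ne'
  · have h1 := (abs_le.1 (hvol t ⟨ht.le, htτ.trans hle3⟩ u hu)).1
    have e1 : (∫ y, |cd u y ⬝ᵥ Z y| * dens G y) =
        ∫ y, |normalPart G D c u y| * W y * dens G y := by
      refine integral_congr_ae (Eventually.of_forall fun y => ?_)
      simp only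
      by_cases hy : y ∈ K
      · rw [(hev y (hnear y hy)).eq_of_nhds, wfield, dotProduct_smul, smul_eq_mul, abs_mul,
          abs_of_pos (hWK y hy), mul_comm (W y)]
        rfl
      · simp [normalPart, pairing, cd_eq_zero_of_notMem fun hs => hy (hu.2.1 hs)]
    rw [e1] at h1
    linarith
  · exact h.gap_step hK hKr hu hZ hB hmd hmdle hCj hjac ⟨ht.le, htτ.trans hle5⟩ htB hdet hsupp'

end Vale.Agent.P219.CH.Sharp
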