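import Vale.Agent.P219.CH.StartPoint

/-!
# P219, the asymptotically sharp constant: objects and pins

See `notes/P219/helper9-exact.md`. A node of the tree of weights is a positive function `W`; a sign
step replaces it by `W * (1 + v)` and `W * (1 - v)`, each with probability one half.
-/

noncomputable section

open MeasureTheory ProbabilityTheory Set Filter Topology Matrix

namespace Vale.Agent.P219.CH.Sharp

variable {n : ℕ}

/-- The sharp constant holds in all large dimensions up to any factor below one. -/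
def AsymptoticCH : Prop :=
  ∀ ε : ℝ, 0 < ε → ∃ n₀ : ℕ, ∀ n : ℕ, n₀ ≤ n →
    ∀ (G : (Fin n → ℝ) → Matrix (Fin n) (Fin n) ℝ) (D : (Fin n → ℝ) → (Fin n → ℝ) → ℝ),
    IsCH G D → ∀ (Ω : Set (Fin n → ℝ)) (A : ℝ), MeasurableSet Ω → Bornology.IsBounded Ω →
      PerimeterLE G Ω A →
      (1 - ε) * ((n : ℝ) * (volume (Metric.ball (0 : EuclideanSpace ℝ (Fin n)) 1)).toReal ^ (1 / n : ℝ))
        * volG G Ω ^ (((n : ℝ) - 1) / n) ≤ A

/-- The measure `|du| dvol`. -/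
def pm (G : (Fin n → ℝ) → Matrix (Fin n) (Fin n) ℝ) (u : (Fin n → ℝ) → ℝ) :
    Measure (Fin n → ℝ) :=
  volume.withDensity fun y => ENNReal.ofReal (conorm G y (cd u y) * dens G y)

/-- An almost minimiser of the penalised functional among competitors in the ball. -/
def NearMin (G : (Fin n → ℝ) → Matrix (Fin n) (Fin n) ℝ)
    (D : (Fin n → ℝ) → (Fin n → ℝ) → ℝ) (o : Fin n → ℝ) (R P₀ v₀ l M δ : ℝ)
    (u : (Fin n → ℝ) → ℝ) : Prop :=
  Comp {y | D o y ≤ R} u ∧ per G u ≤ P₀ ∧ v₀ ≤ vol G u ∧ gap G u ≤ δ ∧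
    ∀ u', Comp {y | D o y ≤ R} u' →
      per G u - l * vol G u ^ (((n : ℝ) - 1) / n) + M * gap G u ≤
        per G u' - l * vol G u' ^ (((n : ℝ) - 1) / n) + M * gap G u' + δ

/-- An orthonormal frame at `x`. -/
def frame (G : (Fin n → ℝ) → Matrix (Fin n) (Fin n) ℝ) (x : Fin n → ℝ) :
    Matrix (Fin n) (Fin n) ℝ :=
  Classical.epsilon fun A => A.transpose = A ∧ A * G x * A = 1 ∧ A * A = (G x)⁻¹ ∧
    |A.det| = (dens G x)⁻¹

/-- The coordinates of the logarithm of `y` at `c`, up to a sign. -/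
def ucoord (G : (Fin n → ℝ) → Matrix (Fin n) (Fin n) ℝ) (D : (Fin n → ℝ) → (Fin n → ℝ) → ℝ)
    (c y : Fin n → ℝ) : Fin n → ℝ :=
  frame G c *ᵥ cd (D y) c

/-! ## The tree of weights -/

section Tree

variable {X Y : Type*}

/-- One sign step. -/
def stepAvg (v : X → ℝ) (F : (X → ℝ) → ℝ) (W : X → ℝ) : ℝ :=
  (F (fun y => W y * (1 + v y)) + F (fun y => W y * (1 - v y))) / 2

/-- Sign steps along a list of coordinates. -/
def blockAvg (v : Fin n → X → ℝ) : List (Fin n) → ((X → ℝ) → ℝ) → (X → ℝ) → ℝ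
  | [], F, W => F W
  | k :: ks, F, W => stepAvg (v k) (blockAvg v ks F) W

/-- The average of `F` over the weights after `j` blocks, the centre being chosen by `ctr`. -/
def chanAvg (ctr : (X → ℝ) → Y) (v : Y → Fin n → X → ℝ) : ℕ → ((X → ℝ) → ℝ) → (X → ℝ) → ℝ
  | 0, F, W => F W
  | j + 1, F, W => blockAvg (v (ctr W)) (List.finRange n) (chanAvg ctr v j F) W

/-- The weights reached from `W` along a list of coordinates. -/
def children (v : Fin n → X → ℝ) : List (Fin n) → (X → ℝ) → Set (X → ℝ)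
  | [], W => {W}
  | k :: ks, W => children v ks (fun y => W y * (1 + v k y)) ∪
      children v ks (fun y => W y * (1 - v k y))

/-- All weights that can be reached in `j` blocks with centres in `N`. -/
def nodes (N : Set Y) (v : Y → Fin n → X → ℝ) : ℕ → Set (X → ℝ)
  | 0 => {fun _ => 1}
  | j + 1 => ⋃ W ∈ nodes N v j, ⋃ c ∈ N, children (v c) (List.finRange n) W

/-- The entropy of a weight. -/
def ent [MeasurableSpace X] (μ : Measure X) (W : X → ℝ) : ℝ :=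
  ∫ y, W y * (Real.log (∫ z, W z ∂μ) - Real.log (W y)) ∂μ

end Tree

/-- The steps of a block with precision `δ`. -/
def vstep (G : (Fin n → ℝ) → Matrix (Fin n) (Fin n) ℝ) (D : (Fin n → ℝ) → (Fin n → ℝ) → ℝ)
    (δ : ℝ) (c : Fin n → ℝ) (k : Fin n) (y : Fin n → ℝ) : ℝ :=
  Real.sqrt δ * ucoord G D c y k

/-! ## Part A: the first variation along `W ∇ D c` -/

/-- The first variation density of the field `W ∇ D c`. -/
def varW (G : (Fin n → ℝ) → Matrix (Fin n) (Fin n) ℝ) (D : (Fin n → ℝ) → (Fin n → ℝ) → ℝ)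
    (c : Fin n → ℝ) (W : (Fin n → ℝ) → ℝ) (y ξ : Fin n → ℝ) : ℝ :=
  (((n : ℝ) - 1) * W y + pairing G y (cd W y) (cd (D c) y)) * conorm G y ξ
    - pairing G y ξ (cd (D c) y) * pairing G y ξ (cd W y) / conorm G y ξ

/-- Pulling a competitor back by a small step along `W ∇ D c`. -/
def WeightVarPin (n : ℕ) : Prop :=
  2 ≤ n → ∀ (G : (Fin n → ℝ) → Matrix (Fin n) (Fin n) ℝ)
    (D : (Fin n → ℝ) → (Fin n → ℝ) → ℝ), IsCH G D →
    ∀ (o : Fin n → ℝ) (R : ℝ) (c : Fin n → ℝ) (W : (Fin n → ℝ) → ℝ) (e : ℝ), 0 < R → D o c ≤ R →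
      ContDiff ℝ 1 W → (∀ y, D o y ≤ R + 1 → 0 < W y) → 0 < e →
    ∃ τ C : ℝ, 0 < τ ∧ 0 ≤ C ∧ ∀ t u, 0 < t → t ≤ τ → Comp {y | D o y ≤ R} u →
      ∃ u', Comp {y | D o y ≤ R} u' ∧
        per G u' ≤ per G u - t * (∫ y, varW G D c W y (cd u y) * dens G y) + t * e * per G u ∧
        vol G u - t * (∫ y, |normalPart G D c u y| * W y * dens G y) - t * e * per G u ≤ vol G u' ∧
        gap G u' ≤ (1 + C * t) * gap G u

/-! ## Part E: most Gaussian shifts are at middle levels -/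

/-- The truncated level cost. -/
def ltau (τ v : ℝ) : ℝ := -Real.log (v * (1 - v) + τ)

/-- Near minimisers: the Gaussian averages have middle values at most shifted boundary points. -/
def GoodShiftPin (n : ℕ) : Prop :=
  2 ≤ n → ∀ (G : (Fin n → ℝ) → Matrix (Fin n) (Fin n) ℝ)
    (D : (Fin n → ℝ) → (Fin n → ℝ) → ℝ), IsCH G D →
    ∀ (o : Fin n → ℝ) (R P₀ v₀ l M : ℝ) (q : ℕ) (e : ℝ), 0 < R → 0 ≤ P₀ → 0 < v₀ → 0 < l → 0 ≤ M →
      1 ≤ q → 0 < e →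
    ∃ s₀ : ℝ, 0 < s₀ ∧ ∀ s, 0 < s → s < s₀ → ∃ δ₀ : ℝ, 0 < δ₀ ∧
      ∀ u, NearMin G D o R P₀ v₀ l M δ₀ u →
        ∫ y, avg G s (fun z => ltau (s ^ q) (avg G s u z)) y ∂pm G u ≤ 3 * per G u + e

/-! ## Part D: the terminal inequality -/

/-- The coordinate ball of radius `R s` around `y`. -/
def qball (G : (Fin n → ℝ) → Matrix (Fin n) (Fin n) ℝ) (s R : ℝ) (y : Fin n → ℝ) :
    Set (Fin n → ℝ) :=
  {z | qf G y (z - y) ≤ R ^ 2 * s ^ 2}

/-- The Gaussian mass near `y` seen from the shift `b`. -/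
def shiftMass (G : (Fin n → ℝ) → Matrix (Fin n) (Fin n) ℝ) (u : (Fin n → ℝ) → ℝ) (s R : ℝ)
    (y : Fin n → ℝ) (b : EuclideanSpace ℝ (Fin n)) : ℝ :=
  ∫ z in qball G s R y,
    Real.exp (-(qf G y (z - toFrame (frame G y) s y b) / (2 * s ^ 2))) ∂pm G u

/-- The Gaussian lower bound for the terminal entropy at `y`. -/
def termLower (G : (Fin n → ℝ) → Matrix (Fin n) (Fin n) ℝ) (u : (Fin n → ℝ) → ℝ) (s R : ℝ)
    (y : Fin n → ℝ) : ℝ :=
  ∫ b, (‖b‖ ^ 2 / 2 + Real.log (shiftMass G u s R y b)) ∂stdGaussian (EuclideanSpace ℝ (Fin n))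

/-- The crude lower bound for the terminal entropy at `y`. -/
def crudeLower (G : (Fin n → ℝ) → Matrix (Fin n) (Fin n) ℝ) (D : (Fin n → ℝ) → (Fin n → ℝ) → ℝ)
    (u : (Fin n → ℝ) → ℝ) (s : ℝ) (y : Fin n → ℝ) : ℝ :=
  Real.log (∫ z, Real.exp (-(2 * D y z / s ^ 2)) ∂pm G u)

/-- The terminal entropy at `y` of `J` blocks of precision `1 / (s ^ 2 J)`. -/
def termAt (G : (Fin n → ℝ) → Matrix (Fin n) (Fin n) ℝ) (D : (Fin n → ℝ) → (Fin n → ℝ) → ℝ)
    (u : (Fin n → ℝ) → ℝ) (ctr : ((Fin n → ℝ) → ℝ) → (Fin n → ℝ)) (s : ℝ) (J : ℕ)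
    (y : Fin n → ℝ) : ℝ :=
  chanAvg ctr (vstep G D (1 / (s ^ 2 * J))) J
    (fun W => W y * (Real.log (∫ z, W z ∂pm G u) - Real.log (W y))) fun _ => 1

/-- The expected squared distance from `y` to the centres, times the precision. -/
def centreCost (G : (Fin n → ℝ) → Matrix (Fin n) (Fin n) ℝ) (D : (Fin n → ℝ) → (Fin n → ℝ) → ℝ)
    (ctr : ((Fin n → ℝ) → ℝ) → (Fin n → ℝ)) (s : ℝ) (J : ℕ) (y : Fin n → ℝ) : ℝ :=
  (J : ℝ)⁻¹ * ∑ j ∈ Finset.range J,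
    chanAvg ctr (vstep G D (1 / (s ^ 2 * J))) j (fun W => W y * D (ctr W) y) fun _ => 1

/-- Comparison of the channel with the Gaussian channel of the frozen metric. -/
def TerminalPin (n : ℕ) : Prop :=
  2 ≤ n → ∀ (G : (Fin n → ℝ) → Matrix (Fin n) (Fin n) ℝ)
    (D : (Fin n → ℝ) → (Fin n → ℝ) → ℝ), IsCH G D →
    ∀ (o : Fin n → ℝ) (R Rb e : ℝ), 0 < R → 1 ≤ Rb → 0 < e →
    ∃ s₁ C : ℝ, 0 < s₁ ∧ 0 ≤ C ∧ ∀ s, 0 < s → s < s₁ → ∃ J₀ : ℕ, ∀ J, J₀ ≤ J →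
      ∀ u ctr y, Comp {z | D o z ≤ R} u → (∀ W, D o (ctr W) ≤ R) → D o y ≤ R →
        0 < (pm G u (qball G s Rb y)).toReal →
        crudeLower G D u s y ≤ termAt G D u ctr s J y ∧
        termLower G u s Rb y - e - C * centreCost G D ctr s J y ≤ termAt G D u ctr s J y

/-! ## Part F1: integrating the pointwise lower bounds -/

/-- The pointwise lower bounds and middle levels give the entropy of a flat hypersurface. -/
def LowerPin (ε C : ℝ) (q : ℕ) (n : ℕ) : Prop :=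
  2 ≤ n → ∀ (G : (Fin n → ℝ) → Matrix (Fin n) (Fin n) ℝ)
    (D : (Fin n → ℝ) → (Fin n → ℝ) → ℝ), IsCH G D →
    ∀ (o : Fin n → ℝ) (R P₀ v₀ e : ℝ), 0 < R → 0 ≤ P₀ → 0 < v₀ → 0 < e →
    ∃ Rb s₂ : ℝ, 1 ≤ Rb ∧ 0 < s₂ ∧ ∀ s, 0 < s → s < s₂ → ∃ δ₁ : ℝ, 0 < δ₁ ∧
      ∀ u, Comp {y | D o y ≤ R} u → per G u ≤ P₀ → v₀ ≤ vol G u → gap G u ≤ δ₁ →
      ∫ y, avg G s (fun z => ltau (s ^ q) (avg G s u z)) y ∂pm G u ≤ 4 * per G u →
      ∀ f, ContinuousOn f {y | D o y ≤ R} → (∀ y, D o y ≤ R →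
          0 < (pm G u (qball G s Rb y)).toReal →
          crudeLower G D u s y ≤ f y ∧ termLower G u s Rb y ≤ f y) →
      per G u * (((n : ℝ) - 1) * Real.log s + ((n : ℝ) - 1) / 2 * Real.log (2 * Real.pi)
          + (n : ℝ) / 2 - ε * n - C) - e ≤ ∫ y, f y ∂pm G u

end Vale.Agent.P219.CH.Sharp
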