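import Vale.Agent.P219.Sharp.Defs

/-!
# P219, the sharp constant: the entropy gain along the channel
-/

noncomputable section

open MeasureTheory Set Filter Topology Matrix

namespace Vale.Agent.P219.CH.Sharp

/-- At almost minimisers the channel lowers the entropy by as much as on a round sphere, and the
mean squared distance to the centres is paid from that drop. -/
def GainPin (n : ℕ) : Prop :=
  2 ≤ n → ∀ (G : (Fin n → ℝ) → Matrix (Fin n) (Fin n) ℝ)
    (D : (Fin n → ℝ) → (Fin n → ℝ) → ℝ), IsCH G D →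
    ∀ (o : Fin n → ℝ) (R P₀ v₀ l M θ s e : ℝ), 0 < R → 0 ≤ P₀ → 0 < v₀ → 0 < l → 0 ≤ M → 1 < θ →
      0 < s → 0 < e →
    ∃ κ : ℝ, 0 < κ ∧ ∃ J₀ : ℕ, ∀ J, J₀ ≤ J → ∀ N : Set (Fin n → ℝ), N.Finite →
      (∀ c ∈ N, D o c ≤ R) →
      ∃ δ₀ : ℝ, 0 < δ₀ ∧ ∀ u, NearMin G D o R P₀ v₀ l M δ₀ u → 0 < per G u →
        ∀ ctr : ((Fin n → ℝ) → ℝ) → (Fin n → ℝ), (∀ W, ctr W ∈ N) →
          (∀ W, ContinuousOn W {y | D o y ≤ R} → (∀ y, D o y ≤ R → 0 < W y) →
            ∀ k, |∫ y, W y * ucoord G D (ctr W) y k ∂pm G u| ≤ κ * ∫ y, W y ∂pm G u) →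
          ((n : ℝ) - 1) / 2 * per G u *
              Real.log (1 + ((n : ℝ) - 1) /
                (s ^ 2 * (l * (((n : ℝ) - 1) / n) * θ * vol G u ^ (((n : ℝ) - 1) / n - 1)) ^ 2))
              + chanAvg ctr (vstep G D (1 / (s ^ 2 * J))) J (ent (pm G u)) (fun _ => 1) ≤
            per G u * Real.log (per G u) + e ∧
          (∫ y, centreCost G D ctr s J y ∂pm G u) / (2 * s ^ 2)
              + chanAvg ctr (vstep G D (1 / (s ^ 2 * J))) J (ent (pm G u)) (fun _ => 1) ≤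
            per G u * Real.log (per G u) + e

end Vale.Agent.P219.CH.Sharp
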