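import Vale.Agent.P219.Sharp.Tree
import Vale.Agent.P219.Gauss.Rotation

/-!
# P219, the sharp constant: log-Laplace transforms of compactly carried measures
-/

noncomputable section

open MeasureTheory ProbabilityTheory Set Filter Topology
open scoped RealInnerProductSpace

namespace Vale.Agent.P219.CH.Sharp

variable {X : Type*} [MeasurableSpace X] {ν : Measure X}

/-- The logarithm of the integral of `exp f`. -/
def lse (ν : Measure X) (f : X → ℝ) : ℝ := Real.log (∫ z, Real.exp (f z) ∂ν)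

/-- The mean of `g` tilted by `f`. -/
def tm (ν : Measure X) (f g : X → ℝ) : ℝ :=
  (∫ z, g z * Real.exp (f z) ∂ν) / ∫ z, Real.exp (f z) ∂ν

/-- The variance of `g` tilted by `f`. -/
def tv (ν : Measure X) (f g : X → ℝ) : ℝ := tm ν f (fun z => (g z - tm ν f g) ^ 2)

variable [TopologicalSpace X] [OpensMeasurableSpace X] [T2Space X] [IsFiniteMeasure ν] [NeZero ν]
  {K : Set X} {f g g' d : X → ℝ}

lemma posOn_exp (hf : ContinuousOn f K) : PosOn K fun z => Real.exp (f z) :=
  ⟨hf.rexp, fun _ _ => Real.exp_pos _⟩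

lemma tilt_pos (hK : IsCompact K) (hν : ∀ᵐ z ∂ν, z ∈ K) (hf : ContinuousOn f K) :
    0 < ∫ z, Real.exp (f z) ∂ν :=
  integral_pos_of_posOn hK hν (posOn_exp hf)

lemma tm_const (hK : IsCompact K) (hν : ∀ᵐ z ∂ν, z ∈ K) (hf : ContinuousOn f K) (a : ℝ) :
    tm ν f (fun _ => a) = a := by
  rw [tm, integral_const_mul, mul_div_assoc, div_self (tilt_pos hK hν hf).ne', mul_one]

lemma tm_add (hK : IsCompact K) (hν : ∀ᵐ z ∂ν, z ∈ K) (hf : ContinuousOn f K)
    (hg : ContinuousOn g K) (hg' : ContinuousOn g' K) :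
    tm ν f (fun z => g z + g' z) = tm ν f g + tm ν f g' := by
  simp only [tm, add_mul]
  rw [integral_add (f := fun z => g z * Real.exp (f z)) (g := fun z => g' z * Real.exp (f z))
    (integrable_carrier hK hν (hg.mul hf.rexp)) (integrable_carrier hK hν (hg'.mul hf.rexp)), add_div]

lemma tm_const_mul (a : ℝ) : tm ν f (fun z => a * g z) = a * tm ν f g := by
  simp only [tm, mul_assoc]
  rw [integral_const_mul, mul_div_assoc]

lemma tm_mono (hK : IsCompact K) (hν : ∀ᵐ z ∂ν, z ∈ K) (hf : ContinuousOn f K)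
    (hg : ContinuousOn g K) (hg' : ContinuousOn g' K) (hle : ∀ z ∈ K, g z ≤ g' z) :
    tm ν f g ≤ tm ν f g' := by
  refine div_le_div_of_nonneg_right (integral_mono_ae (integrable_carrier hK hν (hg.mul hf.rexp))
    (integrable_carrier hK hν (hg'.mul hf.rexp)) ?_) (tilt_pos hK hν hf).le
  filter_upwards [hν] with z hz
  exact mul_le_mul_of_nonneg_right (hle z hz) (Real.exp_pos _).le

lemma abs_tm_le (hK : IsCompact K) (hν : ∀ᵐ z ∂ν, z ∈ K) (hf : ContinuousOn f K)
    (hg : ContinuousOn g K) {a : ℝ} (hle : ∀ z ∈ K, |g z| ≤ a) : |tm ν f g| ≤ a := by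
  rw [abs_le]
  refine ⟨?_, ?_⟩
  · rw [← tm_const hK hν hf (-a)]
    exact tm_mono hK hν hf continuousOn_const hg fun z hz => (abs_le.1 (hle z hz)).1
  · rw [← tm_const hK hν hf a]
    exact tm_mono hK hν hf hg continuousOn_const fun z hz => (abs_le.1 (hle z hz)).2

lemma tm_congr (hν : ∀ᵐ z ∂ν, z ∈ K) (he : ∀ z ∈ K, g z = g' z) : tm ν f g = tm ν f g' := by
  rw [tm, tm, integral_congr_ae (g := fun z => g' z * Real.exp (f z))]
  filter_upwards [hν] with z hz
  rw [he z hz]

lemma lse_mono (hK : IsCompact K) (hν : ∀ᵐ z ∂ν, z ∈ K) (hf : ContinuousOn f K)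
    (hg : ContinuousOn g K) (hle : ∀ z ∈ K, f z ≤ g z) : lse ν f ≤ lse ν g := by
  refine Real.log_le_log (tilt_pos hK hν hf) (integral_mono_ae (integrable_carrier hK hν hf.rexp)
    (integrable_carrier hK hν hg.rexp) ?_)
  filter_upwards [hν] with z hz
  exact Real.exp_le_exp.2 (hle z hz)

lemma lse_add_const (hK : IsCompact K) (hν : ∀ᵐ z ∂ν, z ∈ K) (hf : ContinuousOn f K) (a : ℝ) :
    lse ν (fun z => f z + a) = lse ν f + a := by
  simp only [lse, Real.exp_add]
  rw [integral_mul_const, Real.log_mul (tilt_pos hK hν hf).ne' (Real.exp_pos a).ne', Real.log_exp]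

lemma lse_add_eq (hK : IsCompact K) (hν : ∀ᵐ z ∂ν, z ∈ K) (hf : ContinuousOn f K)
    (hd : ContinuousOn d K) :
    lse ν (fun z => f z + d z) = lse ν f + Real.log (tm ν f fun z => Real.exp (d z)) := by
  have h1 := tilt_pos hK hν hf
  have h2 : 0 < ∫ z, Real.exp (d z) * Real.exp (f z) ∂ν := by
    simpa [← Real.exp_add] using tilt_pos hK hν (hd.add hf)
  rw [lse, lse, tm, Real.log_div h2.ne' h1.ne', add_sub_cancel]
  congr 1
  exact integral_congr_ae (Eventually.of_forall fun z => by simp only [Real.exp_add]; ring)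

lemma abs_lse_add_sub_le (hK : IsCompact K) (hν : ∀ᵐ z ∂ν, z ∈ K) (hf : ContinuousOn f K)
    (hd : ContinuousOn d K) {a : ℝ} (hle : ∀ z ∈ K, |d z| ≤ a) :
    |lse ν (fun z => f z + d z) - lse ν f| ≤ a := by
  rw [abs_le]
  constructor
  · have := lse_mono hK hν (f := fun z => f z + -a) (g := fun z => f z + d z)
      (hf.add continuousOn_const) (hf.add hd) fun z hz => by linarith [(abs_le.1 (hle z hz)).1]
    rw [lse_add_const hK hν hf] at this
    linarith
  · have := lse_mono hK hν (f := fun z => f z + d z) (g := fun z => f z + a)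
      (hf.add hd) (hf.add continuousOn_const) fun z hz => by linarith [(abs_le.1 (hle z hz)).2]
    rw [lse_add_const hK hν hf] at this
    linarith

lemma tv_eq (hK : IsCompact K) (hν : ∀ᵐ z ∂ν, z ∈ K) (hf : ContinuousOn f K)
    (hg : ContinuousOn g K) (c : ℝ) :
    tm ν f (fun z => (g z - c) ^ 2) = tv ν f g + (tm ν f g - c) ^ 2 := by
  have hg2 : ContinuousOn (fun z => g z ^ 2) K := hg.pow 2
  have hexp : ∀ c : ℝ, tm ν f (fun z => (g z - c) ^ 2) =
      tm ν f (fun z => g z ^ 2) - 2 * c * tm ν f g + c ^ 2 := fun c => by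
    rw [show (fun z => (g z - c) ^ 2) = fun z => g z ^ 2 + ((-2 * c) * g z + c ^ 2) from
      funext fun z => by ring, tm_add (g' := fun z => (-2 * c) * g z + c ^ 2) hK hν hf hg2
        ((continuousOn_const.mul hg).add continuousOn_const),
      tm_add (g := fun z => (-2 * c) * g z) hK hν hf (continuousOn_const.mul hg) continuousOn_const,
      tm_const_mul, tm_const hK hν hf]
    ring
  rw [tv, hexp, hexp]
  ring

lemma tv_eq_sq (hK : IsCompact K) (hν : ∀ᵐ z ∂ν, z ∈ K) (hf : ContinuousOn f K)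
    (hg : ContinuousOn g K) : tv ν f g = tm ν f (fun z => g z ^ 2) - tm ν f g ^ 2 := by
  have := tv_eq hK hν hf hg 0
  simp only [sub_zero] at this
  linarith

lemma tv_nonneg (hK : IsCompact K) (hν : ∀ᵐ z ∂ν, z ∈ K) (hf : ContinuousOn f K)
    (hg : ContinuousOn g K) : 0 ≤ tv ν f g := by
  rw [tv, ← tm_const hK hν hf 0]
  exact tm_mono hK hν hf continuousOn_const ((hg.sub continuousOn_const).pow 2) fun z _ => sq_nonneg _

lemma tv_le (hK : IsCompact K) (hν : ∀ᵐ z ∂ν, z ∈ K) (hf : ContinuousOn f K)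
    (hg : ContinuousOn g K) {a : ℝ} (hle : ∀ z ∈ K, |g z| ≤ a) : tv ν f g ≤ a ^ 2 := by
  rw [tv_eq_sq hK hν hf hg]
  have := tm_mono hK hν hf (hg.pow 2) continuousOn_const (g' := fun _ => a ^ 2) fun z hz => by
    rw [Pi.pow_apply, ← sq_abs]; exact pow_le_pow_left₀ (abs_nonneg _) (hle z hz) 2
  rw [tm_const hK hν hf] at this
  have h2 := sq_nonneg (tm ν f g)
  simp only [Pi.pow_def] at this
  linarith

lemma tv_smul (a : ℝ) : tv ν f (fun z => a * g z) = a ^ 2 * tv ν f g := by
  simp only [tv, tm_const_mul]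
  rw [← tm_const_mul (a := a ^ 2)]
  congr 1
  funext z; ring

/-- A bounded change of the tilt. -/
lemma tv_change (hK : IsCompact K) (hν : ∀ᵐ z ∂ν, z ∈ K) (hf : ContinuousOn f K)
    (hd : ContinuousOn d K) (hg : ContinuousOn g K) {a : ℝ} (hle : ∀ z ∈ K, |d z| ≤ a) :
    Real.exp (-(2 * a)) * tv ν f g ≤ tv ν (fun z => f z + d z) g := by
  set c := tm ν (fun z => f z + d z) g
  set q : X → ℝ := fun z => (g z - c) ^ 2
  have hq : ContinuousOn q K := (hg.sub continuousOn_const).pow 2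
  have h1 : Real.exp (-(2 * a)) * tm ν f q ≤ tm ν (fun z => f z + d z) q := by
    have hZ := tilt_pos hK hν hf
    have hZ' := tilt_pos hK hν (hf.add hd)
    have hN0 : 0 ≤ ∫ z, q z * Real.exp (f z) ∂ν :=
      integral_nonneg fun z => mul_nonneg (sq_nonneg _) (Real.exp_pos _).le
    have hN : Real.exp (-a) * ∫ z, q z * Real.exp (f z) ∂ν ≤
        ∫ z, q z * Real.exp (f z + d z) ∂ν := by
      rw [← integral_const_mul]
      refine integral_mono_ae ((integrable_carrier hK hν (hq.mul hf.rexp)).const_mul _)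
        (integrable_carrier hK hν (hq.mul (hf.add hd).rexp)) ?_
      filter_upwards [hν] with z hz
      rw [mul_left_comm, ← Real.exp_add, add_comm]
      exact mul_le_mul_of_nonneg_left (Real.exp_le_exp.2 (by linarith [(abs_le.1 (hle z hz)).1]))
        (sq_nonneg _)
    have hZb : ∫ z, Real.exp (f z + d z) ∂ν ≤ Real.exp a * ∫ z, Real.exp (f z) ∂ν := by
      rw [← integral_const_mul]
      refine integral_mono_ae (integrable_carrier hK hν (hf.add hd).rexp)
        ((integrable_carrier hK hν hf.rexp).const_mul _) ?_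
      filter_upwards [hν] with z hz
      rw [← Real.exp_add]
      exact Real.exp_le_exp.2 (by linarith [(abs_le.1 (hle z hz)).2])
    rw [tm, tm]
    calc Real.exp (-(2 * a)) * ((∫ z, q z * Real.exp (f z) ∂ν) / ∫ z, Real.exp (f z) ∂ν)
        = (Real.exp (-a) * ∫ z, q z * Real.exp (f z) ∂ν) /
            (Real.exp a * ∫ z, Real.exp (f z) ∂ν) := by
          rw [show -(2 * a) = -a - a by ring, Real.exp_sub]; field_simp
      _ ≤ _ := div_le_div₀ (hN.trans' (by positivity)) hN hZ' hZb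
  refine le_trans (mul_le_mul_of_nonneg_left ?_ (Real.exp_pos _).le) h1
  rw [tv_eq hK hν hf hg c]
  linarith [sq_nonneg (tm ν f g - c)]

/-- Second order expansion with a cubic error. -/
lemma abs_lse_expand (hK : IsCompact K) (hν : ∀ᵐ z ∂ν, z ∈ K) (hf : ContinuousOn f K)
    (hg : ContinuousOn g K) {b : ℝ} (hb : 0 ≤ b) (hle : ∀ z ∈ K, |g z| ≤ b) :
    |lse ν (fun z => f z + g z) - lse ν f - tm ν f g - tv ν f g / 2| ≤ 200 * b ^ 3 := by
  have hm := abs_le.1 (abs_tm_le hK hν hf hg hle)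
  have hv0 := tv_nonneg hK hν hf hg
  have hv1 := tv_le hK hν hf hg hle
  rcases le_or_gt b (1 / 8) with hbs | hbl
  swap
  · have h1 := abs_le.1 (abs_lse_add_sub_le hK hν hf hg hle)
    have h2 : b ≤ 8 * b ^ 2 := by nlinarith
    have h3 : b ^ 2 ≤ 8 * b ^ 3 := by nlinarith [sq_nonneg b]
    rw [abs_le]
    constructor <;> nlinarith
  rw [lse_add_eq hK hν hf hg]
  set θ := tm ν f (fun z => Real.exp (g z) - (1 + g z + g z ^ 2 / 2))
  have hθc : ContinuousOn (fun z => Real.exp (g z) - (1 + g z + g z ^ 2 / 2)) K :=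
    hg.rexp.sub ((continuousOn_const.add hg).add ((hg.pow 2).div_const 2))
  have hθ : |θ| ≤ b ^ 3 := by
    refine abs_tm_le hK hν hf hθc fun z hz => ?_
    have h1 := Real.exp_bound (x := g z) (by linarith [hle z hz]) (n := 3) (by norm_num)
    simp only [Finset.sum_range_succ, Finset.range_zero, Finset.sum_empty, Nat.factorial] at h1
    norm_num at h1
    calc |Real.exp (g z) - (1 + g z + g z ^ 2 / 2)| ≤ |g z| ^ 3 * (2 / 9) := h1
      _ ≤ |g z| ^ 3 * 1 := mul_le_mul_of_nonneg_left (by norm_num) (by positivity)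
      _ ≤ b ^ 3 := by rw [mul_one]; exact pow_le_pow_left₀ (abs_nonneg _) (hle z hz) 3
  set m₁ := tm ν f g
  set m₂ := tm ν f (fun z => g z ^ 2)
  have hq2 : ContinuousOn (fun z => 1 / 2 * g z ^ 2) K := continuousOn_const.mul (hg.pow 2)
  have hq3 : ContinuousOn (fun z => 1 / 2 * g z ^ 2 + (Real.exp (g z) - (1 + g z + g z ^ 2 / 2))) K :=
    hq2.add hθc
  have hq4 : ContinuousOn (fun z => g z + (1 / 2 * g z ^ 2 +
      (Real.exp (g z) - (1 + g z + g z ^ 2 / 2)))) K := hg.add hq3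
  have he : tm ν f (fun z => Real.exp (g z)) = 1 + (m₁ + m₂ / 2 + θ) := by
    rw [show (fun z => Real.exp (g z)) = fun z => 1 + (g z + (1 / 2 * g z ^ 2 +
      (Real.exp (g z) - (1 + g z + g z ^ 2 / 2)))) from funext fun z => by ring,
      tm_add hK hν hf continuousOn_const hq4, tm_add hK hν hf hg hq3,
      tm_add hK hν hf hq2 hθc, tm_const_mul, tm_const hK hν hf]
    simp only [m₁, m₂, θ]
    ring
  have hm2 : 0 ≤ m₂ ∧ m₂ ≤ b ^ 2 := by
    constructor
    · rw [← tm_const hK hν hf 0]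
      exact tm_mono hK hν hf continuousOn_const (hg.pow 2) fun z _ => sq_nonneg (g z)
    · rw [← tm_const hK hν hf (b ^ 2)]
      refine tm_mono hK hν hf (hg.pow 2) continuousOn_const fun z hz => ?_
      rw [← sq_abs]; exact pow_le_pow_left₀ (abs_nonneg _) (hle z hz) 2
  obtain ⟨hθ1, hθ2⟩ := abs_le.1 hθ
  set x := m₁ + m₂ / 2 + θ
  have hb2 : b ^ 2 ≤ b / 8 := by nlinarith
  have hb3 : b ^ 3 ≤ b ^ 2 / 8 := by nlinarith [sq_nonneg b]
  have hxm : |x - m₁| ≤ b ^ 2 := by
    rw [abs_le]; constructor <;> simp only [x] <;> linarith [hm2.1, hm2.2, sq_nonneg b]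
  have hx : |x| ≤ 2 * b := by
    rw [abs_le]; constructor <;> linarith [(abs_le.1 hxm).1, (abs_le.1 hxm).2]
  have hlog := Real.abs_log_sub_add_sum_range_le (x := -x) (by rw [abs_neg]; linarith) 2
  simp only [Finset.sum_range_succ, Finset.range_zero, Finset.sum_empty, abs_neg, sub_neg_eq_add]
    at hlog
  norm_num at hlog
  have hlog' : |Real.log (1 + x) - x + x ^ 2 / 2| ≤ 11 * b ^ 3 := by
    refine le_trans (le_of_eq (by rw [show Real.log (1 + x) - x + x ^ 2 / 2 =
      -x + x ^ 2 / 2 + Real.log (1 + x) by ring])) (hlog.trans ?_)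
    rw [div_le_iff₀ (by linarith)]
    have := pow_le_pow_left₀ (abs_nonneg x) hx 3
    calc |x| ^ 3 ≤ 8 * b ^ 3 := by linarith [show (2 * b) ^ 3 = 8 * b ^ 3 by ring]
      _ = 11 * b ^ 3 * (8 / 11) := by ring
      _ ≤ 11 * b ^ 3 * (1 - |x|) := mul_le_mul_of_nonneg_left (by linarith) (by positivity)
  have hsq : |x ^ 2 - m₁ ^ 2| ≤ 3 * b ^ 3 := by
    rw [sq_sub_sq, abs_mul]
    calc |x + m₁| * |x - m₁| ≤ 3 * b * b ^ 2 :=
          mul_le_mul (by rw [abs_le]; constructor <;> linarith [(abs_le.1 hx).1, (abs_le.1 hx).2])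
            hxm (abs_nonneg _) (by linarith)
      _ = _ := by ring
  rw [he, tv_eq_sq hK hν hf hg]
  show |lse ν f + Real.log (1 + x) - lse ν f - m₁ - (m₂ - m₁ ^ 2) / 2| ≤ _
  have hxe : x = m₁ + m₂ / 2 + θ := rfl
  rw [abs_le] at hlog' hsq ⊢
  constructor <;> linarith [hlog'.1, hlog'.2, hsq.1, hsq.2, pow_nonneg hb 3]

/-- Variances of several functions are compared through pairs of points. -/
lemma sum_tv_le {ι : Type*} [Fintype ι] (hK : IsCompact K) (hν : ∀ᵐ z ∂ν, z ∈ K)
    (hf : ContinuousOn f K) {p q : ι → X → ℝ} (hp : ∀ k, ContinuousOn (p k) K)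
    (hq : ∀ k, ContinuousOn (q k) K) {a L : ℝ}
    (hle : ∀ z ∈ K, ∀ z' ∈ K, a * ∑ k, (p k z - p k z') ^ 2 - L ≤ ∑ k, (q k z - q k z') ^ 2) :
    a * ∑ k, tv ν f (p k) - L / 2 ≤ ∑ k, tv ν f (q k) := by
  have hc : ∀ {r : ι → X → ℝ}, (∀ k, ContinuousOn (r k) K) → ∀ z' : X,
      ContinuousOn (fun z => ∑ k, (r k z - r k z') ^ 2) K := fun hr z' =>
    continuousOn_finsetSum _ fun k _ => ((hr k).sub continuousOn_const).pow 2
  have hpair : ∀ {r : ι → X → ℝ}, (∀ k, ContinuousOn (r k) K) → ∀ z',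
      tm ν f (fun z => ∑ k, (r k z - r k z') ^ 2) = ∑ k, (tv ν f (r k) + (tm ν f (r k) - r k z') ^ 2) := by
    intro r hr z'
    rw [Finset.sum_congr rfl fun k _ => (tv_eq hK hν hf (hr k) (r k z')).symm]
    simp only [tm, Finset.sum_mul]
    have hint : ∀ (k : ι) (c : ℝ), Integrable (fun z => (r k z - c) ^ 2 * Real.exp (f z)) ν :=
      fun k c => integrable_carrier hK hν ((((hr k).sub continuousOn_const).pow 2).mul hf.rexp)
    rw [integral_finsetSum _ fun k _ => hint k _, Finset.sum_div]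
  have htot : ∀ {r : ι → X → ℝ}, (∀ k, ContinuousOn (r k) K) →
      tm ν f (fun z' => ∑ k, (tv ν f (r k) + (tm ν f (r k) - r k z') ^ 2)) =
        2 * ∑ k, tv ν f (r k) := by
    intro r hr
    have e : tm ν f (fun z' => ∑ k, (r k z' - tm ν f (r k)) ^ 2) = ∑ k, tv ν f (r k) := by
      simp only [tv, tm, Finset.sum_mul]
      have hint : ∀ (k : ι) (c : ℝ), Integrable (fun z => (r k z - c) ^ 2 * Real.exp (f z)) ν :=
        fun k c => integrable_carrier hK hν ((((hr k).sub continuousOn_const).pow 2).mul hf.rexp)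
      rw [integral_finsetSum _ fun k _ => hint k _, Finset.sum_div]
    rw [show (fun z' => ∑ k, (tv ν f (r k) + (tm ν f (r k) - r k z') ^ 2)) =
        fun z' => (∑ k, tv ν f (r k)) + ∑ k, (r k z' - tm ν f (r k)) ^ 2 from funext fun z' => by
      rw [Finset.sum_add_distrib]; exact congrArg _ (Finset.sum_congr rfl fun k _ => by ring),
      tm_add (g' := fun z' => ∑ k, (r k z' - tm ν f (r k)) ^ 2) hK hν hf continuousOn_const
        (continuousOn_finsetSum _ fun k _ => ((hr k).sub continuousOn_const).pow 2),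
      tm_const hK hν hf, e]
    ring
  have hc2 : ∀ {r : ι → X → ℝ}, (∀ k, ContinuousOn (r k) K) →
      ContinuousOn (fun z' => ∑ k, (tv ν f (r k) + (tm ν f (r k) - r k z') ^ 2)) K := fun hr =>
    continuousOn_finsetSum _ fun k _ => continuousOn_const.add ((continuousOn_const.sub (hr k)).pow 2)
  have hsub : ∀ {r : X → ℝ}, ContinuousOn r K → tm ν f (fun z => a * r z - L) = a * tm ν f r - L := by
    intro r hr
    rw [show (fun z => a * r z - L) = fun z => a * r z + -L from funext fun z => sub_eq_add_neg _ _,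
      tm_add (g := fun z => a * r z) hK hν hf (continuousOn_const.mul hr) continuousOn_const, tm_const_mul, tm_const hK hν hf]
    ring
  have h1 : tm ν f (fun z' => a * (∑ k, (tv ν f (p k) + (tm ν f (p k) - p k z') ^ 2)) - L) ≤
      tm ν f (fun z' => ∑ k, (tv ν f (q k) + (tm ν f (q k) - q k z') ^ 2)) := by
    refine tm_mono hK hν hf ((continuousOn_const.mul (hc2 hp)).sub continuousOn_const) (hc2 hq)
      fun z' hz' => ?_
    rw [← hpair hp, ← hpair hq, ← hsub (hc hp z')]
    exact tm_mono hK hν hf ((continuousOn_const.mul (hc hp z')).sub continuousOn_const) (hc hq z')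
      fun z hz => hle z hz z' hz'
  rw [hsub (hc2 hp), htot hp, htot hq] at h1
  linarith

/-! ## Gaussian perturbations -/

variable {n : ℕ}

/-- Sums of independent Gaussian vectors. -/
lemma gaussian_add {r δ : ℝ} (hr : 0 ≤ r) (hδ : 0 < δ) {φ : EuclideanSpace ℝ (Fin n) → ℝ}
    (hg : Continuous φ) :
    ∫ p, φ (√r • p.1 + √δ • p.2) ∂(stdGaussian (EuclideanSpace ℝ (Fin n))).prod
        (stdGaussian (EuclideanSpace ℝ (Fin n))) =
      ∫ z, φ (√(r + δ) • z) ∂stdGaussian (EuclideanSpace ℝ (Fin n)) := by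
  set γ := stdGaussian (EuclideanSpace ℝ (Fin n))
  set θ := Real.arccos (√r / √(r + δ))
  have hpos : 0 < √(r + δ) := Real.sqrt_pos.2 (by linarith)
  have hle : √r / √(r + δ) ≤ 1 := (div_le_one hpos).2 (Real.sqrt_le_sqrt (by linarith))
  have h0 : 0 ≤ √r / √(r + δ) := by positivity
  have hc : Real.cos θ = √r / √(r + δ) := Real.cos_arccos (by linarith) hle
  have hs : Real.sin θ = √δ / √(r + δ) := by
    rw [Real.sin_arccos, div_pow, Real.sq_sqrt hr, Real.sq_sqrt (by linarith), ← Real.sqrt_div' _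
      (by linarith : 0 ≤ r + δ)]
    congr 1
    field_simp
    ring
  have hrot := IsGaussian.map_rotation_eq_self_of_forall_strongDual_eq_zero (μ := γ)
    integral_strongDual_stdGaussian θ
  have hm : Continuous fun p : (EuclideanSpace ℝ (Fin n)) × (EuclideanSpace ℝ (Fin n)) => φ (√(r + δ) • p.1) :=
    hg.comp ((continuous_fst (X := (EuclideanSpace ℝ (Fin n))) (Y := (EuclideanSpace ℝ (Fin n)))).const_smul (√(r + δ)))
  calc ∫ p, φ (√r • p.1 + √δ • p.2) ∂γ.prod γ
      = ∫ p, φ (√(r + δ) • (ContinuousLinearMap.rotation θ p).1) ∂γ.prod γ := by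
        refine integral_congr_ae (Eventually.of_forall fun p => ?_)
        simp only [ContinuousLinearMap.rotation_apply, smul_add, smul_smul, hc, hs]
        rw [mul_div_cancel₀ _ hpos.ne', mul_div_cancel₀ _ hpos.ne']
    _ = ∫ p, φ (√(r + δ) • p.1) ∂γ.prod γ := by
        conv_rhs => rw [← hrot]
        rw [integral_map (ContinuousLinearMap.continuous _).aemeasurable hm.aestronglyMeasurable]
    _ = _ := by rw [integral_fun_fst (fun z => φ (√(r + δ) • z))]; simp

end Vale.Agent.P219.CH.Sharp
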