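import Vale.Agent.P219.Sharp.LowerShift

/-!
# P219, lower pin: the Gaussian mass as a function of the shift, and the crude bound in the mean
-/

noncomputable section

open MeasureTheory ProbabilityTheory Set Filter Topology Matrix
open scoped ENNReal NNReal Real RealInnerProductSpace

namespace Vale.Agent.P219.CH.Sharp

variable {n : ℕ} {G : (Fin n → ℝ) → Matrix (Fin n) (Fin n) ℝ}
  {D : (Fin n → ℝ) → (Fin n → ℝ) → ℝ} {K : Set (Fin n → ℝ)} {u : (Fin n → ℝ) → ℝ}

/-! ## The mass seen from a shift -/

lemma toFrame_zero (A : Matrix (Fin n) (Fin n) ℝ) (s : ℝ) (y : Fin n → ℝ) :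
    toFrame A s y 0 = y := by
  simp [toFrame]

lemma integral_comp_neg_gauss (f : EuclideanSpace ℝ (Fin n) → ℝ) :
    ∫ b, f (-b) ∂stdGaussian (EuclideanSpace ℝ (Fin n))
      = ∫ b, f b ∂stdGaussian (EuclideanSpace ℝ (Fin n)) := by
  conv_rhs => rw [← stdGaussian_map (LinearIsometryEquiv.neg ℝ (E := EuclideanSpace ℝ (Fin n))),
    ← LinearIsometryEquiv.coe_toHomeomorph, ← Homeomorph.toMeasurableEquiv_coe, integral_map_equiv]
  rfl

lemma shiftMass_bounds (h : IsCH G D) (hK : IsCompact K) (hu : Comp K u) {s : ℝ} (hs : 0 < s)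
    (R : ℝ) (y : Fin n → ℝ) (b : EuclideanSpace ℝ (Fin n)) :
    (pm G u).real (qball G s R y) * Real.exp (-(R ^ 2 + ‖b‖ ^ 2)) ≤ shiftMass G u s R y b ∧
      shiftMass G u s R y b ≤ (pm G u).real (qball G s R y) := by
  have := isFiniteMeasure_pm h hK hu
  have hi := (integrable_exp_qf h hK hu s y (toFrame (frame G y) s y b)).integrableOn
    (s := qball G s R y)
  have hm := measurableSet_qball h s R y
  constructor
  · rw [← smul_eq_mul, ← setIntegral_const, shiftMass]
    refine setIntegral_mono_on (integrable_const _).integrableOn hi hm fun z hz => ?_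
    refine Real.exp_le_exp.2 (neg_le_neg ?_)
    rw [div_le_iff₀ (by positivity)]
    have hadd := qf_add_le h y (z - y) (y - toFrame (frame G y) s y b)
    rw [sub_add_sub_cancel] at hadd
    have e : qf G y (y - toFrame (frame G y) s y b) = s ^ 2 * ‖b‖ ^ 2 := by
      rw [← neg_sub, show ∀ v : Fin n → ℝ, -v = (-1 : ℝ) • v from fun v => (neg_one_smul ℝ v).symm,
        qf_smul, qf_toFrame_sub h]
      ring
    have hz' : qf G y (z - y) ≤ R ^ 2 * s ^ 2 := hz
    linarith
  · rw [← mul_one ((pm G u).real (qball G s R y)), ← smul_eq_mul, ← setIntegral_const, shiftMass]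
    exact setIntegral_mono_on hi (integrable_const _).integrableOn hm fun z _ =>
      Real.exp_le_one_iff.2 (neg_nonpos.2 (div_nonneg (qf_nonneg h _ _) (by positivity)))

lemma continuous_shiftMass (h : IsCH G D) (hK : IsCompact K) (hu : Comp K u) {s : ℝ} (hs : 0 < s)
    (R : ℝ) (y : Fin n → ℝ) : Continuous (shiftMass G u s R y) := by
  have := isFiniteMeasure_pm h hK hu
  refine continuous_of_dominated (fun b => ?_) (fun b => Eventually.of_forall fun z => ?_)
    (integrable_const (1 : ℝ)) (Eventually.of_forall fun z => ?_)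
  · exact (integrable_exp_qf h hK hu s y (toFrame (frame G y) s y b)).integrableOn.aestronglyMeasurable
  · rw [Real.norm_of_nonneg (Real.exp_pos _).le]
    exact Real.exp_le_one_iff.2 (neg_nonpos.2 (div_nonneg (qf_nonneg h _ _) (by positivity)))
  · exact Real.continuous_exp.comp (((continuous_qf h).comp (continuous_const.prodMk
      (continuous_const.sub (by unfold toFrame; fun_prop)))).div_const _).neg

lemma integrable_termLower (h : IsCH G D) (hK : IsCompact K) (hu : Comp K u) {s : ℝ} (hs : 0 < s)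
    (R : ℝ) (y : Fin n → ℝ) (hpos : 0 < (pm G u).real (qball G s R y)) :
    Integrable (fun b => ‖b‖ ^ 2 / 2 + Real.log (shiftMass G u s R y b))
      (stdGaussian (EuclideanSpace ℝ (Fin n))) := by
  set M := (pm G u).real (qball G s R y)
  have hb : ∀ b, Real.log M - (R ^ 2 + ‖b‖ ^ 2) ≤ Real.log (shiftMass G u s R y b) ∧
      Real.log (shiftMass G u s R y b) ≤ Real.log M := fun b => by
    obtain ⟨h1, h2⟩ := shiftMass_bounds h hK hu hs R y b
    have h3 : 0 < M * Real.exp (-(R ^ 2 + ‖b‖ ^ 2)) := by positivity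
    refine ⟨le_trans (le_of_eq ?_) (Real.log_le_log h3 h1), Real.log_le_log (h3.trans_le h1) h2⟩
    rw [Real.log_mul hpos.ne' (Real.exp_pos _).ne', Real.log_exp]
    ring
  have hi : Integrable (fun b : EuclideanSpace ℝ (Fin n) => |Real.log M| + R ^ 2 + ‖b‖ ^ 2)
      (stdGaussian (EuclideanSpace ℝ (Fin n))) :=
    (integrable_const (|Real.log M| + R ^ 2)).add Gauss.integrable_norm_sq
  refine (Gauss.integrable_norm_sq.div_const 2).add (hi.mono' ?_ (Eventually.of_forall fun b => ?_))
  · exact (Real.measurable_log.comp (continuous_shiftMass h hK hu hs R y).measurable).aestronglyMeasurable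
  · obtain ⟨h1, h2⟩ := hb b
    rw [Real.norm_eq_abs, abs_le]
    constructor <;>
      linarith [neg_abs_le (Real.log M), le_abs_self (Real.log M), sq_nonneg R, sq_nonneg ‖b‖]

/-- The shifts `b` and `-b` together are at least as good as no shift. -/
lemma shift_midpoint (h : IsCH G D) (hK : IsCompact K) (hu : Comp K u) {s : ℝ} (hs : 0 < s)
    (R : ℝ) (y : Fin n → ℝ) (hpos : 0 < (pm G u).real (qball G s R y))
    (b : EuclideanSpace ℝ (Fin n)) :
    2 * Real.log (shiftMass G u s R y 0) ≤
      (‖b‖ ^ 2 / 2 + Real.log (shiftMass G u s R y b))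
        + (‖-b‖ ^ 2 / 2 + Real.log (shiftMass G u s R y (-b))) := by
  have hN : ∀ w, 0 < shiftMass G u s R y w := fun w =>
    (mul_pos hpos (Real.exp_pos _)).trans_le (shiftMass_bounds h hK hu hs R y w).1
  set X := shiftMass G u s R y b
  set Y := shiftMass G u s R y (-b)
  set Z := shiftMass G u s R y 0
  have hX : 0 < X := hN b
  have hY : 0 < Y := hN (-b)
  have hZ : 0 < Z := hN 0
  set a := Real.exp (‖b‖ ^ 2 / 2)
  have key : ∀ c : ℝ, 0 < c → 2 * Z ≤ a * (c * X + Y / c) := fun c hc => by
    have hi := fun w => (integrable_exp_qf h hK hu s y (toFrame (frame G y) s y w)).integrableOn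
      (s := qball G s R y)
    simp only [X, Y, Z, shiftMass]
    rw [← integral_const_mul, ← integral_const_mul, ← integral_div, ← integral_add ((hi b).const_mul c)
      ((hi (-b)).div_const c), ← integral_const_mul]
    refine setIntegral_mono_on ((hi 0).const_mul 2) ((((hi b).const_mul c).add
      ((hi (-b)).div_const c)).const_mul a) (measurableSet_qball h s R y) fun z _ => ?_
    set e₁ := Real.exp (-(qf G y (z - toFrame (frame G y) s y b) / (2 * s ^ 2)))
    set e₂ := Real.exp (-(qf G y (z - toFrame (frame G y) s y (-b)) / (2 * s ^ 2)))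
    set e₀ := Real.exp (-(qf G y (z - toFrame (frame G y) s y 0) / (2 * s ^ 2)))
    have hprod : a ^ 2 * (e₁ * e₂) = e₀ ^ 2 := by
      simp only [a, e₁, e₂, e₀]
      rw [← Real.exp_nat_mul, ← Real.exp_nat_mul, ← Real.exp_add, ← Real.exp_add]
      congr 1
      obtain ⟨hAt, hA, -, -⟩ := frame_spec h y
      have hw := qf_frame hAt hA b
      simp only [qf] at hw ⊢
      simp only [toFrame, WithLp.ofLp_zero, WithLp.ofLp_neg, mulVec_neg, mulVec_zero, smul_zero,
        add_zero, smul_neg, mulVec_sub, mulVec_add, dotProduct_sub, sub_dotProduct,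
        dotProduct_add, add_dotProduct, mulVec_smul, smul_dotProduct, dotProduct_smul,
        neg_dotProduct, dotProduct_neg, smul_eq_mul]
      field_simp
      push_cast
      rw [← hw]
      ring
    have he₁ : 0 < e₁ := Real.exp_pos _
    have he₂ : 0 < e₂ := Real.exp_pos _
    have ha : 0 < a := Real.exp_pos _
    have he₀ : e₀ ^ 2 ≤ (a * (c * e₁ + e₂ / c) / 2) ^ 2 := by
      rw [← hprod]
      have h5 := mul_nonneg (sq_nonneg a) (sq_nonneg (c * e₁ - e₂ / c))
      have e5 : c * e₁ * (e₂ / c) = e₁ * e₂ := by field_simp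
      linear_combination (1 / 4 : ℝ) * h5 - a ^ 2 * e5
    have h6 := (pow_le_pow_iff_left₀ (Real.exp_pos _).le (by positivity) two_ne_zero).1 he₀
    linarith
  have h1 := key √(Y / X) (Real.sqrt_pos.2 (div_pos hY hX))
  have hsy : √Y * √Y = Y := Real.mul_self_sqrt hY.le
  have hsx : √X * √X = X := Real.mul_self_sqrt hX.le
  have e1 : √(Y / X) * X + Y / √(Y / X) = 2 * (√X * √Y) := by
    have := Real.sqrt_pos.2 hY
    have := Real.sqrt_pos.2 hX
    rw [Real.sqrt_div hY.le]
    field_simp
    rw [Real.sq_sqrt hY.le, Real.sq_sqrt hX.le]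
    ring
  rw [e1] at h1
  have h2 := Real.log_le_log hZ (by linarith : Z ≤ a * (√X * √Y))
  rw [Real.log_mul (Real.exp_pos _).ne' (by positivity), Real.log_exp,
    Real.log_mul (by positivity) (by positivity), Real.log_sqrt hX.le, Real.log_sqrt hY.le] at h2
  rw [norm_neg]
  linarith

/-! ## The crude bound -/

/-- The mass in the crude bound. -/
def crudeMass (G : (Fin n → ℝ) → Matrix (Fin n) (Fin n) ℝ) (D : (Fin n → ℝ) → (Fin n → ℝ) → ℝ)
    (u : (Fin n → ℝ) → ℝ) (s : ℝ) (y : Fin n → ℝ) : ℝ :=
  ∫ z, Real.exp (-(2 * D y z / s ^ 2)) ∂pm G u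

lemma crudeLower_eq (u : (Fin n → ℝ) → ℝ) (s : ℝ) (y : Fin n → ℝ) :
    crudeLower G D u s y = Real.log (crudeMass G D u s y) := rfl

lemma measurable_crudeMass (h : IsCH G D) (hK : IsCompact K) (hu : Comp K u) (s : ℝ) :
    Measurable (crudeMass G D u s) := by
  have := isFiniteMeasure_pm h hK hu
  have hc : Continuous (Function.uncurry fun y z : Fin n → ℝ => Real.exp (-(2 * D y z / s ^ 2))) :=
    Real.continuous_exp.comp ((h.smooth_dist.continuous.const_mul 2).div_const _).neg
  exact (hc.stronglyMeasurable.integral_prod_right (ν := pm G u)).measurable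

lemma setIntegral_le_crudeMass (h : IsCH G D) (hK : IsCompact K) (hu : Comp K u) (s : ℝ)
    (y : Fin n → ℝ) {S : Set (Fin n → ℝ)} (hS : MeasurableSet S) {g : (Fin n → ℝ) → ℝ}
    (hg : Integrable g (pm G u)) (hle : ∀ z ∈ S, g z ≤ Real.exp (-(2 * D y z / s ^ 2))) :
    ∫ z in S, g z ∂pm G u ≤ crudeMass G D u s y := by
  have hi : Integrable (fun z => Real.exp (-(2 * D y z / s ^ 2))) (pm G u) :=
    integrable_pm_of_continuous h hK hu (Real.continuous_exp.comp
      (((continuous_D h y).const_mul 2).div_const _).neg).continuousOn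
  exact (setIntegral_mono_on hg.integrableOn hi.integrableOn hS hle).trans
    (setIntegral_le_integral hi (Eventually.of_forall fun z => (Real.exp_pos _).le))

/-- In the mean, the reciprocal crude mass is at most `C / s ^ n`. -/
theorem lintegral_inv_crudeMass_le (h : IsCH G D) (o : Fin n → ℝ) (R : ℝ) :
    ∃ C σ : ℝ, 0 ≤ C ∧ 0 < σ ∧ ∀ s, 0 < s → s < σ → ∀ u, Comp {y | D o y ≤ R} u →
      ∫⁻ y, (ENNReal.ofReal (crudeMass G D u s y))⁻¹ ∂pm G u ≤ ENNReal.ofReal (C / s ^ n) := by
  set K := {y | D o y ≤ R}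
  have hK : IsCompact K := h.proper o R
  obtain ⟨B, hB⟩ := hK.isBounded.subset_closedBall (0 : Fin n → ℝ)
  obtain ⟨ρ3, hρ3, hD⟩ := D_upper h hK (δ := 1) one_pos
  obtain ⟨Cq, hCq, hCqb⟩ := exists_comparison hK
    (f := fun p : (Fin n → ℝ) × (Fin n → ℝ) => √(qf G p.1 p.2))
    (g := fun p => ‖p.2‖) (Real.continuous_sqrt.comp (continuous_qf h))
    (continuous_norm.comp continuous_snd)
    (fun y v a ha => by simp [qf_smul, Real.sqrt_mul (sq_nonneg a), Real.sqrt_sq ha])
    (fun y v a ha => by simp [norm_smul, abs_of_nonneg ha])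
    (fun y _ v hv => norm_pos_iff.2 hv)
  set c := Real.exp (-(2 * Cq ^ 2))
  have hc : 0 < c := Real.exp_pos _
  set K₁ := Metric.closedBall (0 : Fin n → ℝ) (B + 1)
  refine ⟨(volume K₁).toReal / c, min ρ3 1, by positivity, lt_min hρ3 one_pos, fun s hs hsσ u hu => ?_⟩
  have hs1 : s ≤ 1 := hsσ.le.trans (min_le_right _ _)
  have hs3 : s ≤ ρ3 := hsσ.le.trans (min_le_left _ _)
  set μ := pm G u
  have := isFiniteMeasure_pm h hK hu
  set g := fun y => (ENNReal.ofReal (crudeMass G D u s y))⁻¹
  have hg : Measurable g := (measurable_crudeMass h hK hu s).ennreal_ofReal.inv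
  set J := fun x y : Fin n → ℝ => (Metric.closedBall x (s / 2)).indicator g y
  have hJ : Measurable (Function.uncurry J) := by
    have e : Function.uncurry J =
        {p : (Fin n → ℝ) × (Fin n → ℝ) | dist p.2 p.1 ≤ s / 2}.indicator fun p => g p.2 := by
      funext p
      simp only [Function.uncurry, J, indicator, Metric.mem_closedBall, mem_ofPred_eq]
    rw [e]
    exact (hg.comp measurable_snd).indicator
      (isClosed_le (continuous_snd.dist continuous_fst) continuous_const).measurableSet
  have hvol : ∀ y : Fin n → ℝ, ∫⁻ x, J x y = g y * ENNReal.ofReal (s ^ n) := fun y => by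
    have e : (fun x => J x y) = (Metric.closedBall y (s / 2)).indicator fun _ => g y := by
      funext x
      simp only [J, indicator, Metric.mem_closedBall, dist_comm y x]
    rw [e, lintegral_indicator_const measurableSet_closedBall, Real.volume_pi_closedBall _ (by linarith),
      Fintype.card_fin, show 2 * (s / 2) = s by ring]
  have hin : ∀ x, ∫⁻ y, J x y ∂μ ≤ K₁.indicator (fun _ => ENNReal.ofReal c⁻¹) x := fun x => by
    set S := Metric.closedBall x (s / 2)
    rw [lintegral_indicator measurableSet_closedBall]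
    have hSK : μ (S \ K) = 0 :=
      measure_mono_null (fun z hz => hz.2) (ae_iff.1 (ae_mem_pm h hK hu))
    rcases eq_or_ne (μ S) 0 with h0 | h0
    · rw [setLIntegral_measure_zero _ _ h0]
      exact bot_le
    have hex : (S ∩ K).Nonempty := by
      by_contra hh
      rw [not_nonempty_iff_eq_empty] at hh
      refine h0 (measure_mono_null (t := S \ K) (fun z hz => ⟨hz, fun hzK => ?_⟩) hSK)
      exact notMem_empty z (hh ▸ ⟨hz, hzK⟩)
    obtain ⟨z₁, hz₁, hz₁K⟩ := hex
    have hx : x ∈ K₁ := by
      rw [mem_closedBall_zero_iff]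
      have h1 := hB hz₁K
      rw [mem_closedBall_zero_iff] at h1
      rw [Metric.mem_closedBall, dist_comm, dist_eq_norm] at hz₁
      have := norm_le_norm_add_norm_sub' x z₁
      linarith
    rw [indicator_of_mem hx]
    have hge : ∀ y ∈ S, y ∈ K → g y ≤ (ENNReal.ofReal c * μ S)⁻¹ := by
      intro y hy hyK
      refine ENNReal.inv_le_inv.2 ?_
      rw [← ENNReal.ofReal_toReal (measure_ne_top μ S), ← ENNReal.ofReal_mul hc.le]
      refine ENNReal.ofReal_le_ofReal ?_
      rw [mul_comm, ← smul_eq_mul, ← measureReal_def, ← setIntegral_const]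
      refine setIntegral_le_crudeMass h hK hu s y measurableSet_closedBall (integrable_const c)
        fun z hz => Real.exp_le_exp.2 (neg_le_neg ?_)
      have hzy : ‖z - y‖ ≤ s := by
        rw [← dist_eq_norm]
        refine (dist_triangle_right z y x).trans ?_
        rw [Metric.mem_closedBall] at hy hz
        linarith
      have h4 := hD y hyK (z - y) (hzy.trans hs3)
      rw [add_sub_cancel] at h4
      have h5 : √(qf G y (z - y)) ≤ Cq * ‖z - y‖ := hCqb y hyK (z - y)
      rw [Real.sqrt_le_left (by positivity), mul_pow] at h5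
      have h6 : Cq ^ 2 * ‖z - y‖ ^ 2 ≤ Cq ^ 2 * s ^ 2 := by gcongr
      rw [div_le_iff₀ (by positivity)]
      linarith
    calc ∫⁻ y in S, g y ∂μ ≤ ∫⁻ _ in S, (ENNReal.ofReal c * μ S)⁻¹ ∂μ := by
          refine lintegral_mono_ae ?_
          filter_upwards [ae_restrict_mem measurableSet_closedBall,
            ae_restrict_of_ae (ae_mem_pm h hK hu)] with y hy hyK using hge y hy hyK
      _ = _ := by
          rw [setLIntegral_const, ENNReal.mul_inv (Or.inr (measure_ne_top _ _))
            (Or.inl ENNReal.ofReal_ne_top), mul_assoc, ENNReal.inv_mul_cancel h0 (measure_ne_top _ _),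
            mul_one, ENNReal.ofReal_inv_of_pos hc]
  have key : (∫⁻ y, g y ∂μ) * ENNReal.ofReal (s ^ n)
      ≤ ENNReal.ofReal ((volume K₁).toReal / c) := by
    calc (∫⁻ y, g y ∂μ) * ENNReal.ofReal (s ^ n) = ∫⁻ y, g y * ENNReal.ofReal (s ^ n) ∂μ :=
          (lintegral_mul_const _ hg).symm
      _ = ∫⁻ y, ∫⁻ x, J x y ∂volume ∂μ := lintegral_congr fun y => (hvol y).symm
      _ = ∫⁻ x, ∫⁻ y, J x y ∂μ ∂volume :=
          lintegral_lintegral_swap (hJ.comp measurable_swap).aemeasurable
      _ ≤ ∫⁻ x, K₁.indicator (fun _ => ENNReal.ofReal c⁻¹) x := lintegral_mono hin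
      _ = _ := by
          rw [lintegral_indicator_const measurableSet_closedBall,
            ← ENNReal.ofReal_toReal (isCompact_closedBall (0 : Fin n → ℝ) (B + 1)).measure_lt_top.ne,
            ← ENNReal.ofReal_mul (by positivity)]
          congr 1
          rw [ENNReal.toReal_ofReal ENNReal.toReal_nonneg]
          ring
  rw [ENNReal.ofReal_div_of_pos (pow_pos hs n), ENNReal.le_div_iff_mul_le
    (Or.inl (by simpa using pow_pos hs n)) (Or.inl ENNReal.ofReal_ne_top)]
  exact key

/-- Almost every point of the measure sees mass in its frozen ball. -/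
theorem ae_qball_pos (h : IsCH G D) (hK : IsCompact K) (hu : Comp K u) {s R : ℝ} (hs : 0 < s)
    (hR : 0 < R) : ∀ᵐ y ∂pm G u, 0 < (pm G u).real (qball G s R y) := by
  have := isFiniteMeasure_pm h hK hu
  have hwc := continuous_weight h hu.1
  rw [pm, ae_withDensity_iff hwc.measurable.ennreal_ofReal]
  refine Eventually.of_forall fun y hy => ?_
  rw [ne_eq, ENNReal.ofReal_eq_zero, not_le] at hy
  set U := {z | qf G y (z - y) < R ^ 2 * s ^ 2} ∩ {z | 0 < conorm G z (cd u z) * dens G z}
  have hUo : IsOpen U := (isOpen_lt ((continuous_qf h).comp (continuous_const.prodMk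
    (continuous_id.sub continuous_const))) continuous_const).inter
      (isOpen_lt continuous_const hwc)
  have hyU : y ∈ U := ⟨by simp [qf]; positivity, hy⟩
  rw [measureReal_def]
  refine ENNReal.toReal_pos (fun h0 => ?_) (measure_ne_top (pm G u) _)
  rw [withDensity_apply_eq_zero hwc.measurable.ennreal_ofReal] at h0
  refine (hUo.measure_pos volume ⟨y, hyU⟩).ne' (measure_mono_null (fun z hz => ?_) h0)
  refine ⟨?_, hz.1.le (α := ℝ)⟩
  simp only [mem_ofPred_eq, ne_eq, ENNReal.ofReal_eq_zero, not_le]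
  exact hz.2

end Vale.Agent.P219.CH.Sharp
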