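import Vale.Agent.P219.Sharp.Laplace

/-!
# P219, the sharp constant: one block of the channel against one Gaussian step
-/

noncomputable section

open MeasureTheory ProbabilityTheory Set Filter Topology
open scoped RealInnerProductSpace

namespace Vale.Agent.P219.CH.Sharp

variable {n : ℕ} {X : Type*}

/-- The logarithm of the likelihood ratio against `y`. -/
def logRatio (y : X) (W : X → ℝ) (z : X) : ℝ := Real.log (W z) - Real.log (W y)

/-- The drift of one sign step. -/
def drift (v : Fin n → X → ℝ) (y : X) (b : ℝ) (k : Fin n) (z : X) : ℝ :=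
  (1 + 20 * b) * (v k z - v k y) ^ 2 / 2

/-- The summed drift along a list. -/
def driftSum (v : Fin n → X → ℝ) (y : X) (b : ℝ) (ks : List (Fin n)) (z : X) : ℝ :=
  (ks.map fun k => drift v y b k z).sum

lemma log_step_bounds {a c b : ℝ} (ha : |a| ≤ b) (hc : |c| ≤ b) (hb : b ≤ 1 / 16) :
    (a - c) / (1 + c) - (1 + 20 * b) * (a - c) ^ 2 / 2 ≤ Real.log (1 + a) - Real.log (1 + c) ∧
      |Real.log (1 + a) - Real.log (1 + c) + (1 + 20 * b) * (a - c) ^ 2 / 2| ≤ 5 * b := by
  obtain ⟨a1, a2⟩ := abs_le.1 ha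
  obtain ⟨c1, c2⟩ := abs_le.1 hc
  have hb0 : 0 ≤ b := (abs_nonneg a).trans ha
  have hc0 : 0 < 1 + c := by linarith
  set x := (a - c) / (1 + c)
  have e : Real.log (1 + a) - Real.log (1 + c) = Real.log (1 + x) := by
    rw [← Real.log_div (by linarith) hc0.ne']; congr 1; simp only [x]; field_simp; ring
  have hx : |x| ≤ 3 * b := by
    simp only [x]
    rw [abs_div, abs_of_pos hc0, div_le_iff₀ hc0]
    have h1 : |a - c| ≤ 2 * b := abs_le.2 ⟨by linarith, by linarith⟩
    nlinarith
  have hlo := log_one_add_ge hx (by linarith)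
  have hhi := Real.log_le_sub_one_of_pos (show 0 < 1 + x by linarith [(abs_le.1 hx).1])
  have hsq : x ^ 2 / (2 * (1 - 3 * b)) ≤ (1 + 20 * b) * (a - c) ^ 2 / 2 := by
    simp only [x]
    rw [div_pow, div_div, div_le_div_iff₀ (by nlinarith [sq_pos_of_pos hc0]) two_pos]
    have h2 : (1 - b) ^ 2 ≤ (1 + c) ^ 2 := pow_le_pow_left₀ (show (0:ℝ) ≤ 1 - b by linarith) (show 1 - b ≤ 1 + c by linarith) 2
    have h3 : 1 ≤ (1 + 20 * b) * ((1 - b) ^ 2 * (1 - 3 * b)) := by
      have e1 : b * b ≤ 1 / 16 * b := mul_le_mul_of_nonneg_right hb hb0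
      have e2 : b * (b * (b * b)) ≤ b * (b * b) :=
        mul_le_mul_of_nonneg_left (mul_le_mul_of_nonneg_left (by nlinarith) hb0) hb0
      have e3 : 0 ≤ b * (b * b) := by positivity
      linarith
    have h4 : 1 ≤ (1 + 20 * b) * ((1 + c) ^ 2 * (1 - 3 * b)) :=
      h3.trans (mul_le_mul_of_nonneg_left (mul_le_mul_of_nonneg_right h2 (by linarith)) (by linarith))
    nlinarith [mul_le_mul_of_nonneg_left h4 (sq_nonneg (a - c))]
  refine ⟨by rw [e]; linarith, ?_⟩
  rw [e]
  have h5 : 0 ≤ (1 + 20 * b) * (a - c) ^ 2 / 2 := by positivity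
  have h6 : (1 + 20 * b) * (a - c) ^ 2 / 2 ≤ 2 * b := by
    have : (a - c) ^ 2 ≤ 4 * b ^ 2 := by nlinarith
    nlinarith
  rw [abs_le]
  constructor <;> linarith [(abs_le.1 hx).1, (abs_le.1 hx).2]

variable [MeasurableSpace X] [TopologicalSpace X] [OpensMeasurableSpace X] [T2Space X]
  {ν : Measure X} [IsFiniteMeasure ν] [NeZero ν] {K : Set X}

/-- A block seen from `y`: second order gain against the drift. -/
theorem block_lower (hK : IsCompact K) (hν : ∀ᵐ z ∂ν, z ∈ K) {v : Fin n → X → ℝ}
    (hv : ∀ k, ContinuousOn (v k) K) {b : ℝ} (hb0 : 0 ≤ b) (hb : b ≤ 1 / 16)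
    (hvb : ∀ k, ∀ z ∈ K, |v k z| ≤ b) (y : X) (hyb : ∀ k, |v k y| ≤ b) {f : X → ℝ}
    (hf : ContinuousOn f K) :
    ∀ (ks : List (Fin n)) (V : X → ℝ), PosOn K V → 0 < V y →
      V y * (lse ν (fun z => logRatio y V z + f z - driftSum v y b ks z) +
          Real.exp (-(10 * b * ks.length)) / 2 *
            (ks.map fun k => tv ν (fun z => logRatio y V z + f z - driftSum v y b ks z)
              fun z => v k z - v k y).sum -
          ks.length * (5400 * b ^ 3)) ≤
        blockAvg v ks (fun W => W y * lse ν fun z => logRatio y W z + f z) V := by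
  have hD : ∀ ks : List (Fin n), ContinuousOn (fun z => driftSum v y b ks z) K := by
    intro ks
    induction ks with
    | nil => simp only [driftSum, List.map_nil, List.sum_nil]; exact continuousOn_const
    | cons k ks ih =>
      simp only [driftSum, List.map_cons, List.sum_cons]
      exact ((continuousOn_const.mul (((hv k).sub continuousOn_const).pow 2)).div_const 2).add ih
  have hR : ∀ {V : X → ℝ}, PosOn K V → ContinuousOn (fun z => logRatio y V z) K := fun hV =>
    (hV.1.log fun z hz => (hV.2 z hz).ne').sub continuousOn_const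
  intro ks
  induction ks with
  | nil =>
    intro V _ _
    simp [blockAvg, driftSum]
  | cons k ks ih =>
    intro V hV hVy
    obtain ⟨hp, hm⟩ := hV.mul_step (hv k) fun z hz => (hvb k z hz).trans_lt (by linarith)
    obtain ⟨y1, y2⟩ := abs_le.1 (hyb k)
    set c := v k y
    set h : X → ℝ := fun z => logRatio y V z + f z - driftSum v y b (k :: ks) z
    have hh : ContinuousOn h K := ((hR hV).add hf).sub (hD _)
    set Δ : X → ℝ := fun z => v k z - c
    have hΔc : ContinuousOn Δ K := (hv k).sub continuousOn_const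
    set r := Real.exp (-(10 * b * ks.length))
    set r' := Real.exp (-(10 * b * ((k :: ks).length : ℝ)))
    set Sm := (ks.map fun k => tv ν h fun z => v k z - v k y).sum
    -- one child
    have child : ∀ (w : X → ℝ) (σ : ℝ), PosOn K (fun z => V z * (1 + w z)) → (∀ z, w z = σ * v k z) →
        |σ| = 1 →
        lse ν (fun z => h z + σ / (1 + σ * c) * Δ z) + r' / 2 * Sm - ks.length * (5400 * b ^ 3) ≤
          lse ν (fun z => logRatio y (fun z => V z * (1 + w z)) z + f z - driftSum v y b ks z) +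
            r / 2 * (ks.map fun k => tv ν
              (fun z => logRatio y (fun z => V z * (1 + w z)) z + f z - driftSum v y b ks z)
              fun z => v k z - v k y).sum - ks.length * (5400 * b ^ 3) := by
      intro w σ hW hw hσ
      set g : X → ℝ := fun z => logRatio y (fun z => V z * (1 + w z)) z + f z - driftSum v y b ks z
      have hg : ContinuousOn g K := ((hR hW).add hf).sub (hD _)
      have hσv : ∀ a : ℝ, |a| ≤ b → |σ * a| ≤ b := fun a ha => by rw [abs_mul, hσ, one_mul]; exact ha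
      have hgz : ∀ z ∈ K, g z = h z + (Real.log (1 + σ * v k z) - Real.log (1 + σ * c) +
          (1 + 20 * b) * (σ * v k z - σ * c) ^ 2 / 2) := fun z hz => by
        have p1 : 0 < 1 + σ * v k z := by linarith [(abs_le.1 (hσv _ (hvb k z hz))).1]
        have p2 : 0 < 1 + σ * c := by linarith [(abs_le.1 (hσv _ (hyb k))).1]
        have hs2 : σ ^ 2 = 1 := by rw [← sq_abs, hσ, one_pow]
        simp only [g, h, logRatio, hw, driftSum, List.map_cons, List.sum_cons, drift]
        rw [Real.log_mul (hV.2 z hz).ne' p1.ne', Real.log_mul hVy.ne' p2.ne', ← mul_sub, mul_pow, hs2,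
          one_mul]
        ring
      have hlow : lse ν (fun z => h z + σ / (1 + σ * c) * Δ z) ≤ lse ν g := by
        refine lse_mono hK hν (hh.add (continuousOn_const.mul hΔc)) hg fun z hz => ?_
        rw [hgz z hz]
        have h1 := (log_step_bounds (hσv _ (hvb k z hz)) (hσv _ (hyb k)) hb).1
        have e : (σ * v k z - σ * c) / (1 + σ * c) = σ / (1 + σ * c) * Δ z := by simp only [Δ]; ring
        linarith
      have hsum : r' / 2 * Sm ≤ r / 2 * (ks.map fun k => tv ν g fun z => v k z - v k y).sum := by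
        have h1 : Real.exp (-(2 * (5 * b))) * Sm ≤ (ks.map fun k => tv ν g fun z => v k z - v k y).sum := by
          simp only [Sm]
          rw [← List.sum_map_mul_left]
          refine List.sum_le_sum fun i _ => ?_
          have h2 := tv_change hK hν hh (hg.sub hh) (g := fun z => v i z - v i y)
            ((hv i).sub continuousOn_const) (a := 5 * b) fun z hz => by
              simp only [Pi.sub_apply]
              rw [hgz z hz, add_sub_cancel_left]
              exact (log_step_bounds (hσv _ (hvb k z hz)) (hσv _ (hyb k)) hb).2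
          simpa using h2
        have e : r' = r * Real.exp (-(2 * (5 * b))) := by
          simp only [r, r', ← Real.exp_add, List.length_cons]; push_cast; ring_nf
        rw [e, mul_div_right_comm, mul_assoc]
        exact mul_le_mul_of_nonneg_left h1 (by positivity)
      linarith
    have hc : ∀ z, (fun z => -v k z) z = (-1 : ℝ) * v k z := fun z => by ring
    have em : (fun z => V z * (1 - v k z)) = fun z => V z * (1 + (fun z => -v k z) z) :=
      funext fun z => by ring
    have cp := child (v k) 1 hp (fun z => (one_mul _).symm) abs_one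
    have cm := child (fun z => -v k z) (-1) (em ▸ hm) hc (by simp)
    have ip := ih (fun z => V z * (1 + v k z)) hp (mul_pos hVy (by linarith))
    have im := ih (fun z => V z * (1 - v k z)) hm (mul_pos hVy (by linarith))
    rw [← em] at cm
    simp only [one_mul, ← sub_eq_add_neg, neg_mul] at cp cm
    -- the expansion
    have hbd : ∀ σ : ℝ, |σ| = 1 → ∀ z ∈ K, |σ / (1 + σ * c) * Δ z| ≤ 3 * b := fun σ hσ z hz => by
      have hσc : |σ * c| ≤ b := by rw [abs_mul, hσ, one_mul]; exact hyb k
      have p2 : 0 < 1 + σ * c := by linarith [(abs_le.1 hσc).1]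
      have h1 : |Δ z| ≤ 2 * b := abs_le.2
        ⟨by simp only [Δ]; linarith [(abs_le.1 (hvb k z hz)).1],
          by simp only [Δ]; linarith [(abs_le.1 (hvb k z hz)).2]⟩
      rw [abs_mul, abs_div, hσ, abs_of_pos p2, div_mul_eq_mul_div, one_mul, div_le_iff₀ p2]
      nlinarith [(abs_le.1 hσc).1]
    have x1 := (abs_le.1 (abs_lse_expand hK hν hh (continuousOn_const.mul hΔc) (by linarith)
      (hbd 1 abs_one))).1
    have x2 := (abs_le.1 (abs_lse_expand hK hν hh (continuousOn_const.mul hΔc) (by linarith)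
      (hbd (-1) (by simp)))).1
    simp only [Pi.mul_apply, Pi.mul_def, tm_const_mul, tv_smul, one_mul, neg_mul,
      ← sub_eq_add_neg] at x1 x2
    have p1 : 0 < 1 + c := by linarith
    have p2 : 0 < 1 - c := by linarith
    have hT := tv_nonneg hK hν hh hΔc
    set T := tv ν h Δ
    set μ₁ := tm ν h Δ
    set Lp := lse ν (fun z => h z + 1 / (1 + c) * Δ z)
    set Lm := lse ν (fun z => h z + -1 / (1 - c) * Δ z)
    have hmain : lse ν h + T / 2 - 5400 * b ^ 3 ≤ ((1 + c) * Lp + (1 - c) * Lm) / 2 := by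
      have a1 := mul_le_mul_of_nonneg_left x1 p1.le
      have a2 := mul_le_mul_of_nonneg_left x2 p2.le
      have e1 : (1 + c) * (1 / (1 + c) * μ₁) + (1 - c) * (-1 / (1 - c) * μ₁) = 0 := by
        field_simp; ring
      have e2 : T ≤ ((1 + c) * ((1 / (1 + c)) ^ 2 * T) + (1 - c) * ((-1 / (1 - c)) ^ 2 * T)) / 2 := by
        have e3 : ((1 + c) * ((1 / (1 + c)) ^ 2 * T) + (1 - c) * ((-1 / (1 - c)) ^ 2 * T)) / 2 =
            T / ((1 + c) * (1 - c)) := by field_simp; ring
        rw [e3, le_div_iff₀ (mul_pos p1 p2)]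
        exact mul_le_of_le_one_right hT (by nlinarith [sq_nonneg c])
      linarith
    simp only [blockAvg, stepAvg]
    have hr : r' ≤ 1 := Real.exp_le_one_iff.2 (neg_nonpos.2 (by positivity))
    have hhead : r' / 2 * T ≤ T / 2 := by
      rw [div_mul_eq_mul_div]
      exact div_le_div_of_nonneg_right (mul_le_of_le_one_left hT hr) two_pos.le
    have q1 := mul_le_mul_of_nonneg_left cp (mul_nonneg hVy.le p1.le)
    have q2 := mul_le_mul_of_nonneg_left cm (mul_nonneg hVy.le p2.le)
    have hmain' := mul_le_mul_of_nonneg_left hmain hVy.le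
    have hhead' := mul_le_mul_of_nonneg_left hhead hVy.le
    simp only [List.map_cons, List.sum_cons, List.length_cons, Nat.cast_add, Nat.cast_one]
    linarith

lemma integrable_norm_pow_gaussian (p : ℕ) :
    Integrable (fun Z : EuclideanSpace ℝ (Fin n) => ‖Z‖ ^ p)
      (stdGaussian (EuclideanSpace ℝ (Fin n))) := by
  rcases Nat.eq_zero_or_pos p with rfl | hp
  · simp
  exact (IsGaussian.memLp_id (stdGaussian (EuclideanSpace ℝ (Fin n))) (p : ℕ∞) (by simp)
    ).integrable_norm_pow hp.ne'

lemma integral_inner_sq_gaussian (a : EuclideanSpace ℝ (Fin n)) :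
    ∫ Z, ⟪Z, a⟫ ^ 2 ∂stdGaussian (EuclideanSpace ℝ (Fin n)) = ∑ k, a k ^ 2 := by
  have hv := variance_dual_stdGaussian (E := EuclideanSpace ℝ (Fin n))
    (InnerProductSpace.toDual ℝ _ a)
  rw [variance_of_integral_eq_zero (InnerProductSpace.toDual ℝ _ a).continuous.aemeasurable
    (integral_strongDual_stdGaussian _), LinearIsometryEquiv.norm_map,
    EuclideanSpace.real_norm_sq_eq] at hv
  rw [← hv]
  exact integral_congr_ae (Eventually.of_forall fun Z => by
    simp only [InnerProductSpace.toDual_apply_apply]; rw [real_inner_comm])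

lemma integral_inner_gaussian (a : EuclideanSpace ℝ (Fin n)) :
    ∫ Z, ⟪Z, a⟫ ∂stdGaussian (EuclideanSpace ℝ (Fin n)) = 0 := by
  have := integral_strongDual_stdGaussian (E := EuclideanSpace ℝ (Fin n))
    (InnerProductSpace.toDual ℝ _ a)
  simpa only [InnerProductSpace.toDual_apply_apply, real_inner_comm a] using this

lemma tm_inner (hK : IsCompact K) (hν : ∀ᵐ z ∂ν, z ∈ K) {h : X → ℝ} (hh : ContinuousOn h K)
    {α : X → EuclideanSpace ℝ (Fin n)} (hα : Continuous α) (Z : EuclideanSpace ℝ (Fin n)) :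
    tm ν h (fun z => ⟪Z, α z⟫) =
      ⟪Z, (WithLp.toLp 2 fun k => tm ν h fun z => α z k : EuclideanSpace ℝ (Fin n))⟫ := by
  have hαk : ∀ k, ContinuousOn (fun z => α z k) K := fun k =>
    ((EuclideanSpace.proj (𝕜 := ℝ) k).continuous.comp hα).continuousOn
  have hi : ∀ k, Integrable (fun z => α z k * Z k * Real.exp (h z)) ν := fun k =>
    integrable_carrier hK hν (((hαk k).mul continuousOn_const).mul hh.rexp)
  simp only [PiLp.inner_apply, RCLike.inner_apply, conj_trivial, tm, Finset.sum_mul]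
  rw [integral_finsetSum _ fun k _ => hi k, Finset.sum_div]
  refine Finset.sum_congr rfl fun k _ => ?_
  rw [div_mul_eq_mul_div, ← integral_mul_const]
  congr 1
  exact integral_congr_ae (Eventually.of_forall fun z => by ring)

lemma integral_tm_inner_sq (hK : IsCompact K) (hν : ∀ᵐ z ∂ν, z ∈ K) {h : X → ℝ}
    (hh : ContinuousOn h K) {α : X → EuclideanSpace ℝ (Fin n)} (hα : Continuous α) {ρ : ℝ}
    (hαb : ∀ z ∈ K, ‖α z‖ ≤ ρ) (m : EuclideanSpace ℝ (Fin n)) :
    Integrable (fun Z => tm ν h (fun z => ⟪Z, α z - m⟫ ^ 2))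
        (stdGaussian (EuclideanSpace ℝ (Fin n))) ∧
      ∫ Z, tm ν h (fun z => ⟪Z, α z - m⟫ ^ 2) ∂stdGaussian (EuclideanSpace ℝ (Fin n)) =
        tm ν h (fun z => ∑ k, (α z - m) k ^ 2) := by
  set γ := stdGaussian (EuclideanSpace ℝ (Fin n))
  have hE : Integrable (fun z => Real.exp (h z)) ν := integrable_carrier hK hν hh.rexp
  have hc : Continuous fun p : EuclideanSpace ℝ (Fin n) × X => ⟪p.1, α p.2 - m⟫ ^ 2 :=
    (continuous_fst.inner ((hα.comp continuous_snd).sub continuous_const)).pow 2
  have hsnd : ∀ᵐ p : EuclideanSpace ℝ (Fin n) × X ∂γ.prod ν, p.2 ∈ K :=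
    Measure.quasiMeasurePreserving_snd.ae hν
  have hm : AEStronglyMeasurable (fun p : EuclideanSpace ℝ (Fin n) × X =>
      ⟪p.1, α p.2 - m⟫ ^ 2) (γ.prod ν) := by
    have hα' : AEStronglyMeasurable α ν := by
      have h2 := hα.continuousOn.aestronglyMeasurable_of_isCompact (μ := ν) hK hK.measurableSet
      rwa [Measure.restrict_eq_self_of_ae_mem hν] at h2
    exact ((continuous_fst.inner continuous_snd).comp_aestronglyMeasurable
      (measurable_fst.aestronglyMeasurable.prodMk ((hα'.comp_snd).sub aestronglyMeasurable_const))).pow 2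
  have hprod : Integrable (fun p : EuclideanSpace ℝ (Fin n) × X =>
      ⟪p.1, α p.2 - m⟫ ^ 2 * Real.exp (h p.2)) (γ.prod ν) := by
    refine ((integrable_norm_pow_gaussian 2).mul_prod (hE.const_mul ((ρ + ‖m‖) ^ 2))).mono'
      (hm.mul hE.aestronglyMeasurable.comp_snd) ?_
    filter_upwards [hsnd] with p hp
    rw [Real.norm_of_nonneg (mul_nonneg (sq_nonneg _) (Real.exp_pos _).le), ← mul_assoc]
    refine mul_le_mul_of_nonneg_right ?_ (Real.exp_pos _).le
    rw [← sq_abs, ← mul_pow]
    exact pow_le_pow_left₀ (abs_nonneg _) ((abs_real_inner_le_norm _ _).trans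
      (mul_le_mul_of_nonneg_left ((norm_sub_le _ _).trans (by linarith [hαb _ hp])) (norm_nonneg _))) 2
  refine ⟨hprod.integral_prod_left.div_const _, ?_⟩
  simp only [tm]
  rw [integral_div, integral_integral_swap hprod]
  congr 1
  refine integral_congr_ae (Eventually.of_forall fun z => ?_)
  simp only
  rw [integral_mul_const, integral_inner_sq_gaussian]

/-- One Gaussian step costs at most half the variance. -/
theorem gauss_step_le (hK : IsCompact K) (hν : ∀ᵐ z ∂ν, z ∈ K) {h : X → ℝ} (hh : ContinuousOn h K)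
    {α : X → EuclideanSpace ℝ (Fin n)} (hα : Continuous α) {ρ δ : ℝ} (hρ : 0 ≤ ρ) (hδ : 0 ≤ δ)
    (hαb : ∀ z ∈ K, ‖α z‖ ≤ ρ) :
    ∫ Z, lse ν (fun z => h z + √δ * ⟪Z, α z⟫) ∂stdGaussian (EuclideanSpace ℝ (Fin n)) ≤
      lse ν h + δ / 2 * ∑ k, tv ν h (fun z => α z k) +
        200 * (√δ * ρ) ^ 3 * ∫ Z, ‖Z‖ ^ 3 ∂stdGaussian (EuclideanSpace ℝ (Fin n)) := by
  set γ := stdGaussian (EuclideanSpace ℝ (Fin n))
  have hc : ∀ Z, ContinuousOn (fun z => √δ * ⟪Z, α z⟫) K := fun Z =>
    (continuous_const.mul (continuous_const.inner hα)).continuousOn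
  have hab : ∀ Z, ∀ z ∈ K, |√δ * ⟪Z, α z⟫| ≤ √δ * ρ * ‖Z‖ := fun Z z hz => by
    rw [abs_mul, abs_of_nonneg (Real.sqrt_nonneg _), mul_assoc]
    exact mul_le_mul_of_nonneg_left ((abs_real_inner_le_norm _ _).trans
      (by rw [mul_comm]; exact mul_le_mul_of_nonneg_right (hαb z hz) (norm_nonneg _)))
      (Real.sqrt_nonneg _)
  set m : EuclideanSpace ℝ (Fin n) := WithLp.toLp 2 fun k => tm ν h fun z => α z k
  set q : EuclideanSpace ℝ (Fin n) → ℝ := fun Z => tm ν h (fun z => ⟪Z, α z - m⟫ ^ 2)
  have etm := tm_inner hK hν hh hα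
  have hpt : ∀ Z, lse ν (fun z => h z + √δ * ⟪Z, α z⟫) ≤
      lse ν h + (√δ * ⟪Z, m⟫ + (δ / 2 * q Z + 200 * (√δ * ρ) ^ 3 * ‖Z‖ ^ 3)) := fun Z => by
    have h1 := (abs_le.1 (abs_lse_expand hK hν hh (hc Z) (by positivity) (hab Z))).2
    have etv : tv ν h (fun z => ⟪Z, α z⟫) = q Z := by simp only [tv, etm, q, m, inner_sub_right]
    rw [tm_const_mul, tv_smul, etm, etv, Real.sq_sqrt hδ, mul_pow _ ‖Z‖] at h1
    linarith
  obtain ⟨hqi, hmean⟩ := integral_tm_inner_sq hK hν hh hα hαb m
  have hαk : ∀ k, ContinuousOn (fun z => α z k) K := fun k =>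
    ((EuclideanSpace.proj (𝕜 := ℝ) k).continuous.comp hα).continuousOn
  have hsum : tm ν h (fun z => ∑ k, (α z - m) k ^ 2) = ∑ k, tv ν h (fun z => α z k) := by
    have hi : ∀ k, Integrable (fun z => (α z k - tm ν h fun z => α z k) ^ 2 * Real.exp (h z)) ν :=
      fun k => integrable_carrier hK hν ((((hαk k).sub continuousOn_const).pow 2).mul hh.rexp)
    simp only [tm] at hi
    simp only [tv, tm, Finset.sum_mul, PiLp.sub_apply, m]
    rw [integral_finsetSum _ fun k _ => hi k, Finset.sum_div]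
  rw [hsum] at hmean
  have hl : Integrable (fun Z : EuclideanSpace ℝ (Fin n) => √δ * ⟪Z, m⟫) γ :=
    (((IsGaussian.memLp_id γ 1 (by simp)).integrable le_rfl).inner_const m).const_mul _
  have hcub := (integrable_norm_pow_gaussian (n := n) 3).const_mul (200 * (√δ * ρ) ^ 3)
  have h12 : Integrable (fun Z => δ / 2 * q Z + 200 * (√δ * ρ) ^ 3 * ‖Z‖ ^ 3) γ :=
    (hqi.const_mul _).add hcub
  have h123 : Integrable (fun Z => √δ * ⟪Z, m⟫ + (δ / 2 * q Z + 200 * (√δ * ρ) ^ 3 * ‖Z‖ ^ 3)) γ :=
    hl.add h12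
  refine (integral_mono ?_ ((integrable_const _).add h123) hpt).trans (le_of_eq ?_)
  · have hlip : LipschitzWith (Real.toNNReal (√δ * ρ))
        (fun Z : EuclideanSpace ℝ (Fin n) => lse ν (fun z => h z + √δ * ⟪Z, α z⟫)) := by
      refine LipschitzWith.of_dist_le_mul fun Z Z' => ?_
      have h2 := abs_lse_add_sub_le hK hν (hh.add (hc Z')) (hc (Z - Z')) (hab _)
      rw [Real.coe_toNNReal _ (by positivity), Real.dist_eq, dist_eq_norm]
      refine le_trans (le_of_eq ?_) h2
      congr 2
      · congr 1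
        funext z
        simp only [Pi.add_apply, inner_sub_left]; ring
    refine ((integrable_const (|lse ν h|)).add ((integrable_norm_pow_gaussian (n := n) 1).const_mul (√δ * ρ))).mono'
      hlip.continuous.aestronglyMeasurable (Eventually.of_forall fun Z => ?_)
    have h2 := abs_lse_add_sub_le hK hν hh (hc Z) (hab Z)
    simp only [Pi.add_apply, pow_one, Real.norm_eq_abs]
    linarith [abs_sub_abs_le_abs_sub (lse ν fun z => h z + √δ * ⟪Z, α z⟫) (lse ν h)]
  · rw [integral_add' (integrable_const _) h123, integral_const, probReal_univ, one_smul,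
      integral_add hl h12, integral_add (hqi.const_mul _) hcub, integral_const_mul, integral_inner_gaussian,
      integral_const_mul, integral_const_mul, hmean]
    ring

end Vale.Agent.P219.CH.Sharp
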