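import Vale.Agent.P219.Sharp.Centre
import Vale.Agent.P219.Sharp.TermBlock

/-!
# P219, the sharp constant: the terminal entropy against the Gaussian channel
-/

noncomputable section

open MeasureTheory ProbabilityTheory Set Filter Topology Matrix
open scoped RealInnerProductSpace

namespace Vale.Agent.P219.CH.Sharp

variable {n : ℕ}

section Generic

variable {X : Type*} [MeasurableSpace X] [TopologicalSpace X] [OpensMeasurableSpace X] [T2Space X]
  {ν : Measure X} [IsFiniteMeasure ν] [NeZero ν] {K : Set X}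

lemma lse_tangent (hK : IsCompact K) (hν : ∀ᵐ z ∂ν, z ∈ K) {f g : X → ℝ} (hf : ContinuousOn f K)
    (hg : ContinuousOn g K) : lse ν f + tm ν f g ≤ lse ν fun z => f z + g z := by
  rw [lse_add_eq hK hν hf hg]
  set m := tm ν f g
  have h1 : Real.exp m ≤ tm ν f fun z => Real.exp (g z) := by
    have e : tm ν f (fun z => Real.exp m * (g z + (1 - m))) = Real.exp m := by
      rw [tm_const_mul, tm_add hK hν hf hg continuousOn_const, tm_const hK hν hf]
      simp [m]
    rw [← e]
    refine tm_mono hK hν hf (continuousOn_const.mul (hg.add continuousOn_const)) hg.rexp fun z _ => ?_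
    have h2 := mul_le_mul_of_nonneg_left (Real.add_one_le_exp (g z - m)) (Real.exp_pos m).le
    rw [← Real.exp_add, add_sub_cancel] at h2
    linarith
  have := Real.log_le_log (Real.exp_pos m) h1
  rw [Real.log_exp] at this
  linarith

lemma continuousOn_driftSum {v : Fin n → X → ℝ} (hv : ∀ k, ContinuousOn (v k) K) (y : X) (b : ℝ) :
    ∀ ks : List (Fin n), ContinuousOn (fun z => driftSum v y b ks z) K
  | [] => by simp only [driftSum, List.map_nil, List.sum_nil]; exact continuousOn_const
  | k :: ks => by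
      simp only [driftSum, List.map_cons, List.sum_cons]
      exact ((continuousOn_const.mul (((hv k).sub continuousOn_const).pow 2)).div_const 2).add
        (continuousOn_driftSum hv y b ks)

lemma continuousOn_logRatio {V : X → ℝ} (hV : PosOn K V) (y : X) :
    ContinuousOn (fun z => logRatio y V z) K :=
  (hV.1.log fun z hz => (hV.2 z hz).ne').sub continuousOn_const

/-- A block seen from `y`, first order only. -/
theorem block_crude (hK : IsCompact K) (hν : ∀ᵐ z ∂ν, z ∈ K) {v : Fin n → X → ℝ}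
    (hv : ∀ k, ContinuousOn (v k) K) {b : ℝ} (hb : b ≤ 1 / 16)
    (hvb : ∀ k, ∀ z ∈ K, |v k z| ≤ b) (y : X) (hyb : ∀ k, |v k y| ≤ b) {f : X → ℝ}
    (hf : ContinuousOn f K) :
    ∀ (ks : List (Fin n)) (V : X → ℝ), PosOn K V → 0 < V y →
      V y * lse ν (fun z => logRatio y V z + f z - driftSum v y b ks z) ≤
        blockAvg v ks (fun W => W y * lse ν fun z => logRatio y W z + f z) V := by
  intro ks
  induction ks with
  | nil => intro V _ _; simp [blockAvg, driftSum]
  | cons k ks ih =>
    intro V hV hVy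
    obtain ⟨hp, hm⟩ := hV.mul_step (hv k) fun z hz => (hvb k z hz).trans_lt (by linarith)
    obtain ⟨y1, y2⟩ := abs_le.1 (hyb k)
    set c := v k y
    have p1 : 0 < 1 + c := by linarith
    have p2 : 0 < 1 - c := by linarith
    set h : X → ℝ := fun z => logRatio y V z + f z - driftSum v y b (k :: ks) z
    have hh : ContinuousOn h K := ((continuousOn_logRatio hV y).add hf).sub (continuousOn_driftSum hv y b _)
    set Δ : X → ℝ := fun z => v k z - c
    have hΔc : ContinuousOn Δ K := (hv k).sub continuousOn_const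
    have cp : lse ν h + tm ν h (fun z => 1 / (1 + c) * Δ z) ≤
        lse ν (fun z => logRatio y (fun z => V z * (1 + v k z)) z + f z - driftSum v y b ks z) := by
      refine (lse_tangent hK hν hh (continuousOn_const.mul hΔc)).trans
        (lse_mono hK hν (hh.add (continuousOn_const.mul hΔc))
        (((continuousOn_logRatio hp y).add hf).sub (continuousOn_driftSum hv y b _)) fun z hz => ?_)
      have h1 := (log_step_bounds (hvb k z hz) (hyb k) hb).1
      have e : (v k z - c) / (1 + c) = 1 / (1 + c) * Δ z := by simp only [Δ]; ring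
      simp only [Pi.add_apply, Pi.mul_apply, h, logRatio, driftSum, List.map_cons, List.sum_cons, drift]
      rw [Real.log_mul (hV.2 z hz).ne' (by linarith [(abs_le.1 (hvb k z hz)).1]),
        Real.log_mul hVy.ne' p1.ne']
      linarith
    have cm : lse ν h + tm ν h (fun z => -1 / (1 - c) * Δ z) ≤
        lse ν (fun z => logRatio y (fun z => V z * (1 - v k z)) z + f z - driftSum v y b ks z) := by
      refine (lse_tangent hK hν hh (continuousOn_const.mul hΔc)).trans
        (lse_mono hK hν (hh.add (continuousOn_const.mul hΔc))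
        (((continuousOn_logRatio hm y).add hf).sub (continuousOn_driftSum hv y b _)) fun z hz => ?_)
      have h1 := (log_step_bounds (a := -v k z) (c := -c) (by rw [abs_neg]; exact hvb k z hz)
        (by rw [abs_neg]; exact hyb k) hb).1
      simp only [← sub_eq_add_neg] at h1
      have e : (-v k z - -c) / (1 - c) = -1 / (1 - c) * Δ z := by simp only [Δ]; ring
      have e2 : (-v k z - -c) ^ 2 = (v k z - c) ^ 2 := by ring
      rw [e, e2] at h1
      simp only [Pi.add_apply, Pi.mul_apply, h, logRatio, driftSum, List.map_cons, List.sum_cons, drift]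
      rw [Real.log_mul (hV.2 z hz).ne' (by linarith [(abs_le.1 (hvb k z hz)).2]),
        Real.log_mul hVy.ne' p2.ne']
      linarith
    rw [tm_const_mul] at cp cm
    have q1 := mul_le_mul_of_nonneg_left cp (mul_nonneg hVy.le p1.le)
    have q2 := mul_le_mul_of_nonneg_left cm (mul_nonneg hVy.le p2.le)
    have ip := ih _ hp (mul_pos hVy p1)
    have im := ih _ hm (mul_pos hVy p2)
    have e1 : V y * (1 + c) * (1 / (1 + c) * tm ν h Δ) + V y * (1 - c) * (-1 / (1 - c) * tm ν h Δ) = 0 := by
      field_simp; ring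
    simp only [blockAvg, stepAvg]
    linarith

variable {α : X → EuclideanSpace ℝ (Fin n)} {ρ : ℝ}

/-- The Gaussian tilt. -/
def gaussTilt (α : X → EuclideanSpace ℝ (Fin n)) (Z : EuclideanSpace ℝ (Fin n)) (r : ℝ) (z : X) : ℝ :=
  ⟪Z, α z⟫ - r * ‖α z‖ ^ 2 / 2

lemma continuousOn_gaussTilt (hα : Continuous α) (Z : EuclideanSpace ℝ (Fin n)) (r : ℝ) :
    ContinuousOn (gaussTilt α Z r) K :=
  ((continuous_const.inner hα).sub ((continuous_const.mul (hα.norm.pow 2)).div_const 2)).continuousOn

lemma lse_tilt_props (hK : IsCompact K) (hν : ∀ᵐ z ∂ν, z ∈ K) (hα : Continuous α) (hρ : 0 ≤ ρ)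
    (hαb : ∀ z ∈ K, ‖α z‖ ≤ ρ) {g : X → ℝ} (hg : ContinuousOn g K) (r : ℝ) :
    Continuous (fun Z => lse ν fun z => g z + gaussTilt α Z r z) ∧
      ∀ Z, ‖lse ν fun z => g z + gaussTilt α Z r z‖ ≤
        |lse ν fun z => g z + gaussTilt α 0 r z| + ρ * ‖Z‖ := by
  have hdiff : ∀ Z Z', |(lse ν fun z => g z + gaussTilt α Z r z) -
      lse ν fun z => g z + gaussTilt α Z' r z| ≤ ρ * ‖Z - Z'‖ := fun Z Z' => by
    have h2 := abs_lse_add_sub_le hK hν (hg.add (continuousOn_gaussTilt hα Z' r))
      (d := fun z => ⟪Z - Z', α z⟫) (continuous_const.inner hα).continuousOn (a := ρ * ‖Z - Z'‖)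
      fun z hz => (abs_real_inner_le_norm _ _).trans
        (by rw [mul_comm]; exact mul_le_mul_of_nonneg_right (hαb z hz) (norm_nonneg _))
    refine le_trans (le_of_eq ?_) h2
    congr 2
    · congr 1
      funext z
      simp only [Pi.add_apply, gaussTilt, inner_sub_left]; ring
  refine ⟨(LipschitzWith.of_dist_le_mul (K := ρ.toNNReal) fun Z Z' => by
    rw [Real.coe_toNNReal _ hρ, Real.dist_eq, dist_eq_norm]; exact hdiff Z Z').continuous, fun Z => ?_⟩
  have h1 := hdiff Z 0
  rw [sub_zero] at h1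
  rw [Real.norm_eq_abs]
  linarith [abs_sub_abs_le_abs_sub (lse ν fun z => g z + gaussTilt α Z r z)
    (lse ν fun z => g z + gaussTilt α 0 r z)]

lemma integrable_lse_tilt (hK : IsCompact K) (hν : ∀ᵐ z ∂ν, z ∈ K) (hα : Continuous α) (hρ : 0 ≤ ρ)
    (hαb : ∀ z ∈ K, ‖α z‖ ≤ ρ) {g : X → ℝ} (hg : ContinuousOn g K) (r : ℝ)
    {L : EuclideanSpace ℝ (Fin n) → EuclideanSpace ℝ (Fin n)} (hL : Continuous L)
    {c : ℝ} (hc : 0 ≤ c) (hLb : ∀ Z, ‖L Z‖ ≤ c * ‖Z‖ + c) :
    Integrable (fun Z => lse ν fun z => g z + gaussTilt α (L Z) r z)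
      (stdGaussian (EuclideanSpace ℝ (Fin n))) := by
  obtain ⟨h1, h2⟩ := lse_tilt_props hK hν hα hρ hαb hg r
  refine ((integrable_const (|lse ν fun z => g z + gaussTilt α 0 r z| + ρ * c)).add
    ((integrable_norm_pow_gaussian (n := n) 1).const_mul (ρ * c))).mono'
    (h1.comp hL).aestronglyMeasurable (Eventually.of_forall fun Z => ?_)
  have := mul_le_mul_of_nonneg_left (hLb Z) hρ
  simp only [Pi.add_apply, pow_one]
  linarith [h2 (L Z)]

lemma integral_blockAvg_param {Ω : Type*} [MeasurableSpace Ω] {μ : Measure Ω} {v : Fin n → X → ℝ}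
    {F : Ω → (X → ℝ) → ℝ} : ∀ (ks : List (Fin n)) (V : X → ℝ),
      (∀ W ∈ children v ks V, Integrable (fun ω => F ω W) μ) →
      Integrable (fun ω => blockAvg v ks (F ω) V) μ ∧
        ∫ ω, blockAvg v ks (F ω) V ∂μ = blockAvg v ks (fun W => ∫ ω, F ω W ∂μ) V
  | [], V, h => ⟨h V rfl, rfl⟩
  | k :: ks, V, h => by
      obtain ⟨i1, e1⟩ := integral_blockAvg_param ks (fun y => V y * (1 + v k y))
        fun W hW => h W (Or.inl hW)
      obtain ⟨i2, e2⟩ := integral_blockAvg_param ks (fun y => V y * (1 - v k y))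
        fun W hW => h W (Or.inr hW)
      refine ⟨(i1.add i2).div_const 2, ?_⟩
      simp only [blockAvg, stepAvg]
      rw [integral_div, integral_add i1 i2, e1, e2]

omit [MeasurableSpace X] [OpensMeasurableSpace X] [T2Space X] in
lemma children_posOn {v : Fin n → X → ℝ} (hv : ∀ k, ContinuousOn (v k) K)
    (hvb : ∀ k, ∀ z ∈ K, |v k z| < 1) :
    ∀ (ks : List (Fin n)) (V : X → ℝ), PosOn K V → ∀ W ∈ children v ks V, PosOn K W
  | [], V, hV, W, hW => by rw [show W = V from hW]; exact hV
  | k :: ks, V, hV, W, hW => by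
      rcases hW with hW | hW
      · exact children_posOn hv hvb ks _ (hV.mul_step (hv k) (hvb k)).1 W hW
      · exact children_posOn hv hvb ks _ (hV.mul_step (hv k) (hvb k)).2 W hW

/-- The Gaussian channel value of a weight with remaining precision `r`. -/
def gaussValue (ν : Measure X) (α : X → EuclideanSpace ℝ (Fin n)) (y : X) (r : ℝ) (W : X → ℝ) : ℝ :=
  ∫ Z, lse ν (fun z => logRatio y W z + gaussTilt α (√r • Z) r z)
    ∂stdGaussian (EuclideanSpace ℝ (Fin n))

/-- The cubic error of one block. -/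
def blockErr (n : ℕ) (b δ ρ ω ε₁ : ℝ) : ℝ :=
  ε₁ + (n : ℝ) * (5400 * b ^ 3)
    + 200 * (√δ * ρ) ^ 3 * (∫ Z, ‖Z‖ ^ 3 ∂stdGaussian (EuclideanSpace ℝ (Fin n)))
    + δ / 2 * ((n : ℝ) * ρ ^ 2) *
      (1 - Real.exp (-(10 * b * n + 2 * (δ * ρ ^ 2 + 5 * (n : ℝ) * b ^ 2))) * (1 - ω))

/-- A block seen from `y` dominates one Gaussian step. -/
theorem block_gauss (hK : IsCompact K) (hν : ∀ᵐ z ∂ν, z ∈ K) {v : Fin n → X → ℝ}
    (hv : ∀ k, ContinuousOn (v k) K) {b : ℝ} (hb0 : 0 ≤ b) (hb : b ≤ 1 / 16)
    (hvb : ∀ k, ∀ z ∈ K, |v k z| ≤ b) (y : X) (hyb : ∀ k, |v k y| ≤ b)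
    (hα : Continuous α) (hρ : 0 ≤ ρ) (hαb : ∀ z ∈ K, ‖α z‖ ≤ ρ) {δ ω ε₁ L : ℝ} (hδ : 0 < δ)
    (hω : 0 ≤ ω) (hω1 : ω ≤ 1) (hL : 0 ≤ L)
    (hdrift : ∀ z ∈ K, driftSum v y b (List.finRange n) z ≤ δ * ‖α z‖ ^ 2 / 2 + ε₁)
    (hpair : ∀ z ∈ K, ∀ z' ∈ K, (1 - ω) * δ * ∑ k, (α z k - α z' k) ^ 2 - L ≤
      ∑ k, ((v k z - v k y) - (v k z' - v k y)) ^ 2)
    {r : ℝ} (hr : 0 ≤ r) {V : X → ℝ} (hV : PosOn K V) (hVy : 0 < V y) :
    V y * (gaussValue ν α y (r + δ) V - blockErr n b δ ρ ω ε₁ - L / 4) ≤
      blockAvg v (List.finRange n) (fun W => W y * gaussValue ν α y r W) V := by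
  set γ := stdGaussian (EuclideanSpace ℝ (Fin n))
  set ks := List.finRange n
  have hvb1 : ∀ k, ∀ z ∈ K, |v k z| < 1 := fun k z hz => (hvb k z hz).trans_lt (by linarith)
  have hR : ∀ {W : X → ℝ}, PosOn K W → ContinuousOn (fun z => logRatio y W z) K := fun hW =>
    continuousOn_logRatio hW y
  have hαk : ∀ k, ContinuousOn (fun z => α z k) K := fun k =>
    ((EuclideanSpace.proj (𝕜 := ℝ) k).continuous.comp hα).continuousOn
  have hscale : ∀ (a : ℝ) (Z : EuclideanSpace ℝ (Fin n)), ‖a • Z‖ ≤ |a| * ‖Z‖ + |a| := fun a Z => by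
    rw [norm_smul, Real.norm_eq_abs]; linarith [abs_nonneg a]
  -- pointwise in the Gaussian variable
  set Fz : EuclideanSpace ℝ (Fin n) → (X → ℝ) → ℝ :=
    fun Z W => W y * lse ν fun z => logRatio y W z + gaussTilt α (√r • Z) r z
  set Gz : EuclideanSpace ℝ (Fin n) → EuclideanSpace ℝ (Fin n) → ℝ :=
    fun Z Z' => lse ν fun z => logRatio y V z + gaussTilt α (√r • Z + √δ • Z') (r + δ) z
  set E := blockErr n b δ ρ ω ε₁ + L / 4
  have hpt : ∀ Z, V y * (∫ Z', Gz Z Z' ∂γ - E) ≤ blockAvg v ks (Fz Z) V := by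
    intro Z
    set f := gaussTilt α (√r • Z) r
    have hf : ContinuousOn f K := continuousOn_gaussTilt hα _ _
    have h1 := block_lower hK hν hv hb0 hb hvb y hyb hf ks V hV hVy
    refine le_trans (mul_le_mul_of_nonneg_left ?_ hVy.le) h1
    have hlen : ks.length = n := List.length_finRange
    rw [hlen, ← List.ofFn_eq_map, List.sum_ofFn]
    set h : X → ℝ := fun z => logRatio y V z + f z - driftSum v y b ks z
    set h' : X → ℝ := fun z => logRatio y V z + f z - δ * ‖α z‖ ^ 2 / 2
    have hds := continuousOn_driftSum hv y b ks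
    have hn2 : ContinuousOn (fun z => δ * ‖α z‖ ^ 2 / 2) K :=
      ((continuous_const.mul (hα.norm.pow 2)).div_const 2).continuousOn
    have hh : ContinuousOn h K := ((hR hV).add hf).sub hds
    have hh' : ContinuousOn h' K := ((hR hV).add hf).sub hn2
    have hlse : lse ν h' - ε₁ ≤ lse ν h := by
      have := lse_mono hK hν (f := fun z => h' z + -ε₁) (hh'.add continuousOn_const) hh fun z hz => by
        simp only [h, h']; linarith [hdrift z hz]
      rw [lse_add_const hK hν hh'] at this
      linarith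
    have hdb : ∀ z ∈ K, |h z - h' z| ≤ δ * ρ ^ 2 + 5 * (n : ℝ) * b ^ 2 := fun z hz => by
      have d0 : 0 ≤ driftSum v y b ks z ∧ driftSum v y b ks z ≤ 5 * (n : ℝ) * b ^ 2 := by
        simp only [driftSum, ks]
        rw [← List.ofFn_eq_map, List.sum_ofFn]
        constructor
        · exact Finset.sum_nonneg fun k _ => by simp only [drift]; positivity
        · have := Finset.sum_le_card_nsmul Finset.univ (fun k => drift v y b k z) (5 * b ^ 2) fun k _ => by
            have h2 : |v k z - v k y| ≤ 2 * b := (abs_sub _ _).trans (by linarith [hvb k z hz, hyb k])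
            have h3 := pow_le_pow_left₀ (abs_nonneg _) h2 2
            rw [sq_abs] at h3
            simp only [drift]
            nlinarith [sq_nonneg b]
          simp only [Finset.card_univ, Fintype.card_fin, nsmul_eq_mul] at this
          linarith
      have h4 := pow_le_pow_left₀ (norm_nonneg _) (hαb z hz) 2
      have h5 : 0 ≤ δ * ‖α z‖ ^ 2 := by positivity
      have h6 := mul_le_mul_of_nonneg_left h4 hδ.le
      simp only [h, h']
      rw [abs_le]; constructor <;> linarith
    set a := δ * ρ ^ 2 + 5 * (n : ℝ) * b ^ 2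
    have htv : Real.exp (-(2 * a)) * ∑ k, tv ν h' (fun z => v k z - v k y) ≤
        ∑ k, tv ν h (fun z => v k z - v k y) := by
      rw [Finset.mul_sum]
      refine Finset.sum_le_sum fun k _ => ?_
      have := tv_change hK hν hh' (hh.sub hh') (g := fun z => v k z - v k y)
        ((hv k).sub continuousOn_const) (a := a) hdb
      simpa using this
    have hsum := sum_tv_le hK hν hh' hαk (q := fun k z => v k z - v k y)
      (fun k => (hv k).sub continuousOn_const) hpair
    have hTα : ∑ k, tv ν h' (fun z => α z k) ≤ (n : ℝ) * ρ ^ 2 := by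
      have := Finset.sum_le_card_nsmul Finset.univ (fun k => tv ν h' fun z => α z k) (ρ ^ 2)
        fun k _ => tv_le hK hν hh' (hαk k) fun z hz => by
          have h2 : |α z k| ≤ ‖α z‖ := by
            rw [← Real.norm_eq_abs]; exact PiLp.norm_apply_le (α z) k
          exact h2.trans (hαb z hz)
      simpa using this
    have hg := gauss_step_le hK hν hh' hα hρ hδ.le hαb
    have eG : (fun Z' => lse ν fun z => h' z + √δ * ⟪Z', α z⟫) = Gz Z := by
      funext Z'
      refine congrArg (lse ν) (funext fun z => ?_)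
      simp only [h', f, gaussTilt, inner_add_left, real_inner_smul_left]
      ring
    rw [eG] at hg
    have c1 : Real.exp (-(10 * b * n + 2 * a)) =
        Real.exp (-(10 * b * n)) * Real.exp (-(2 * a)) := by rw [← Real.exp_add]; ring_nf
    set c := Real.exp (-(10 * b * n + 2 * a))
    set T := ∑ k, tv ν h' (fun z => α z k)
    have hc1 : c ≤ 1 := Real.exp_le_one_iff.2 (neg_nonpos.2 (by positivity))
    have hc0 : 0 ≤ c := (Real.exp_pos _).le
    have k1 : c / 2 * ((1 - ω) * δ * T - L / 2) ≤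
        Real.exp (-(10 * b * n)) / 2 * ∑ k, tv ν h (fun z => v k z - v k y) := by
      calc c / 2 * ((1 - ω) * δ * T - L / 2) ≤ c / 2 * ∑ k, tv ν h' (fun z => v k z - v k y) :=
            mul_le_mul_of_nonneg_left hsum (by positivity)
        _ = Real.exp (-(10 * b * n)) / 2 * (Real.exp (-(2 * a)) *
            ∑ k, tv ν h' (fun z => v k z - v k y)) := by rw [c1]; ring
        _ ≤ _ := mul_le_mul_of_nonneg_left htv (by positivity)
    have k2 : c * L ≤ L := mul_le_of_le_one_left hL hc1
    have k3 : 0 ≤ 1 - c * (1 - ω) := by nlinarith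
    have k4 := mul_le_mul_of_nonneg_left hTα (mul_nonneg (half_pos hδ).le k3)
    simp only [E, blockErr]
    linarith
  -- integrate
  have hWint : ∀ W ∈ children v ks V, Integrable (fun Z => Fz Z W) γ := fun W hW =>
    (integrable_lse_tilt hK hν hα hρ hαb (hR (children_posOn hv hvb1 ks V hV W hW)) r
      (continuous_const_smul _) (abs_nonneg √r) (hscale √r)).const_mul _
  obtain ⟨hBi, hBe⟩ := integral_blockAvg_param (μ := γ) (F := Fz) ks V hWint
  obtain ⟨hcont, hbd⟩ := lse_tilt_props hK hν hα hρ hαb (hR hV) (r + δ)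
  have hGint : Integrable (fun p : EuclideanSpace ℝ (Fin n) × EuclideanSpace ℝ (Fin n) =>
      Gz p.1 p.2) (γ.prod γ) := by
    set A := |lse ν fun z => logRatio y V z + gaussTilt α 0 (r + δ) z|
    have hN := integrable_norm_pow_gaussian (n := n) 1
    refine ((integrable_const A).add (((hN.comp_fst γ).const_mul (ρ * √r)).add
      ((hN.comp_snd γ).const_mul (ρ * √δ)))).mono'
      ((hcont.comp ((continuous_fst.const_smul √r).add (continuous_snd.const_smul √δ))).aestronglyMeasurable)
      (Eventually.of_forall fun p => ?_)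
    have h1 := hbd (√r • p.1 + √δ • p.2)
    have h2 := norm_add_le (√r • p.1) (√δ • p.2)
    rw [norm_smul, norm_smul, Real.norm_of_nonneg (Real.sqrt_nonneg r),
      Real.norm_of_nonneg (Real.sqrt_nonneg δ)] at h2
    have h3 := mul_le_mul_of_nonneg_left h2 hρ
    simp only [Pi.add_apply, pow_one, Gz]
    linarith
  have e : ∫ Z, ∫ Z', Gz Z Z' ∂γ ∂γ = gaussValue ν α y (r + δ) V := by
    rw [← integral_prod (fun p => Gz p.1 p.2) hGint]
    exact gaussian_add hr hδ hcont
  have hI := integral_mono (((hGint.integral_prod_left.sub (integrable_const E)).const_mul (V y)))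
    hBi hpt
  rw [hBe, integral_const_mul, integral_sub' hGint.integral_prod_left (integrable_const E),
    integral_const, probReal_univ, one_smul, e] at hI
  simp only [Fz, integral_const_mul] at hI
  rw [sub_sub]
  exact hI

end Generic

end Vale.Agent.P219.CH.Sharp
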