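import Vale.Agent.P219.Sharp.Defs
import Vale.Agent.P219.CH.Variation
import Vale.Agent.P219.CH.VarDefect

/-!
# P219, part A: the pointwise first variation along a weighted gradient field
-/

noncomputable section

open MeasureTheory Set Filter Topology Matrix

namespace Vale.Agent.P219.CH.Sharp

variable {n : ℕ} {G : (Fin n → ℝ) → Matrix (Fin n) (Fin n) ℝ}
  {D : (Fin n → ℝ) → (Fin n → ℝ) → ℝ}

/-- The field `W ∇ D c`. -/
def wfield (G : (Fin n → ℝ) → Matrix (Fin n) (Fin n) ℝ) (D : (Fin n → ℝ) → (Fin n → ℝ) → ℝ)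
    (c : Fin n → ℝ) (W : (Fin n → ℝ) → ℝ) (y : Fin n → ℝ) : Fin n → ℝ :=
  W y • grad G (D c) y

lemma contDiff_wfield (h : IsCH G D) (c : Fin n → ℝ) {W : (Fin n → ℝ) → ℝ} (hW : ContDiff ℝ 1 W) :
    ContDiff ℝ 1 (wfield G D c W) :=
  hW.smul (h.contDiff_grad_dist c)

lemma gfield_scale_zero (c : Fin n → ℝ) : gfield G D c 0 = grad G (D c) := by
  funext y; simp [gfield, gw]

/-- The pointwise variation is affine in the weight and its differential. -/
lemma defect'_smul_add (y g : Fin n → ℝ) (L : (Fin n → ℝ) →L[ℝ] (Fin n → ℝ))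
    (φ : (Fin n → ℝ) →L[ℝ] ℝ) (a : ℝ) (ξ : Fin n → ℝ) :
    defect' G y (a • g) (a • L + φ.smulRight g) ξ = a * defect' G y g L ξ
      + dens G y * (φ ((G y)⁻¹ *ᵥ ξ) * (ξ ⬝ᵥ g) / conorm G y ξ - φ g * conorm G y ξ) := by
  have e : (opMat (a • L + φ.smulRight g)).trace = a * (opMat L).trace + φ g := by
    rw [clm_eq_sum φ g]
    simp only [Matrix.trace, Matrix.diag, opMat, Matrix.of_apply, Finset.mul_sum,
      ← Finset.sum_add_distrib]
    exact Finset.sum_congr rfl fun i _ => by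
      simp [mul_comm]
  have e2 : dG G y (a • g) = a • dG G y g := by
    ext i j; simp [dG]
  rw [defect', defect', e, e2, Matrix.mul_smul, trace_smul, smul_mulVec, dotProduct_smul]
  simp only [_root_.add_apply, _root_.smul_apply, ContinuousLinearMap.smulRight_apply,
    dotProduct_add, dotProduct_smul, smul_eq_mul]
  ring

/-- The pointwise first variation along `W ∇ D c`. -/
theorem defect'_wfield_le (h : IsCH G D) (c : Fin n → ℝ) {W : (Fin n → ℝ) → ℝ}
    (hW : ContDiff ℝ 1 W) (y : Fin n → ℝ) (hW0 : 0 ≤ W y) {ξ : Fin n → ℝ} (hξ : ξ ≠ 0) :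
    defect' G y (wfield G D c W y) (fderiv ℝ (wfield G D c W) y) ξ
      ≤ -(dens G y * varW G D c W y ξ) := by
  have hd : fderiv ℝ (wfield G D c W) y =
      W y • fderiv ℝ (grad G (D c)) y + (fderiv ℝ W y).smulRight (grad G (D c) y) :=
    ((hW.differentiable one_ne_zero y).hasFDerivAt.smul
      ((h.contDiff_grad_dist c).differentiable one_ne_zero y).hasFDerivAt).fderiv
  have h0 := mul_le_mul_of_nonneg_left (h.defect'_gfield_le c 0 y hξ) hW0
  rw [gfield_scale_zero] at h0
  have hf : firstVar G D c 0 y ξ = ((n : ℝ) - 1) * conorm G y ξ := by simp [firstVar, gw]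
  rw [hf] at h0
  have e1 : fderiv ℝ W y ((G y)⁻¹ *ᵥ ξ) = pairing G y ξ (cd W y) := by
    rw [h.pairing_comm, ← cd_dotProduct]; rfl
  have e2 : fderiv ℝ W y (grad G (D c) y) = pairing G y (cd W y) (cd (D c) y) := (pairing_cd _ _ _).symm
  rw [hd, wfield, defect'_smul_add, e1, e2,
    show ξ ⬝ᵥ grad G (D c) y = pairing G y ξ (cd (D c) y) from rfl, varW]
  refine (add_le_add h0 le_rfl).trans (le_of_eq ?_)
  ring

lemma varW_zero (c : Fin n → ℝ) (W : (Fin n → ℝ) → ℝ) (y : Fin n → ℝ) :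
    varW G D c W y 0 = 0 := by
  simp [varW, conorm_zero]

lemma varW_smul (h : IsCH G D) (c : Fin n → ℝ) (W : (Fin n → ℝ) → ℝ) (y : Fin n → ℝ) {k : ℝ}
    (hk : 0 < k) (ξ : Fin n → ℝ) : varW G D c W y (k • ξ) = k * varW G D c W y ξ := by
  rw [varW, varW, h.conorm_smul, pairing_smul_left, pairing_smul_left, abs_of_pos hk]
  rcases eq_or_ne (conorm G y ξ) 0 with h0 | h0
  · simp [h0]
  · field_simp

lemma continuous_cd_dist (h : IsCH G D) (c : Fin n → ℝ) : Continuous (cd (D c)) :=
  (h.contDiff_cd_dist c).continuous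

lemma continuousAt_varW (h : IsCH G D) (c : Fin n → ℝ) {W : (Fin n → ℝ) → ℝ} (hW : ContDiff ℝ 1 W)
    (y : Fin n → ℝ) {ξ : Fin n → ℝ} (hξ : ξ ≠ 0) :
    ContinuousAt (fun p : (Fin n → ℝ) × (Fin n → ℝ) => varW G D c W p.1 p.2) (y, ξ) := by
  have hW' : Continuous fun p : (Fin n → ℝ) × (Fin n → ℝ) => cd W p.1 :=
    (continuous_cd hW).comp continuous_fst
  have hD' : Continuous fun p : (Fin n → ℝ) × (Fin n → ℝ) => cd (D c) p.1 :=
    (continuous_cd_dist h c).comp continuous_fst
  have p1 : Continuous fun p : (Fin n → ℝ) × (Fin n → ℝ) => pairing G p.1 (cd W p.1) (cd (D c) p.1) :=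
    h.continuous_pairing.comp (continuous_fst.prodMk (hW'.prodMk hD'))
  have p2 : Continuous fun p : (Fin n → ℝ) × (Fin n → ℝ) => pairing G p.1 p.2 (cd (D c) p.1) :=
    h.continuous_pairing.comp (continuous_fst.prodMk (continuous_snd.prodMk hD'))
  have p3 : Continuous fun p : (Fin n → ℝ) × (Fin n → ℝ) => pairing G p.1 p.2 (cd W p.1) :=
    h.continuous_pairing.comp (continuous_fst.prodMk (continuous_snd.prodMk hW'))
  exact (((continuous_const.mul (hW.continuous.comp continuous_fst)).add p1).mul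
    h.continuous_conorm).continuousAt.sub
      ((p2.mul p3).continuousAt.div h.continuous_conorm.continuousAt (h.conorm_pos y hξ).ne')

lemma measurable_varW_cd (h : IsCH G D) (c : Fin n → ℝ) {W : (Fin n → ℝ) → ℝ} (hW : ContDiff ℝ 1 W)
    {u : (Fin n → ℝ) → ℝ} (hu : ContDiff ℝ 1 u) :
    Measurable fun y => varW G D c W y (cd u y) := by
  have hW' := continuous_cd hW
  have hD' := continuous_cd_dist h c
  have hu' := continuous_cd hu
  have p1 := h.continuous_pairing.comp (continuous_id.prodMk (hW'.prodMk hD'))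
  have p2 := h.continuous_pairing.comp (continuous_id.prodMk (hu'.prodMk hD'))
  have p3 := h.continuous_pairing.comp (continuous_id.prodMk (hu'.prodMk hW'))
  exact (((continuous_const.mul hW.continuous).add p1).mul
    (h.continuous_conorm_cd hu)).measurable.sub
      ((p2.mul p3).measurable.div (h.continuous_conorm_cd hu).measurable)

/-- On a compact set the variation density is bounded by the length. -/
lemma exists_abs_varW_le (h : IsCH G D) (c : Fin n → ℝ) {W : (Fin n → ℝ) → ℝ} (hW : ContDiff ℝ 1 W)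
    {K : Set (Fin n → ℝ)} (hK : IsCompact K) :
    ∃ C : ℝ, 0 < C ∧ ∀ y ∈ K, ∀ ξ, |varW G D c W y ξ| ≤ C * conorm G y ξ := by
  obtain ⟨C, hC⟩ := hK.bddAbove_image
    (f := fun y => ((n : ℝ) + 1) * |W y| + 2 * (conorm G y (cd W y) * conorm G y (cd (D c) y)))
    (((continuous_const.mul hW.continuous.abs).add (continuous_const.mul
      ((h.continuous_conorm.comp (continuous_id.prodMk (continuous_cd hW))).mul
        (h.continuous_conorm.comp (continuous_id.prodMk (continuous_cd_dist h c)))))).continuousOn)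
  refine ⟨max C 1, lt_max_of_lt_right one_pos, fun y hy ξ => ?_⟩
  set k := conorm G y ξ
  set a := conorm G y (cd W y)
  set b := conorm G y (cd (D c) y)
  have hk : 0 ≤ k := conorm_nonneg y ξ
  have ha : 0 ≤ a := conorm_nonneg _ _
  have hb : 0 ≤ b := conorm_nonneg _ _
  have h1 : |pairing G y ξ (cd (D c) y) * pairing G y ξ (cd W y) / k| ≤ a * b * k := by
    rcases eq_or_lt_of_le hk with h0 | h0
    · simp [← h0]
    · rw [abs_div, abs_of_pos h0, div_le_iff₀ h0, abs_mul]
      calc _ ≤ k * b * (k * a) := mul_le_mul (h.abs_pairing_le y _ _) (h.abs_pairing_le y _ _)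
            (abs_nonneg _) (mul_nonneg hk hb)
        _ = _ := by ring
  have h2 : |((n : ℝ) - 1) * W y + pairing G y (cd W y) (cd (D c) y)| ≤
      ((n : ℝ) + 1) * |W y| + a * b := by
    refine (abs_add_le _ _).trans (add_le_add ?_ (h.abs_pairing_le y _ _))
    rw [abs_mul]
    refine mul_le_mul_of_nonneg_right (abs_le.2 ⟨?_, ?_⟩) (abs_nonneg _) <;>
      linarith [(Nat.cast_nonneg n : (0 : ℝ) ≤ n)]
  have h3 : ((n : ℝ) + 1) * |W y| + 2 * (a * b) ≤ max C 1 :=
    (hC ⟨y, hy, rfl⟩).trans (le_max_left _ _)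
  rw [varW]
  refine (abs_sub _ _).trans ?_
  rw [abs_mul, abs_of_nonneg hk]
  linarith [mul_le_mul_of_nonneg_right h2 hk, mul_le_mul_of_nonneg_right h3 hk]

end Vale.Agent.P219.CH.Sharp
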