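import Vale.Agent.P219.Sharp.VarAlgebra

/-!
# P219, part A: small steps along a fixed field
-/

noncomputable section

open MeasureTheory Set Filter Topology Matrix

namespace Vale.Agent.P219.CH.Sharp

variable {n : ℕ} {G : (Fin n → ℝ) → Matrix (Fin n) (Fin n) ℝ}
  {D : (Fin n → ℝ) → (Fin n → ℝ) → ℝ} {K : Set (Fin n → ℝ)} {Z : (Fin n → ℝ) → Fin n → ℝ}

/-- A first order bound of `defect` along a field, uniformly on a compact set. -/
theorem exists_defect_step (h : IsCH G D) (hK : IsCompact K) (hZ : ContDiff ℝ 1 Z)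
    (V : (Fin n → ℝ) → (Fin n → ℝ) → ℝ)
    (hVc : ∀ y ξ, ξ ≠ 0 → ContinuousAt (fun p : (Fin n → ℝ) × (Fin n → ℝ) => V p.1 p.2) (y, ξ))
    (hVs : ∀ y ξ, ∀ k : ℝ, 0 < k → V y (k • ξ) = k * V y ξ) (hV0 : ∀ y, V y 0 = 0)
    (hle : ∀ y ∈ K, ∀ ξ, ξ ≠ 0 → defect' G y (Z y) (fderiv ℝ Z y) ξ ≤ -(dens G y * V y ξ))
    {e : ℝ} (he : 0 < e) :
    ∃ τ : ℝ, 0 < τ ∧ ∀ t ∈ Icc 0 τ, ∀ y ∈ K, ∀ ξ : Fin n → ℝ,
      defect G y (Z y) (fderiv ℝ Z y) ξ t ≤
        -(t * ((1 + t • opMat (fderiv ℝ Z y)).det * dens G (y + t • Z y) *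
          (V (y + t • Z y) ξ - e * conorm G (y + t • Z y) ξ))) := by
  set P : Set ((Fin n → ℝ) × (Fin n → ℝ)) := K ×ˢ Metric.sphere 0 1
  have hP : IsCompact P := hK.prod (isCompact_sphere _ _)
  set Q : ℝ → (Fin n → ℝ) × (Fin n → ℝ) → Prop := fun t w => 0 ≤ t →
      defect G w.1 (Z w.1) (fderiv ℝ Z w.1) w.2 t ≤
        -(t * ((1 + t • opMat (fderiv ℝ Z w.1)).det * dens G (w.1 + t • Z w.1) *
          (V (w.1 + t • Z w.1) w.2 - e * conorm G (w.1 + t • Z w.1) w.2)))
  have hT : Continuous fun q : ℝ × (Fin n → ℝ) × (Fin n → ℝ) => q.1 := continuous_fst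
  have hY : Continuous fun q : ℝ × (Fin n → ℝ) × (Fin n → ℝ) => q.2.1 :=
    continuous_fst.comp continuous_snd
  have hX : Continuous fun q : ℝ × (Fin n → ℝ) × (Fin n → ℝ) => q.2.2 :=
    continuous_snd.comp continuous_snd
  have hv : Continuous fun q : ℝ × (Fin n → ℝ) × (Fin n → ℝ) => Z q.2.1 := hZ.continuous.comp hY
  have hL : Continuous fun q : ℝ × (Fin n → ℝ) × (Fin n → ℝ) => fderiv ℝ Z q.2.1 :=
    (hZ.continuous_fderiv one_ne_zero).comp hY
  have hz : Continuous fun q : ℝ × (Fin n → ℝ) × (Fin n → ℝ) => q.2.1 + q.1 • Z q.2.1 :=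
    hY.add (hT.smul hv)
  set Ψ : ℝ × (Fin n → ℝ) × (Fin n → ℝ) → ℝ × (Fin n → ℝ) × (Fin n → ℝ) ×
      ((Fin n → ℝ) →L[ℝ] (Fin n → ℝ)) × (Fin n → ℝ) :=
    fun q => (q.1, q.2.1, Z q.2.1, fderiv ℝ Z q.2.1, q.2.2)
  have hΨ : Continuous Ψ := hT.prodMk (hY.prodMk (hv.prodMk (hL.prodMk hX)))
  have h0 : ∀ w ∈ P, ∀ᶠ q : ℝ × (Fin n → ℝ) × (Fin n → ℝ) in 𝓝 ((0 : ℝ), w), Q q.1 q.2 := by
    rintro ⟨y₀, ξ₀⟩ ⟨hy₀, hsph⟩
    have hξ : ξ₀ ≠ 0 := fun h0 => by simp only at hsph; simp [h0] at hsph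
    set q₀ : ℝ × (Fin n → ℝ) × (Fin n → ℝ) := (0, y₀, ξ₀)
    have hC := h.contDiffAt_defectU y₀ (Z y₀) (fderiv ℝ Z y₀) hξ
    set g : ℝ × (Fin n → ℝ) × (Fin n → ℝ) → ℝ := fun q => fderiv ℝ (defectU G) (Ψ q) (1, 0)
    have hg : ContinuousAt g q₀ :=
      (ContinuousLinearMap.apply ℝ ℝ _).continuous.continuousAt.comp
        ((hC.continuousAt_fderiv one_ne_zero).comp_of_eq hΨ.continuousAt rfl)
    have hsmooth : ∀ᶠ q in 𝓝 q₀, ContDiffAt ℝ 1 (defectU G) (Ψ q) :=
      hΨ.continuousAt.eventually (hC.eventually (by simp))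
    set R : ℝ × (Fin n → ℝ) × (Fin n → ℝ) → ℝ := fun q =>
      (1 + q.1 • opMat (fderiv ℝ Z q.2.1)).det * dens G (q.2.1 + q.1 • Z q.2.1) *
        (V (q.2.1 + q.1 • Z q.2.1) q.2.2 - e * conorm G (q.2.1 + q.1 • Z q.2.1) q.2.2)
    have hR : ContinuousAt R q₀ := by
      have hV : ContinuousAt (fun q : ℝ × (Fin n → ℝ) × (Fin n → ℝ) =>
          V (q.2.1 + q.1 • Z q.2.1) q.2.2) q₀ :=
        (hVc y₀ ξ₀ hξ).comp_of_eq (hz.prodMk hX).continuousAt (by simp [q₀])
      exact ((Continuous.matrix_det (continuous_const.add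
        (hT.smul (continuous_opMat.comp hL)))).mul (h.continuous_dens.comp hz)).continuousAt.mul
          (hV.sub (continuous_const.mul (h.continuous_conorm.comp (hz.prodMk hX))).continuousAt)
    have hneg : g q₀ + R q₀ < 0 := by
      have h1 := hle y₀ hy₀ ξ₀ hξ
      have h2 := mul_pos (h.dens_pos y₀) (mul_pos he (h.conorm_pos y₀ hξ))
      have hval : g q₀ = defect' G y₀ (Z y₀) (fderiv ℝ Z y₀) ξ₀ :=
        (hasDerivAt_defectU hC).unique (h.hasDerivAt_defect y₀ (Z y₀) _ hξ)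
      rw [hval]
      simp only [R, q₀, zero_smul, add_zero, Matrix.det_one, one_mul, mul_sub]
      linarith
    obtain ⟨ε, hε⟩ : ∃ ε, ε = -(g q₀ + R q₀) / 2 := ⟨_, rfl⟩
    have hε0 : 0 < ε := by rw [hε]; linarith
    have hev := (hsmooth.and (hg.eventually (Iio_mem_nhds (show g q₀ < g q₀ + ε by linarith)))).and
      (hR.eventually (Iio_mem_nhds (show R q₀ < R q₀ + ε by linarith)))
    obtain ⟨δ, hδ, hsub⟩ := Metric.eventually_nhds_iff.1 hev
    refine Metric.eventually_nhds_iff.2 ⟨δ, hδ, fun q hq => ?_⟩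
    obtain ⟨t, y, ξ⟩ := q
    intro ht
    simp only at ht ⊢
    rcases eq_or_lt_of_le ht with rfl | htpos
    · simp [defect, mul_comm]
    have hmem : ∀ r ∈ Icc (0 : ℝ) t, dist (r, y, ξ) q₀ < δ := by
      intro r hr
      refine lt_of_le_of_lt ?_ hq
      rw [Prod.dist_eq, Prod.dist_eq (x := (t, y, ξ))]
      refine max_le_max ?_ le_rfl
      simp only [q₀, Real.dist_eq, sub_zero]
      rw [abs_of_nonneg hr.1, abs_of_nonneg ht]
      exact hr.2
    have hd : ∀ r ∈ Icc (0 : ℝ) t, HasDerivAt (defect G y (Z y) (fderiv ℝ Z y) ξ) (g (r, y, ξ)) r :=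
      fun r hr => hasDerivAt_defectU (hsub (hmem r hr)).1.1
    obtain ⟨r, hr, hslope⟩ := exists_hasDerivAt_eq_slope _ _ htpos
      (fun r hr => (hd r hr).continuousAt.continuousWithinAt)
      (fun r hr => hd r (Ioo_subset_Icc_self hr))
    have hgr : g (r, y, ξ) < g q₀ + ε := (hsub (hmem r (Ioo_subset_Icc_self hr))).1.2
    have hRt : R (t, y, ξ) < R q₀ + ε := (hsub hq).2
    have hz0 : defect G y (Z y) (fderiv ℝ Z y) ξ 0 = 0 := by simp [defect, mul_comm]
    rw [hz0, sub_zero, sub_zero, eq_div_iff htpos.ne'] at hslope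
    have h3 : (g (r, y, ξ) + R (t, y, ξ)) * t ≤ 0 :=
      mul_nonpos_of_nonpos_of_nonneg (by linarith) ht
    show _ ≤ -(t * R (t, y, ξ))
    rw [← hslope]
    linarith
  obtain ⟨τ, hτ, hsub⟩ := Metric.eventually_nhds_iff.1
    (hP.eventually_forall_of_forall_eventually (x₀ := (0 : ℝ)) (P := Q) h0)
  refine ⟨τ / 2, by positivity, fun t ht y hy ξ => ?_⟩
  rcases eq_or_ne ξ 0 with rfl | hξ
  · have hp : pull (fderiv ℝ Z y) (0 : Fin n → ℝ) = 0 := by
      funext i; simp [pull]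
    simp [defect, hp, hV0, conorm_zero]
  have hn : 0 < ‖ξ‖ := norm_pos_iff.2 hξ
  have hu : ‖ξ‖⁻¹ • ξ ∈ Metric.sphere (0 : Fin n → ℝ) 1 := by
    rw [mem_sphere_zero_iff_norm, norm_smul, norm_inv, norm_norm, inv_mul_cancel₀ hn.ne']
  have h1 := hsub (show dist t 0 < τ by
    rw [dist_zero_right, Real.norm_eq_abs, abs_of_nonneg ht.1]; linarith [ht.2])
    (y, ‖ξ‖⁻¹ • ξ) ⟨hy, hu⟩ ht.1
  have e0 : |‖ξ‖⁻¹| = ‖ξ‖⁻¹ := abs_of_nonneg (inv_nonneg.2 hn.le)
  simp only [h.defect_smul _ _ _ _ (inv_pos.2 hn), hVs _ _ _ (inv_pos.2 hn), h.conorm_smul, e0] at h1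
  refine le_of_mul_le_mul_left ?_ (inv_pos.2 hn)
  linarith

/-- The flux after a step is close to the flux. -/
theorem exists_flux_field (h : IsCH G D) (hK : IsCompact K) (hZ : ContDiff ℝ 1 Z) {e : ℝ}
    (he : 0 < e) :
    ∃ τ : ℝ, 0 < τ ∧ ∀ t ∈ Icc 0 τ, ∀ y ∈ K, ∀ ξ : Fin n → ℝ,
      |ξ ⬝ᵥ Z y| * dens G y ≤ (1 + t • opMat (fderiv ℝ Z y)).det * dens G (y + t • Z y) *
        (|ξ ⬝ᵥ Z (y + t • Z y)| + e * conorm G (y + t • Z y) ξ) := by
  set X := (Fin n → ℝ) × (Fin n → ℝ)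
  set P : Set X := K ×ˢ Metric.sphere 0 1
  have hP : IsCompact P := hK.prod (isCompact_sphere _ _)
  set lhs : ℝ → X → ℝ := fun _ w => |w.2 ⬝ᵥ Z w.1| * dens G w.1
  set rhs : ℝ → X → ℝ := fun t w => (1 + t • opMat (fderiv ℝ Z w.1)).det *
      dens G (w.1 + t • Z w.1) *
      (|w.2 ⬝ᵥ Z (w.1 + t • Z w.1)| + e * conorm G (w.1 + t • Z w.1) w.2)
  have hy : Continuous fun a : ℝ × X => a.2.1 := continuous_fst.comp continuous_snd
  have hξ : Continuous fun a : ℝ × X => a.2.2 := continuous_snd.comp continuous_snd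
  have hv : Continuous fun a : ℝ × X => Z a.2.1 := hZ.continuous.comp hy
  have hz : Continuous fun a : ℝ × X => a.2.1 + a.1 • Z a.2.1 := hy.add (continuous_fst.smul hv)
  have hl : Continuous (Function.uncurry lhs) :=
    (hξ.dotProduct hv).abs.mul (h.continuous_dens.comp hy)
  have hr : Continuous (Function.uncurry rhs) := by
    refine ((Continuous.matrix_det ?_).mul (h.continuous_dens.comp hz)).mul
      ((hξ.dotProduct (hZ.continuous.comp hz)).abs.add
        (continuous_const.mul (h.continuous_conorm.comp (hz.prodMk hξ))))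
    exact continuous_const.add (continuous_fst.smul (continuous_opMat.comp
      ((hZ.continuous_fderiv one_ne_zero).comp hy)))
  have h0 : ∀ w ∈ P, ∀ᶠ a : ℝ × X in 𝓝 ((0 : ℝ), w), lhs a.1 a.2 < rhs a.1 a.2 := by
    rintro ⟨y, ξ⟩ ⟨-, hs⟩
    refine (hl.tendsto ((0 : ℝ), (y, ξ))).eventually_lt (hr.tendsto ((0 : ℝ), (y, ξ))) ?_
    have hξ0 : ξ ≠ 0 := fun h0 => by simp [h0] at hs
    have := mul_pos (h.dens_pos y) (mul_pos he (h.conorm_pos y hξ0))
    simp only [Function.uncurry, lhs, rhs, zero_smul, add_zero, Matrix.det_one, one_mul]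
    linarith
  obtain ⟨τ, hτ, hsub⟩ := Metric.eventually_nhds_iff.1
    (hP.eventually_forall_of_forall_eventually (P := fun t w => lhs t w < rhs t w) h0)
  refine ⟨τ / 2, by positivity, fun t ht y hy ξ => ?_⟩
  rcases eq_or_ne ξ 0 with rfl | hξ0
  · simp [conorm_zero]
  have hn : 0 < ‖ξ‖ := norm_pos_iff.2 hξ0
  have hu : ‖ξ‖⁻¹ • ξ ∈ Metric.sphere (0 : Fin n → ℝ) 1 := by
    rw [mem_sphere_zero_iff_norm, norm_smul, norm_inv, norm_norm, inv_mul_cancel₀ hn.ne']
  have h1 := hsub (show dist t 0 < τ by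
    rw [dist_zero_right, Real.norm_eq_abs, abs_of_nonneg ht.1]; linarith [ht.2])
    (y, ‖ξ‖⁻¹ • ξ) ⟨hy, hu⟩
  simp only [lhs, rhs, smul_dotProduct, smul_eq_mul, abs_mul, h.conorm_smul, abs_inv,
    abs_norm] at h1
  refine le_of_mul_le_mul_left ?_ (inv_pos.2 hn)
  linarith

/-- The volume after a small step along any compactly supported field changes by at most its flux;
no support condition is needed. -/
theorem exists_vol_step (h : IsCH G D) (hK : IsCompact K) (hZ : ContDiff ℝ 1 Z)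
    (hZc : HasCompactSupport Z) {e : ℝ} (he : 0 < e) :
    ∃ τ : ℝ, 0 < τ ∧ ∀ t ∈ Icc 0 τ, ∀ u, Comp K u →
      |vol G (fun y => u (y + t • Z y)) - vol G u| ≤
        t * ((∫ y, |cd u y ⬝ᵥ Z y| * dens G y) + e * per G u) := by
  set K' : Set (Fin n → ℝ) := K ∪ tsupport Z
  have hK' : IsCompact K' := hK.union hZc
  obtain ⟨CZ, hCZ⟩ := hZc.exists_bound_of_continuous hZ.continuous
  obtain ⟨B, hB⟩ := (hZc.fderiv ℝ).exists_bound_of_continuous (hZ.continuous_fderiv one_ne_zero)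
  have hB0 : 0 ≤ B := (norm_nonneg _).trans (hB 0)
  obtain ⟨τf, hτf, hflux⟩ := exists_flux_field h hK' hZ he
  obtain ⟨τj, hτj, hdetb⟩ := exists_det_step (n := n) B
  refine ⟨min (min τf τj) (1 / (B + 1)), by positivity, fun t ht u hu => ?_⟩
  have htτ : t ≤ τf ∧ t ≤ τj ∧ t ≤ 1 / (B + 1) :=
    ⟨ht.2.trans ((min_le_left _ _).trans (min_le_left _ _)),
      ht.2.trans ((min_le_left _ _).trans (min_le_right _ _)), ht.2.trans (min_le_right _ _)⟩
  have hu' : Comp K' u := ⟨hu.1, hu.2.1.trans subset_union_left, hu.2.2⟩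
  have hdu : Continuous (fderiv ℝ u) := hu.1.continuous_fderiv one_ne_zero
  have hduc : HasCompactSupport (fderiv ℝ u) :=
    (HasCompactSupport.intro hK fun y hy =>
      image_eq_zero_of_notMem_tsupport fun hs => hy (hu.2.1 hs)).fderiv ℝ
  obtain ⟨Cu, hCu⟩ := hduc.exists_bound_of_continuous hdu
  set f : ℝ → (Fin n → ℝ) → ℝ := fun r y => u (y + r • Z y) * dens G y
  set f' : ℝ → (Fin n → ℝ) → ℝ := fun r y => fderiv ℝ u (y + r • Z y) (Z y) * dens G y
  have hcf : ∀ r, Continuous (f r) := fun r =>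
    (hu.1.continuous.comp (continuous_id.add (hZ.continuous.const_smul r))).mul h.continuous_dens
  have hcf' : ∀ r, Continuous (f' r) := fun r =>
    ((hdu.comp (continuous_id.add (hZ.continuous.const_smul r))).clm_apply hZ.continuous).mul
      h.continuous_dens
  have hint : ∀ r, Integrable (f r) := by
    intro r
    refine (hcf r).integrable_of_hasCompactSupport (HasCompactSupport.intro hK'
      fun y hy => ?_)
    rw [Set.mem_union, not_or] at hy
    simp [f, image_eq_zero_of_notMem_tsupport hy.2,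
      image_eq_zero_of_notMem_tsupport (fun hs => hy.1 (hu.2.1 hs))]
  set bound : (Fin n → ℝ) → ℝ := (tsupport Z).indicator fun y => Cu * CZ * dens G y
  have hbound : Integrable bound :=
    ((continuous_const.mul h.continuous_dens).continuousOn.integrableOn_compact
      hZc).integrable_indicator (isClosed_tsupport Z).measurableSet
  have hder : ∀ r : ℝ, HasDerivAt (fun r => ∫ y, f r y) (∫ y, f' r y) r := fun r => by
    refine (hasDerivAt_integral_of_dominated_loc_of_deriv_le (μ := volume) (F' := f') (bound := bound)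
      (Metric.ball_mem_nhds r one_pos) (Eventually.of_forall fun q => (hcf q).aestronglyMeasurable)
      (hint r) (hcf' r).aestronglyMeasurable (Eventually.of_forall fun y q _ => ?_) hbound
      (Eventually.of_forall fun y q _ => ?_)).2
    · by_cases hy : y ∈ tsupport Z
      · simp only [bound, Set.indicator_of_mem hy, f', norm_mul,
          Real.norm_of_nonneg (h.dens_pos y).le]
        exact mul_le_mul_of_nonneg_right (((fderiv ℝ u _).le_opNorm _).trans
          (mul_le_mul (hCu _) (hCZ y) (norm_nonneg _) ((norm_nonneg _).trans (hCu y))))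
          (h.dens_pos y).le
      · simp [bound, Set.indicator_of_notMem hy, f', image_eq_zero_of_notMem_tsupport hy]
    · have h1 : HasDerivAt (fun q : ℝ => y + q • Z y) (Z y) q := by
        simpa using ((hasDerivAt_id q).smul_const (Z y)).const_add y
      exact (((hu.1.differentiable one_ne_zero _).hasFDerivAt).comp_hasDerivAt q h1).mul_const _
  have i0 : Integrable fun y => conorm G y (cd u y) * dens G y := by
    simpa using h.integrable_mul_conorm hK hu (continuous_const (y := (1 : ℝ)))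
  have i1 : Integrable fun y => |cd u y ⬝ᵥ Z y| * dens G y := by
    refine Continuous.integrable_of_hasCompactSupport
      (((continuous_cd hu.1).dotProduct hZ.continuous).abs.mul h.continuous_dens) ?_
    refine HasCompactSupport.intro hK fun y hy => ?_
    simp [cd_eq_zero_of_notMem fun hs => hy (hu.2.1 hs)]
  have hslope : ∀ r ∈ Ico 0 t,
      ‖∫ y, f' r y‖ ≤ (∫ y, |cd u y ⬝ᵥ Z y| * dens G y) + e * per G u := by
    intro r hr
    set g : (Fin n → ℝ) → ℝ := fun z => |cd u z ⬝ᵥ Z z| * dens G z +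
      e * (conorm G z (cd u z) * dens G z)
    have hrB : r * B < 1 := by
      calc r * B ≤ 1 / (B + 1) * B := mul_le_mul_of_nonneg_right (hr.2.le.trans htτ.2.2) hB0
        _ < 1 := by rw [div_mul_eq_mul_div, div_lt_one (by positivity)]; linarith
    obtain ⟨hint', hle⟩ := setIntegral_step_le hK'.measurableSet (hZ.differentiable one_ne_zero)
      hB hr.1 hrB (fun y _ => le_trans (by norm_num)
        (hdetb r ⟨hr.1, hr.2.le.trans htτ.2.1⟩ _ (hB y)))
      (g := g) (i1.add (i0.const_mul e))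
      fun z => add_nonneg (mul_nonneg (abs_nonneg _) (h.dens_pos z).le)
        (mul_nonneg he.le (mul_nonneg (conorm_nonneg z _) (h.dens_pos z).le))
    refine le_trans ?_ (hle.trans_eq (by
      simp only [g]; rw [integral_add i1 (i0.const_mul e), integral_const_mul]; rfl))
    rw [← setIntegral_eq_integral_of_forall_compl_eq_zero (s := K') fun y hy => by
      rw [Set.mem_union, not_or] at hy
      simp [f', image_eq_zero_of_notMem_tsupport hy.2]]
    refine (norm_integral_le_integral_norm _).trans ?_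
    refine setIntegral_mono_on ((hcf' r).norm.continuousOn.integrableOn_compact hK') hint'
      hK'.measurableSet fun y hy => ?_
    simp only [f', Real.norm_eq_abs, abs_mul, abs_of_pos (h.dens_pos y), ← cd_dotProduct]
    refine (hflux r ⟨hr.1, hr.2.le.trans htτ.1⟩ y hy (cd u (y + r • Z y))).trans (le_of_eq ?_)
    simp only [g]
    ring
  have hmvt := norm_image_sub_le_of_norm_deriv_le_segment' (f := fun r => ∫ y, f r y)
    (fun r _ => (hder r).hasDerivWithinAt) hslope t ⟨ht.1, le_rfl⟩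
  have e0 : ∫ y, f 0 y = vol G u := by simp [f, vol]
  rw [e0, Real.norm_eq_abs, sub_zero] at hmvt
  have e1 : vol G (fun y => u (y + t • Z y)) = ∫ y, f t y := rfl
  rw [e1, mul_comm t]
  exact hmvt

end Vale.Agent.P219.CH.Sharp
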